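import Claimed.Agent.R322.Pack050
import Claimed.Agent.R322.Pack048

/-!
# AE Lemma 7.2: definitions and the cut of the proof

Owner: helper224.  Everything is in the SCALED units of the failed ball: `N : NCyl m n` is a normal cylinder over `ball 0 72` (the field
`FitFam.energy`), `a = m₀ ℓ^{k-1}` is the height scale.  Standing hypothesis: `Lin.Small N 72 a C ε` (use `Lin.exists_kits` to get the
kits `Lin.SK N 72 a C ε Cm`, `Lin.VK N ε Cg`).

THE CUT.
* `Fail/Scale.lean` (S)  : a failed fit gives `Small`, `HasMom`, `HasFail` with `ε → 0` as `m₀ → 0`; transfer of the conclusion back to start units.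
* `Fail/Pos.lean`   (P)  : `HasFail` ⟹ `δ a² ≤ sm N y₀ r` for ALL `y₀ ∈ B_30` (compactness: `Lin.core`, unique continuation `Red.LinTuple.Hh_pos`;
                           lower bound of the second moment from the failure point by the mean value inequality).
* `Fail/Small.lean` (Q)  : `HasMom` and NO separation near `y₀` ⟹ `sm N y₀ (1/400) < δ a²` (quantitative, no compactness).
* `Fail/Main.lean`       : (P) + (Q) ⟹ `fail_scaled`; (S) ⟹ `fail_sep`.
-/

set_option autoImplicit false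

open scoped ENNReal ContDiff
open MeasureTheory Filter Topology

namespace Claimed.Agent.R322.Fit

open Claimed.Agent.R322.Tube Claimed.Agent.R322.Freq Claimed.Agent.R322.Lin

variable {m n : ℕ}

/-- first moment of the VERTICAL heights (horizontal arguments), scaled units -/
def HasMom (N : NCyl m n) (q : ℕ) (a C : ℝ) : Prop :=
  ∀ (η : E m → E n) (A : ℝ), ContDiff ℝ ∞ η → tsupport η ⊆ Metric.ball 0 69 →
    (∀ i : ℕ, i ≤ q → ∀ y, ‖iteratedFDeriv ℝ i η y‖ ≤ A) →
    |∫ X, inner ℝ (prV m n X - N.u (prH m n X)) (η (prH m n X)) ∂N.μ| ≤ C * A * a ^ 2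

/-- a support point of normal height `≥ a / 2` over `B_65` -/
def HasFail (N : NCyl m n) (a : ℝ) : Prop :=
  ∃ X ∈ N.W.support, X ∈ Cyl N.u N.Ω N.h ∧ ‖npr N.u X‖ < 65 ∧ a / 2 ≤ ‖zz N.u X‖

/-- second moment of the normal heights over the base ball `B_r(y₀)` -/
noncomputable def sm (N : NCyl m n) (y₀ : E m) (r : ℝ) : ℝ :=
  ∫ X in {X | ‖npr N.u X - y₀‖ < r}, ‖zz N.u X‖ ^ 2 ∂N.μ

/-- low-tilt points over `B_{1/100}(y₀)` at distance `≥ d` from `Γ` -/
def SepSet (N : NCyl m n) (y₀ : E m) (Γ : Set (E (m + n))) (d : ℝ) : Set (E (m + n)) :=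
  {X | ‖prH m n X - y₀‖ < 1 / 100 ∧ ‖N.W.P X - PH m n‖ ≤ 1 / 100 ∧ ∀ P ∈ Γ, d ≤ ‖X - P‖}

/-- the scaled hypotheses which are common to (P) and (Q) -/
structure ScHyp (N : NCyl m n) (Q J : ℕ) (h a C ε : ℝ) : Prop where
  N_Q : N.Q = Q
  N_h : N.h = h
  a_pos : 0 < a
  a_le : a ≤ ε
  smooth : ContDiff ℝ J N.u
  /-- ALL orders `0..J` -/
  geo : ∀ i : ℕ, i ≤ J → ∀ y, ‖iteratedFDeriv ℝ i N.u y‖ ≤ ε
  small : Small N 72 a C ε

end Claimed.Agent.R322.Fit
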