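import Claimed.Agent.R322.Pack016
import Claimed.Agent.R322.Pack043

/-!
# Mean value inequality for the normal height over a graph (AE Lemma 7.2 (P), CO (5.6))

`g X = |zz u X|² + s²` on the tube of a graph: `∇ g = 2 z`, `tlap P g = 2 tdiv P (D zz)`, `normal_trace`, `W.mean_value`.
Prefix `hm_`.
-/

set_option autoImplicit false

open scoped ENNReal ContDiff Topology
open MeasureTheory

namespace Claimed.Agent.R322.Tube

variable {m n : ℕ} {u : E m → E n} {κ h : ℝ} {X : E (m + n)}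

theorem hm_inner_zz_Kz (hu : Geo κ u) (hh : h ≤ 2 / 9) (hX : X ∈ Tub u h) (a : E (m + n)) :
    inner ℝ (zz u X) (Kz u X (Ph u (npr u X) a)) = (0 : ℝ) := by
  have e : Ph u (npr u X) (Kz u X a) = Kz u X (Ph u (npr u X) a) :=
    congrArg (fun T : E (m + n) →L[ℝ] E (m + n) => T a)
      (Ph_comp_Kw hu.c2 (hu.norm_Shp_zz_le_half hh hX))
  rw [← e, ← (isProj_Ph u (npr u X)).symm, (tube_unique_of_le hu (by linarith) hX).2.2.1,
    inner_zero_left]

theorem hm_hasGradientAt (hu : Geo κ u) (hh : h ≤ 2 / 9) (hX : X ∈ Tub u h) (s : ℝ) :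
    HasGradientAt (fun X' => ‖zz u X'‖ ^ 2 + s ^ 2) ((2 : ℝ) • zz u X) X := by
  rw [hasGradientAt_iff_hasFDerivAt]
  have h1 := ((zz_local hu hh hX).2.norm_sq).add_const (s ^ 2)
  refine h1.congr_fderiv ?_
  ext a
  have e1 := hm_inner_zz_Kz hu hh hX a
  simp only [smul_apply, ContinuousLinearMap.comp_apply, innerSL_apply_apply,
    sub_apply, ContinuousLinearMap.id_apply,
    InnerProductSpace.toDual_apply_apply, inner_sub_right, e1, inner_smul_left]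
  simp

theorem hm_contDiffAt (hu : Geo κ u) (hh : h ≤ 2 / 9) (hX : X ∈ Tub u h) (s : ℝ) :
    ContDiffAt ℝ 2 (fun X' => ‖zz u X'‖ ^ 2 + s ^ 2) X :=
  (((zz_local hu hh hX).1.of_le (by norm_num)).norm_sq ℝ).add contDiffAt_const

theorem hm_tlap (hu : Geo κ u) (hh : h ≤ 2 / 9) (hX : X ∈ Tub u h) (s : ℝ)
    {P : E (m + n) →L[ℝ] E (m + n)} (hP : IsProj m P) :
    tlap P (fun X' => ‖zz u X'‖ ^ 2 + s ^ 2) X = 2 * tdiv P (fderiv ℝ (zz u) X) := by
  rw [tlap_eq_tdiv hP (hm_contDiffAt hu hh hX s)]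
  have e : gradient (fun X' => ‖zz u X'‖ ^ 2 + s ^ 2) =ᶠ[𝓝 X] fun X' => (2 : ℝ) • zz u X' := by
    filter_upwards [(isOpen_Tub u h).mem_nhds hX] with X' hX'
    exact (hm_hasGradientAt hu hh hX' s).gradient
  rw [e.fderiv_eq, fderiv_fun_const_smul (zz_local hu hh hX).2.differentiableAt, tdiv_smul]

/-- the differential inequality for `g = |z|² + s²` -/
theorem hm_sub (hu : Geo κ u) (hh : h ≤ 2 / 9) (hh' : (11 * ((m + n : ℕ) : ℝ) + 3) * h ≤ 1)
    (hX : X ∈ Tub u h) {b s : ℝ} (hb : 0 ≤ b) (hs : 0 ≤ s) (hH : ‖HS u (npr u X)‖ ≤ b * s)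
    {P : E (m + n) →L[ℝ] E (m + n)} (hP : IsProj m P) :
    - (b + 2 * (11 * ((m + n : ℕ) : ℝ) + 3)) * (‖zz u X‖ ^ 2 + s ^ 2)
      ≤ tlap P (fun X' => ‖zz u X'‖ ^ 2 + s ^ 2) X := by
  rw [hm_tlap hu hh hX s hP]
  set C₁ : ℝ := 11 * ((m + n : ℕ) : ℝ) + 3 with hC₁
  have hC0 : 0 < C₁ := by positivity
  have h1 := (normal_trace_of_le hu hh hX hP).2
  rw [← hC₁] at h1
  have hz : ‖zz u X‖ < h := (tube_unique_of_le hu (by linarith) hX).2.2.2.1
  have hz0 := norm_nonneg (zz u X)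
  have he := tilt_nonneg u hP X
  have hκ0 := hu.nonneg
  have hκ1 := hu.le_one
  have h2 : inner ℝ (HS u (npr u X)) (zz u X) ≤ b * s * ‖zz u X‖ :=
    (real_inner_le_norm _ _).trans (mul_le_mul_of_nonneg_right hH hz0)
  have h3 : κ ^ 2 * ‖zz u X‖ ^ 2 ≤ ‖zz u X‖ ^ 2 :=
    mul_le_of_le_one_left (sq_nonneg _) (pow_le_one₀ hκ0 hκ1)
  have h4 : C₁ * (κ * tilt u P X * ‖zz u X‖) ≤ tilt u P X := by
    have a1 : κ * tilt u P X ≤ tilt u P X := mul_le_of_le_one_left he hκ1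
    have a2 : C₁ * ‖zz u X‖ ≤ 1 := (mul_le_mul_of_nonneg_left hz.le hC0.le).trans hh'
    calc C₁ * (κ * tilt u P X * ‖zz u X‖) = (κ * tilt u P X) * (C₁ * ‖zz u X‖) := by ring
      _ ≤ tilt u P X * 1 := mul_le_mul a1 a2 (by positivity) he
      _ = tilt u P X := mul_one _
  have h5 := (abs_le.1 h1).1
  have h6 : 2 * (b * s * ‖zz u X‖) ≤ b * (‖zz u X‖ ^ 2 + s ^ 2) := by
    nlinarith [mul_nonneg hb (sq_nonneg (‖zz u X‖ - s))]
  have h7 : 0 ≤ C₁ * s ^ 2 := by positivity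
  nlinarith

/-- **Mean value inequality for the normal height, general form.**  `s` is a free height scale and `b s` bounds the mean curvature of
the graph.  (`height_mean`: `s = κH`, `b = 1`;  CO (5.6): `s = a r`, `b = C / r`, `R = r`.) -/
theorem height_mean_gen (m n : ℕ) (hm : 1 ≤ m) : ∃ h₀ C : ℝ, 0 < h₀ ∧ 0 < C ∧
    ∀ (κ₂ : ℝ) (u : E m → E n), Geo κ₂ u →
    ∀ (W : SIV m n) (p : E (m + n)) (R b s : ℝ), p ∈ W.support → 0 < R → Metric.closedBall p R ⊆ W.U →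
      Metric.closedBall p R ⊆ Tub u h₀ → 0 ≤ b → 0 ≤ s →
      (∀ X ∈ Metric.ball p R, ‖HS u (npr u X)‖ ≤ b * s) →
      ‖zz u p‖ ^ 2 + s ^ 2 ≤ Real.exp ((b + 2 * C) * R ^ 2 / 4) *
        ((kap m * R ^ m)⁻¹ * ∫ X in Metric.ball p R, (‖zz u X‖ ^ 2 + s ^ 2) ∂W.μ) := by
  set C₁ : ℝ := 11 * ((m + n : ℕ) : ℝ) + 3 with hC₁
  have hC0 : 0 < C₁ := by positivity
  refine ⟨min (2 / 9) (1 / C₁), C₁, lt_min (by norm_num) (by positivity), hC0, ?_⟩
  intro κ₂ u hu W p R b s hp hR hU hT hb hs hH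
  have hh : min (2 / 9) (1 / C₁) ≤ 2 / 9 := min_le_left _ _
  have hh' : C₁ * min (2 / 9) (1 / C₁) ≤ 1 := by
    calc C₁ * min (2 / 9) (1 / C₁) ≤ C₁ * (1 / C₁) :=
          mul_le_mul_of_nonneg_left (min_le_right _ _) hC0.le
      _ = 1 := by field_simp
  refine W.mean_value hm hp hR hU (isOpen_Tub u _) hT
    (u := fun X' => ‖zz u X'‖ ^ 2 + s ^ 2)
    (fun X hX => (hm_contDiffAt hu hh hX s).contDiffWithinAt) (fun X _ => by positivity)
    (c := b + 2 * C₁) (by positivity) (Filter.Eventually.of_forall fun X hX => ?_)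
  exact hm_sub hu hh hh' (hT (Metric.ball_subset_closedBall hX)) hb hs (hH X hX) (W.P_proj X)

end Claimed.Agent.R322.Tube
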