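import Claimed.Agent.R322.Fit.Fail.Defs
import Claimed.Agent.R322.Fit.Fail.Mean
import Claimed.Agent.R322.Lin.Main
import Claimed.Agent.R322.Pack008
import Claimed.Agent.R322.Pack043

/-!
# AE Lemma 7.2, part (P): a failure point forces a definite second moment over EVERY small base ball in `B_30`

* `height_mean` : mean value inequality for `|z|² + κ_H²` on a stationary varifold in the tube of a graph.
* `fail_lower`  : `HasFail` ⟹ `c a² ≤ sm N 0 66`.
* `fail_pos`    : compactness (`Lin.core`) and unique continuation (`Red.LinTuple.Hh_pos`).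
-/

set_option autoImplicit false

open scoped ENNReal ContDiff
open MeasureTheory Filter Topology

namespace Claimed.Agent.R322.Fit

open Claimed.Agent.R322.Tube Claimed.Agent.R322.Freq Claimed.Agent.R322.Lin Claimed.Agent.R322.Fn

variable {m n : ℕ}

/-- **Mean value inequality for the normal height.**
PLAN.  `g X = |zz u X|² + κH²` is `C²` on `O = Tub u h₀` (`tube_deriv`).  `∇ |z|² = 2 z` because `(Dz)ᵀ z = z` (`Dz = 1 - K_z P_h`, `K_z` symmetric and
`P_h z = 0`, or: differentiate `|z|² = |X - F(π X)|²` and use `z ⊥ dF`), so `tlap P g = 2 tdiv P (D zz)`; `normal_trace`: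
`tlap P g ≥ 2 e (1 - C κ₂ |z|) - 2 |H_S| |z| - 2 C κ₂² |z|² ≥ - 2 κH |z| - 2 C |z|² ≥ - (1 + 2 C) g` if `C h₀ ≤ 1`.  `W.mean_value` with `c = 1 + 2 C`, `R ≤ 1`. -/
theorem height_mean (m n : ℕ) (hm : 1 ≤ m) : ∃ h₀ C : ℝ, 0 < h₀ ∧ 0 < C ∧ ∀ (κ₂ : ℝ) (u : E m → E n), Geo κ₂ u →
    ∀ (W : SIV m n) (p : E (m + n)) (R κH : ℝ), p ∈ W.support → 0 < R → R ≤ 1 → Metric.closedBall p R ⊆ W.U →
      Metric.closedBall p R ⊆ Tub u h₀ → 0 ≤ κH → (∀ X ∈ Metric.ball p R, ‖HS u (npr u X)‖ ≤ κH) →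
      ‖zz u p‖ ^ 2 ≤ C * (R ^ m)⁻¹ * ∫ X in Metric.ball p R, (‖zz u X‖ ^ 2 + κH ^ 2) ∂W.μ := by
  obtain ⟨h₀, C, hh₀, hC, H⟩ := height_mean_gen m n hm
  have hk := kap_pos m
  refine ⟨h₀, Real.exp ((1 + 2 * C) / 4) * (kap m)⁻¹, hh₀, by positivity, ?_⟩
  intro κ₂ u hu W p R κH hp hR hR1 hU hT hκ hH
  have h1 := H κ₂ u hu W p R 1 κH hp hR hU hT zero_le_one hκ
    (fun X hX => by rw [one_mul]; exact hH X hX)
  have hI : 0 ≤ ∫ X in Metric.ball p R, (‖zz u X‖ ^ 2 + κH ^ 2) ∂W.μ :=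
    integral_nonneg fun X => by positivity
  have he : Real.exp ((1 + 2 * C) * R ^ 2 / 4) ≤ Real.exp ((1 + 2 * C) / 4) := by
    apply Real.exp_le_exp.2
    have : R ^ 2 ≤ 1 := pow_le_one₀ hR.le hR1
    nlinarith
  calc ‖zz u p‖ ^ 2 ≤ ‖zz u p‖ ^ 2 + κH ^ 2 := by nlinarith [sq_nonneg κH]
    _ ≤ _ := h1
    _ ≤ Real.exp ((1 + 2 * C) / 4) *
        ((kap m * R ^ m)⁻¹ * ∫ X in Metric.ball p R, (‖zz u X‖ ^ 2 + κH ^ 2) ∂W.μ) := by
        gcongr
    _ = _ := by rw [mul_inv]; ring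

theorem fl_prH_eq (u : E m → E n) (X : E (m + n)) :
    prH m n X = npr u X + prH m n (zz u X) := by
  unfold zz Fg
  rw [map_sub, prH_mkHV]
  abel

/-- a small ball around a point of small height stays in the tube, and the projection moves little -/
theorem fl_ball {κ : ℝ} {u : E m → E n} (hu : Geo κ u) {h : ℝ} (hh : h ≤ 1 / 4) {p X : E (m + n)}
    (hp : ‖zz u p‖ ≤ h / 4) (hX : ‖X - p‖ ≤ h / 4) (h0 : 0 < h) :
    X ∈ Tub u h ∧ ‖zz u X‖ < h ∧ ‖npr u X - npr u p‖ ≤ h := by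
  have e : X - Fg u (npr u p) = (X - p) + zz u p := by unfold zz; abel
  have h1 : ‖X - Fg u (npr u p)‖ ≤ h / 2 := by
    rw [e]; exact (norm_add_le _ _).trans (by linarith)
  have hT : X ∈ Tub u h := ⟨npr u p, by linarith⟩
  have h2 : ‖zz u X‖ ≤ h / 2 := ((tube_unique_of_le hu hh hT).1 (npr u p)).trans h1
  refine ⟨hT, by linarith, ?_⟩
  have e2 : npr u X - npr u p = prH m n (X - p) - prH m n (zz u X) + prH m n (zz u p) := by
    rw [map_sub, fl_prH_eq u X, fl_prH_eq u p]; abel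
  rw [e2]
  have a1 := Tube.norm_prH_le (m := m) (n := n) (X - p)
  have a2 := Tube.norm_prH_le (m := m) (n := n) (zz u X)
  have a3 := Tube.norm_prH_le (m := m) (n := n) (zz u p)
  have a4 := norm_add_le (prH m n (X - p) - prH m n (zz u X)) (prH m n (zz u p))
  have a5 := norm_sub_le (prH m n (X - p)) (prH m n (zz u X))
  linarith

/-- **Lower bound of the second moment from the failure point.**
PLAN.  `p` = the failure point, `R = h / 4`, `C₀ a ≤ h / 4`.  For `X ∈ closedBall p R`: `X ∈ Tub u h` (`|X - F(π p)| ≤ R + |z p| < h`), hence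
`|zz X| ≤ R + |z p| < h` (`tube_unique`), `|π X - π p| ≤ |X - p| + |zz X| + |zz p| < 1` (`prH X = π X + prH (zz X)`), so `closedBall p R ⊆ Cyl ∩ {|π| < 66}`,
`Cyl ⊆ W.U` (`N.cyl_sub`).  `height_mean` with `κH = ε a` (`Small.curv`): `a²/4 ≤ C R^{-m} (sm N 0 66 + ε² a² Cm)`. -/
theorem fail_lower (m n Q : ℕ) (hm : 1 ≤ m) : ∃ h₀ : ℝ, 0 < h₀ ∧ ∀ (h C : ℝ), 0 < h → h ≤ h₀ →
    ∃ c ε₁ : ℝ, 0 < c ∧ 0 < ε₁ ∧ ∀ (N : NCyl m n) (a ε : ℝ), ε ≤ ε₁ → ScHyp N Q 4 h a C ε → HasFail N a →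
      c * a ^ 2 ≤ sm N 0 66 := by
  obtain ⟨h₁, C₁, hh₁, hC₁, H₁⟩ := height_mean m n hm
  obtain ⟨h₂, hh₂, H₂⟩ := exists_kit m n Q 72 (by norm_num)
  refine ⟨min (min h₁ h₂) (1 / 4), by positivity, fun h C hh hle => ?_⟩
  obtain ⟨Cm, hCm, H₂⟩ := H₂ C
  have hle1 : h ≤ h₁ := hle.trans ((min_le_left _ _).trans (min_le_left _ _))
  have hle2 : h ≤ h₂ := hle.trans ((min_le_left _ _).trans (min_le_right _ _))
  have hle4 : h ≤ 1 / 4 := hle.trans (min_le_right _ _)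
  set R : ℝ := h / 4 with hR
  have hR0 : 0 < R := by positivity
  set A : ℝ := C₁ * (R ^ m)⁻¹ with hA
  have hA0 : 0 < A := by positivity
  refine ⟨1 / (8 * A), min (1 / 2) (min (h / (4 * (|C| + 1))) (1 / (8 * A * Cm))), by positivity,
    by positivity, ?_⟩
  rintro N a ε hε hS ⟨p, hp, hpC, hp65, hpa⟩
  have ha := hS.a_pos
  have hε0 : 0 < ε := ha.trans_le hS.a_le
  have hε2 : ε ≤ 1 / 2 := hε.trans (min_le_left _ _)
  have hε3 : ε ≤ h / (4 * (|C| + 1)) := hε.trans ((min_le_right _ _).trans (min_le_left _ _))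
  have hε4 : ε ≤ 1 / (8 * A * Cm) := hε.trans ((min_le_right _ _).trans (min_le_right _ _))
  have kit := H₂ N a ε hS.N_Q (by rw [hS.N_h]; exact hle2) ha (by linarith [hS.a_le]) hε0.le hε2
    hS.small
  have hG : Geo 1 N.u := kit.geo
  have hzp : ‖zz N.u p‖ ≤ h / 4 := by
    refine (hS.small.height p hp hpC).trans ?_
    rw [le_div_iff₀ (by positivity)] at hε3
    have h1 : C * a ≤ |C| * ε := mul_le_mul (le_abs_self C) hS.a_le ha.le (abs_nonneg C)
    nlinarith [abs_nonneg C]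
  have hball : ∀ X ∈ Metric.closedBall p R, X ∈ Tub N.u h ∧ X ∈ Cyl N.u N.Ω N.h ∧
      ‖npr N.u X - 0‖ < 66 := by
    intro X hX
    rw [Metric.mem_closedBall, dist_eq_norm] at hX
    obtain ⟨b1, b2, b3⟩ := fl_ball hG hle4 hzp hX hh
    have b4 : ‖npr N.u X‖ < 66 := by
      have : npr N.u X = (npr N.u X - npr N.u p) + npr N.u p := by abel
      rw [this]
      refine (norm_add_le _ _).trans_lt ?_
      linarith
    refine ⟨b1, ⟨?_, by rw [hS.N_h]; exact b2⟩, by rwa [sub_zero]⟩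
    rw [hS.small.Ω_eq, Metric.mem_ball, dist_zero_right]
    linarith
  have hcyl : Metric.closedBall p R ⊆ Cyl N.u N.Ω N.h := fun X hX => (hball X hX).2.1
  have key := H₁ 1 N.u hG N.W p R (ε * a) hp hR0 (by rw [hR]; linarith)
    (hcyl.trans N.cyl_sub) (fun X hX => (hball X hX).1.imp fun _ hy => hy.trans_le hle1) (by positivity)
    (fun X hX => by
      have h1 := (hball X (Metric.ball_subset_closedBall hX)).2.1.1
      rw [hS.small.Ω_eq] at h1
      have h2 := hS.small.curv _ h1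
      have h3 := Real.sqrt_nonneg (DHSsq N.u (npr N.u X))
      linarith)
  have hμ : N.W.μ.restrict (Metric.ball p R) = N.μ.restrict (Metric.ball p R) := by
    unfold NCyl.μ
    rw [Measure.restrict_restrict_of_subset (Metric.ball_subset_closedBall.trans hcyl)]
  have := kit.fin
  have hint := kit.hsqw.1
  rw [hμ, integral_add hint.integrableOn (integrable_const _)] at key
  have k1 : ∫ X in Metric.ball p R, ‖zz N.u X‖ ^ 2 ∂N.μ ≤ sm N 0 66 := by
    unfold sm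
    refine setIntegral_mono_set hint.integrableOn (Eventually.of_forall fun X => sq_nonneg _)
      (Eventually.of_forall fun X hX => ?_)
    exact (hball X (Metric.ball_subset_closedBall hX)).2.2
  have k2 : ∫ _ in Metric.ball p R, (ε * a) ^ 2 ∂N.μ ≤ (ε * a) ^ 2 * Cm := by
    rw [setIntegral_const, smul_eq_mul, mul_comm]
    have : N.μ.real (Metric.ball p R) ≤ Cm :=
      (measureReal_mono (Set.subset_univ _)).trans kit.mass
    gcongr
  have k3 : a ^ 2 / 4 ≤ ‖zz N.u p‖ ^ 2 := by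
    have := pow_le_pow_left₀ (by positivity) hpa 2
    nlinarith
  have k4 : A * (ε ^ 2 * Cm) ≤ 1 / 8 := by
    rw [le_div_iff₀ (by positivity)] at hε4
    have : ε ^ 2 ≤ ε := by nlinarith
    have h5 : A * (ε ^ 2 * Cm) ≤ A * (ε * Cm) := by gcongr
    nlinarith
  have k5 : a ^ 2 / 4 ≤ A * (sm N 0 66 + (ε * a) ^ 2 * Cm) :=
    k3.trans (key.trans (by gcongr))
  have k6 : A * ((ε * a) ^ 2 * Cm) ≤ a ^ 2 / 8 := by
    have : A * ((ε * a) ^ 2 * Cm) = (A * (ε ^ 2 * Cm)) * a ^ 2 := by ring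
    rw [this]
    nlinarith [sq_nonneg a]
  rw [div_mul_eq_mul_div, one_mul, div_le_iff₀ (by positivity)]
  nlinarith

/-! ### proof of (P) -/

/-- base sets are null measurable -/
theorem fp_nullMeas {N : NCyl m n} (ok : CylOK N) (y₀ : E m) (r : ℝ) :
    NullMeasurableSet {X | ‖npr N.u X - y₀‖ < r} N.μ := by
  have h : {X | ‖npr N.u X - y₀‖ < r} = npr N.u ⁻¹' Metric.ball y₀ r := by
    ext X; simp [Metric.mem_ball, dist_eq_norm]
  rw [h]
  exact ok.aemeasurable_npr.nullMeasurableSet_preimage Metric.isOpen_ball.measurableSet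

theorem fp_sm_eq {N : NCyl m n} (ok : CylOK N) (y₀ : E m) (r : ℝ) :
    sm N y₀ r = ∫ X, Set.indicator {X | ‖npr N.u X - y₀‖ < r} (fun X => ‖zz N.u X‖ ^ 2) X ∂N.μ := by
  unfold sm
  rw [integral_indicator₀ (fp_nullMeas ok y₀ r)]

theorem fp_sm_le_hsq {N : NCyl m n} {R a C ε Cm : ℝ} (K : SK N R a C ε Cm) (y₀ : E m) (r B : ℝ) (g : E m → ℝ)
    (hg : Continuous g) (hB : ∀ y, |g y| ≤ B) (h0 : ∀ y, 0 ≤ g y) (h1 : ∀ y, ‖y - y₀‖ < r → 1 ≤ g y) :
    sm N y₀ r ≤ hsq N g := by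
  rw [fp_sm_eq K.ok]
  unfold hsq
  refine integral_mono (K.hsqw.1.indicator₀ (fp_nullMeas K.ok y₀ r)) (K.ok.integrable_weight K.hsqw.1 hg hB) fun X => ?_
  by_cases hX : X ∈ {X | ‖npr N.u X - y₀‖ < r}
  · rw [Set.indicator_of_mem hX]
    have := h1 _ hX
    nlinarith [sq_nonneg ‖zz N.u X‖]
  · rw [Set.indicator_of_notMem hX]
    have := h0 (npr N.u X)
    positivity

theorem fp_hsq_le_sm {N : NCyl m n} {R a C ε Cm : ℝ} (K : SK N R a C ε Cm) (y₀ : E m) (r B : ℝ) (g : E m → ℝ)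
    (hg : Continuous g) (h0 : ∀ y, 0 ≤ g y) (hB : ∀ y, g y ≤ B) (h1 : ∀ y, r ≤ ‖y - y₀‖ → g y = 0) :
    hsq N g ≤ B * sm N y₀ r := by
  rw [fp_sm_eq K.ok, ← integral_const_mul]
  unfold hsq
  refine integral_mono (K.ok.integrable_weight K.hsqw.1 hg (B := B) fun y => by rw [abs_of_nonneg (h0 y)]; exact hB y)
    ((K.hsqw.1.indicator₀ (fp_nullMeas K.ok y₀ r)).const_mul B) fun X => ?_
  by_cases hX : X ∈ {X | ‖npr N.u X - y₀‖ < r}
  · simp only [Set.indicator_of_mem hX]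
    exact mul_le_mul_of_nonneg_right (hB _) (by positivity)
  · simp only [Set.indicator_of_notMem hX]
    rw [h1 _ (not_lt.1 hX)]
    simp

/-- fixed cutoff: `1` on `B_67`, `0` outside `B_68` -/
noncomputable def fpg (m : ℕ) (y : E m) : ℝ := max 0 (min 1 (68 - ‖y‖))

theorem fpg_test (m : ℕ) : IsTest (Metric.ball (0 : E m) 70) (fpg m) := by
  refine isTest_of_forall (by unfold fpg; fun_prop) (isCompact_closedBall 0 68)
    (Metric.closedBall_subset_ball (by norm_num)) fun y hy => ?_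
  rw [Metric.mem_closedBall, dist_zero_right, not_le] at hy
  unfold fpg
  rw [max_eq_left]
  exact (min_le_right _ _).trans (by linarith)

theorem fpg_facts (m : ℕ) (y : E m) : 0 ≤ fpg m y ∧ |fpg m y| ≤ 1 ∧ (‖y - 0‖ < 66 → 1 ≤ fpg m y) := by
  have h0 : 0 ≤ fpg m y := le_max_left _ _
  refine ⟨h0, ?_, fun h => ?_⟩
  · rw [abs_of_nonneg h0]
    exact max_le zero_le_one (min_le_left _ _)
  · rw [sub_zero] at h
    unfold fpg
    exact le_max_of_le_right (le_min le_rfl (by linarith))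

theorem ScHyp.of_le {N : NCyl m n} {Q J J' : ℕ} {h a C ε : ℝ} (H : ScHyp N Q J h a C ε) (hJ : J' ≤ J) :
    ScHyp N Q J' h a C ε :=
  ⟨H.N_Q, H.N_h, H.a_pos, H.a_le, H.smooth.of_le (by exact_mod_cast hJ), fun i hi y => H.geo i (hi.trans hJ) y, H.small⟩

theorem fp_inv_tendsto : Tendsto (fun i : ℕ => 1 / ((i : ℝ) + 1)) atTop (𝓝 0) :=
  tendsto_one_div_add_atTop_nhds_zero_nat

/-- **(P)** -/
theorem fail_pos (m n Q : ℕ) (hm : 1 ≤ m) (hn : 1 ≤ n) (hQ : 1 ≤ Q) :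
    ∃ (J₀ : ℕ) (h₀ : ℝ), 0 < h₀ ∧ ∀ (J : ℕ) (h C r : ℝ), J₀ ≤ J → 0 < h → h ≤ h₀ → 0 < r →
      ∃ δ ε₁ : ℝ, 0 < δ ∧ 0 < ε₁ ∧ ∀ (N : NCyl m n) (a ε : ℝ), ε ≤ ε₁ → ScHyp N Q J h a C ε → HasFail N a →
        ∀ y₀ : E m, ‖y₀‖ < 30 → δ * a ^ 2 ≤ sm N y₀ r := by
  obtain ⟨J₁, h₁, hh₁, Hcore⟩ := Lin.core (m := m) (n := n) hm hn Q hQ 72 70 (by norm_num) (by norm_num)
  obtain ⟨h₂, hh₂, Hlow⟩ := fail_lower m n Q hm
  obtain ⟨h₃, hh₃, Hkit⟩ := exists_kit m n Q 72 (by norm_num)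
  refine ⟨max J₁ 4, min h₁ (min h₂ h₃), lt_min hh₁ (lt_min hh₂ hh₃), fun J h C r hJ hh hh0 hr => ?_⟩
  obtain ⟨c, ε₂, hc, hε₂, Hlow⟩ := Hlow h C hh (hh0.trans ((min_le_right _ _).trans (min_le_left _ _)))
  obtain ⟨Cm, hCm, Hkit⟩ := Hkit C
  by_contra hcon
  push Not at hcon
  have hseq : ∀ i : ℕ, ∃ (N : NCyl m n) (a ε : ℝ), ε ≤ min (min ε₂ (1 / 2)) (1 / ((i : ℝ) + 1)) ∧
      ScHyp N Q J h a C ε ∧ HasFail N a ∧ ∃ y₀ : E m, ‖y₀‖ < 30 ∧ sm N y₀ r < 1 / ((i : ℝ) + 1) * a ^ 2 :=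
    fun i => hcon (1 / ((i : ℝ) + 1)) (min (min ε₂ (1 / 2)) (1 / ((i : ℝ) + 1))) (by positivity)
      (lt_min (lt_min hε₂ (by norm_num)) (by positivity))
  choose N a ε hε hS hF y hy hsm using hseq
  have hε1 : ∀ i, ε i ≤ 1 / ((i : ℝ) + 1) := fun i => (hε i).trans (min_le_right _ _)
  have hε2 : ∀ i, ε i ≤ ε₂ := fun i => (hε i).trans ((min_le_left _ _).trans (min_le_left _ _))
  have hε3 : ∀ i, ε i ≤ 1 / 2 := fun i => (hε i).trans ((min_le_left _ _).trans (min_le_right _ _))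
  have hε0 : ∀ i, 0 ≤ ε i := fun i => (hS i).a_pos.le.trans (hS i).a_le
  have hev : ∀ e : ℝ, 0 < e → ∀ᶠ i in atTop, ε i ≤ e := fun e he => by
    filter_upwards [fp_inv_tendsto.eventually (Iic_mem_nhds he)] with i hi
    exact (hε1 i).trans hi
  have K : ∀ i, SK (N i) 72 (a i) C (ε i) Cm := fun i =>
    Hkit (N i) (a i) (ε i) (hS i).N_Q
      ((hS i).N_h.le.trans (hh0.trans ((min_le_right _ _).trans (min_le_right _ _)))) (hS i).a_pos
      ((hS i).a_le.trans ((hε3 i).trans (by norm_num))) (hε0 i) (hε3 i) (hS i).small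
  let H : LinHyp m n Q J h 72 :=
    { N := N
      N_Q := fun i => (hS i).N_Q
      N_Ω := fun i => (hS i).small.Ω_eq
      N_h := fun i => (hS i).N_h
      u_smooth := fun i => (hS i).smooth
      u_conv := fun e he => by
        filter_upwards [hev e he] with i hi j hj y
        exact ((hS i).geo j hj y).trans hi
      a := a
      a_pos := fun i => (hS i).a_pos
      a_lim := squeeze_zero (fun i => (hS i).a_pos.le) (fun i => (hS i).a_le.trans (hε1 i)) fp_inv_tendsto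
      C := C
      mass_bd := fun i => (hS i).small.mass
      height_bd := fun i X hX hXc => (hS i).small.height X hX (by
        rw [(hS i).small.Ω_eq, (hS i).N_h]; exact hXc)
      curv := fun e he => by
        filter_upwards [hev e he] with i hi y hy
        exact ((hS i).small.curv y hy).trans (mul_le_mul_of_nonneg_right hi (hS i).a_pos.le) }
  have hlow : ∃ (g : E m → ℝ) (c : ℝ), IsTest (Metric.ball 0 70) g ∧ 0 < c ∧
      ∀ᶠ i in atTop, c ≤ H.nuSeq i g := by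
    refine ⟨fpg m, c, fpg_test m, hc, Eventually.of_forall fun i => ?_⟩
    have h1 := Hlow (N i) (a i) (ε i) (hε2 i) ((hS i).of_le ((le_max_right _ _).trans hJ)) (hF i)
    have h2 := fp_sm_le_hsq (K i) 0 66 1 (fpg m) (fpg_test m).cont (fun y => (fpg_facts m y).2.1)
      (fun y => (fpg_facts m y).1) (fun y => (fpg_facts m y).2.2)
    have ha : 0 < a i ^ 2 := pow_pos (hS i).a_pos 2
    change c ≤ (a i ^ 2)⁻¹ * hsq (N i) (fpg m)
    rw [← div_eq_inv_mul, le_div_iff₀ ha]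
    exact h1.trans h2
  obtain ⟨φ, T, hφ, hν, -, -, -⟩ := Hcore J h ((le_max_left _ _).trans hJ) hh (hh0.trans (min_le_left _ _)) H hlow
  obtain ⟨ys, hys, ψ, hψ, hlim⟩ := (isCompact_closedBall (0 : E m) 30).tendsto_subseq
    (x := fun i => y (φ i)) (fun i => by
      rw [Metric.mem_closedBall, dist_zero_right]; exact (hy _).le)
  rw [Metric.mem_closedBall, dist_zero_right] at hys
  set l : ℝ := min (r / 2) 1 with hl
  have hl0 : 0 < l := lt_min (by positivity) one_pos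
  have hadm : Red.Adm (Metric.ball (0 : E m) 70) ys l := by
    refine ⟨hl0, fun w hw => ?_⟩
    rw [Metric.mem_closedBall, dist_eq_norm] at hw
    rw [Metric.mem_ball, dist_zero_right]
    have : ‖w‖ ≤ ‖w - ys‖ + ‖ys‖ := by
      have := norm_add_le (w - ys) ys
      simpa using this
    have : l ≤ 1 := min_le_right _ _
    linarith
  have hpos : 0 < T.pre.Hh 4 ys l :=
    T.Hh_pos Metric.isOpen_ball (convex_ball (0 : E m) 70).isPreconnected le_rfl hadm
  have hker : Red.psiK m 4 ys l = Red.kerK m 3 (2 * (4 : ℕ)) ys l := Red.psiK_eq m 4 ys l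
  have htest : IsTest (Metric.ball (0 : E m) 70) (Red.psiK m 4 ys l) := by
    rw [hker]; exact Red.isTest_kerK hadm (by norm_num)
  have ht : Tendsto (fun i => H.nuSeq (φ (ψ i)) (Red.psiK m 4 ys l)) atTop (𝓝 (T.nu (Red.psiK m 4 ys l))) :=
    (hν _ htest).comp hψ.tendsto_atTop
  set B : ℝ := 2 * (4 : ℕ) * (l ^ m)⁻¹ with hB
  have hB0 : 0 ≤ B := by positivity
  have hup : ∀ᶠ i in atTop, H.nuSeq (φ (ψ i)) (Red.psiK m 4 ys l) ≤ B * (1 / (((φ (ψ i) : ℕ) : ℝ) + 1)) := by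
    have hclose : ∀ᶠ i in atTop, ‖y (φ (ψ i)) - ys‖ < r / 2 := by
      have := (Metric.tendsto_atTop.1 hlim) (r / 2) (by positivity)
      obtain ⟨i₀, hi₀⟩ := this
      filter_upwards [eventually_ge_atTop i₀] with i hi
      have := hi₀ i hi
      rwa [dist_eq_norm] at this
    filter_upwards [hclose] with i hi
    set k := φ (ψ i) with hk
    have h2 := fp_hsq_le_sm (K k) (y k) r B (Red.psiK m 4 ys l) htest.cont
      (fun w => by rw [hker]; exact Red.kerK_nonneg (by positivity) hl0)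
      (fun w => by rw [hker]; exact Red.kerK_le (by positivity) hl0)
      (fun w hw => by
        rw [hker]
        refine Red.kerK_eq_zero (by norm_num) hl0 ?_
        have h3 : ‖w - y k‖ ≤ ‖w - ys‖ + ‖y k - ys‖ := by
          have := norm_sub_le (w - ys) (y k - ys)
          simpa using this
        have : l ≤ r / 2 := min_le_left _ _
        linarith)
    have ha : 0 < a k ^ 2 := pow_pos (hS k).a_pos 2
    change (a k ^ 2)⁻¹ * hsq (N k) (Red.psiK m 4 ys l) ≤ _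
    rw [← div_eq_inv_mul, div_le_iff₀ ha]
    refine h2.trans ((mul_le_mul_of_nonneg_left (hsm k).le hB0).trans (le_of_eq ?_))
    ring
  have hz : Tendsto (fun i => B * (1 / (((φ (ψ i) : ℕ) : ℝ) + 1))) atTop (𝓝 0) := by
    have := (fp_inv_tendsto.comp (hφ.comp hψ).tendsto_atTop).const_mul B
    simpa using this
  have := le_of_tendsto_of_tendsto ht hz hup
  have h5 : T.pre.Hh 4 ys l = T.nu (Red.psiK m 4 ys l) := rfl
  linarith

end Claimed.Agent.R322.Fit
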