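import Claimed.Agent.R322.Fit.Fail.ScPt

/-!
# AE Lemma 7.2, part (S): the measure of a set, back to start units (leaf L-Fit-Fail-S-B)
-/

set_option autoImplicit false

open scoped ENNReal ContDiff
open MeasureTheory Filter Topology

namespace Claimed.Agent.R322.Fit

open Claimed.Agent.R322.Tube Claimed.Agent.R322.Freq Claimed.Agent.R322.Lin

variable {m n : ℕ}

/-! ### leaf L-Fit-Fail-S-B : the measure of a set, back to start units -/

/-- (`SIV.simil_μ`, `Measure.restrict_apply'`, `MeasurableEquiv.map_apply` for `(Base.simHomeo _ _ hℓ).toMeasurableEquiv`, `measure_mono`, `ENNReal.ofReal_mul`.) -/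
theorem back_transfer {W : SIV m n} (p : E (m + n)) {ℓ : ℝ} (hℓ : 0 < ℓ) {S T Cy : Set (E (m + n))}
    (hCy : MeasurableSet Cy) {cc : ℝ} (hcc : 0 < cc)
    (hsub : ∀ X, simMap p ℓ (LinearIsometryEquiv.refl ℝ _) X ∈ S → simMap p ℓ (LinearIsometryEquiv.refl ℝ _) X ∈ Cy → X ∈ T)
    (h : ENNReal.ofReal cc ≤ ((W.simil p ℓ hℓ (LinearIsometryEquiv.refl ℝ _)).μ.restrict Cy) S) :
    ENNReal.ofReal (cc * ℓ ^ m) ≤ W.μ T := by
  have hpos : 0 < ℓ ^ m := by positivity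
  rw [Measure.restrict_apply' hCy, SIV.simil_μ, Measure.smul_apply, smul_eq_mul] at h
  have e : (W.μ.map (simMap p ℓ (LinearIsometryEquiv.refl ℝ _))) (S ∩ Cy)
      = W.μ (simMap p ℓ (LinearIsometryEquiv.refl ℝ _) ⁻¹' (S ∩ Cy)) :=
    (Base.simHomeo p (LinearIsometryEquiv.refl ℝ _) hℓ).toMeasurableEquiv.map_apply _
  rw [e] at h
  have h1 : W.μ (simMap p ℓ (LinearIsometryEquiv.refl ℝ _) ⁻¹' (S ∩ Cy)) ≤ W.μ T :=
    measure_mono fun X hX => hsub X hX.1 hX.2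
  have h2 : ENNReal.ofReal cc ≤ ENNReal.ofReal ((ℓ ^ m)⁻¹) * W.μ T :=
    h.trans (mul_le_mul_right h1 _)
  calc ENNReal.ofReal (cc * ℓ ^ m) = ENNReal.ofReal (ℓ ^ m) * ENNReal.ofReal cc := by
        rw [mul_comm, ENNReal.ofReal_mul hpos.le]
    _ ≤ ENNReal.ofReal (ℓ ^ m) * (ENNReal.ofReal ((ℓ ^ m)⁻¹) * W.μ T) := mul_le_mul_right h2 _
    _ = W.μ T := by
        rw [← mul_assoc, ← ENNReal.ofReal_mul hpos.le, mul_inv_cancel₀ hpos.ne', ENNReal.ofReal_one, one_mul]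

end Claimed.Agent.R322.Fit
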