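import Claimed.Agent.R322.Fit.Fail.ScMom
import Claimed.Agent.R322.Fit.Fail.ScBack

/-!
# AE Lemma 7.2, part (S): from a failed fit to the scaled hypotheses, and back

`ℓ = sc j`, `X₀ = (x, f x)`, `f = F.f x j`, `a = m₀ ℓ^{k-1}`, `N` = the cylinder of `FitFam.energy` (`N.W = W.simil X₀ ℓ _ refl`, `N.u = scl x ℓ f`).
`Y = (X - X₀)/ℓ`: `prH Y = (prH X - x)/ℓ`, and on `ball 0 76`: `prV Y - N.u (prH Y) = (prV X - f (prH X))/ℓ`.

PLAN of `scale_hyp`.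
* `geo`: `g y = ℓ⁻¹ (f (x + ℓ y) - f x)`, `D^i g y = ℓ^{i-1} D^i f (x + ℓ y)` (`i ≥ 1`), `|g y| ≤ 80 sup |Df|` on `ball 0 80`; Leibniz with the fixed bump `cut7 m`
  (bounded derivatives: `Tool.ci_bump_bound`); result `≤ C_b c.C m₀ ≤ ε`.
* `curv`: on `ball 0 76`: `HS N.u y = ℓ • HS f (x + ℓ y)`, `DHSsq N.u y = ℓ^4 DHSsq f (x + ℓ y)` (local equality with `g`; `fderiv g y = fderiv f (x + ℓ y)`,
  `D2 g y = ℓ • D2 f (x + ℓ y)`); `FitFam.curv` gives `≤ 2 c.C a² ≤ ε a`.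
* `height`: `Y ∈ support ∩ Cyl` ⟹ `|prH Y| < 73`, `X = X₀ + ℓ Y ∈ W.support ∩ Wk` (`simil_support`; `|prV X| ≤ |f x| + ℓ (|N.u| + h) < 1`),
  `|zz Y| ≤ |prV Y - N.u (prH Y)| ≤ c.C a` (`Tube.tube_unique`: nearest point; `FitFam.height`).
* `HasFail`: the point of `FitFam.fail`; vertical height `v`, `a < |v| ≤ c.C a`, so `Y ∈ Tub`, `|Y - F y'| ≥ |v|/2` for all `y'` (slope `≤ 1/2`), `|npr Y| ≤ 64 + |zz Y|`;
  `Y ∈ Cyl` because `c.C a < h`.
* `HasMom`: `η' X_h = η ((X_h - x)/ℓ)`, `ℓ^i |D^i η'| ≤ A`; `simil_μ`: `∫ G dN.W.μ = ℓ^{-m} ∫ G((X - X₀)/ℓ) dW.μ`; the integrands vanish unless `|prH Y| < 69`; for such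
  support points `Y ∈ Cyl ⟺ X ∈ Wk` (heights; `IsGood.height` with `eg ≤ 1/2` excludes support points with `|prV X| ≥ 1`);
  `FitFam.moment`: `≤ ℓ^{-m-1} c.C A m₀² ℓ^{m+2k-1} = c.C A a²`.
-/

set_option autoImplicit false

open scoped ENNReal ContDiff
open MeasureTheory Filter Topology

namespace Claimed.Agent.R322.Fit

open Claimed.Agent.R322.Tube Claimed.Agent.R322.Freq Claimed.Agent.R322.Lin

variable {m n : ℕ}

/-- `N` is the scaled cylinder of the fit `F.f x j` -/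
structure IsEn {W : SIV m n} {Q : ℕ} {c : FitCst} {m₀ : ℝ} (F : FitFam W Q c m₀) (x : E m) (j : ℕ) (N : NCyl m n) : Prop where
  N_W : N.W = W.simil (mkHV x (F.f x j x)) (sc j) (sc_pos' j) (LinearIsometryEquiv.refl ℝ _)
  N_u : N.u = scl x (sc j) (F.f x j)
  N_Ω : N.Ω = Metric.ball 0 72
  N_h : N.h = c.h
  N_Q : N.Q = Q
  mass : (N.Dm + N.Mabs) (Metric.ball 0 72) ≤ ENNReal.ofReal (c.C * (m₀ * sc j ^ (c.k - 1)) ^ 2)

theorem ev_small (K t : ℝ) (ht : 0 < t) : ∀ᶠ m₀ in 𝓝[>] (0 : ℝ), K * m₀ < t := by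
  have h : Tendsto (fun m₀ : ℝ => K * m₀) (𝓝 0) (𝓝 (K * 0)) := (continuous_const.mul continuous_id).tendsto 0
  rw [mul_zero] at h
  exact (h.eventually (Iio_mem_nhds ht)).filter_mono nhdsWithin_le_nhds

theorem geo_of_bound {u : E m → E n} {J : ℕ} (hJ : 4 ≤ J) (hs : ContDiff ℝ J u) {ε : ℝ} (hε : ε ≤ 1 / 4)
    (hb : ∀ i : ℕ, i ≤ J → ∀ y, ‖iteratedFDeriv ℝ i u y‖ ≤ ε) : Geo ε u where
  smooth := hs.of_le (by exact_mod_cast hJ)
  slope := fun y => by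
    have := hb 1 (by omega) y
    rw [norm_iteratedFDeriv_one] at this
    linarith
  d2 := fun y => hb 2 (by omega) y
  d3 := fun y => hb 3 (by omega) y
  le_one := by linarith

/-- the pointwise package which is common to `scale_hyp` and `scale_back` -/
structure ScB {W : SIV m n} {Q : ℕ} {c : FitCst} {m₀ : ℝ} (F : FitFam W Q c m₀) (x : E m) (j : ℕ) (ε : ℝ) : Prop where
  smooth : ContDiff ℝ c.J (scl x (sc j) (F.f x j))
  geo : ∀ i : ℕ, i ≤ c.J → ∀ y, ‖iteratedFDeriv ℝ i (scl x (sc j) (F.f x j)) y‖ ≤ ε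
  fx : ‖F.f x j x‖ ≤ ε

theorem exists_scB (m n : ℕ) (c : FitCst) (hJ : 4 ≤ c.J) (hC : 1 ≤ c.C) (ε : ℝ) (hε : 0 < ε) :
    ∀ᶠ m₀ in 𝓝[>] (0 : ℝ), ∀ (W : SIV m n) (Q : ℕ) (F : FitFam W Q c m₀) (x : E m) (j : ℕ), ‖x‖ < 5 →
      F.jf x = (j : ℕ∞) → ScB F x j ε := by
  obtain ⟨Cb, hCb, hscl⟩ := scl_bound m n c.J
  filter_upwards [self_mem_nhdsWithin, ev_small (Cb * c.C) ε hε] with m₀ hm₀ h1 W Q F x j hx hj
  have hm₀' : 0 < m₀ := hm₀
  have hs := F.smooth x j hx hj.ge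
  have hd := F.deriv x j hx hj.ge
  refine ⟨contDiff_scl hs x _, fun i hi y => ?_, ?_⟩
  · have := hscl (F.f x j) x (sc j) (c.C * m₀) (sc_pos' j) (sc_le_one' j) (by omega) hs hd i hi y
    nlinarith
  · have := hd 0 (Nat.zero_le _) x (Metric.mem_ball_self (by have := sc_pos' j; positivity))
    rw [norm_iteratedFDeriv_zero] at this
    have h2 : c.C * m₀ ≤ Cb * c.C * m₀ := by
      have : 0 ≤ c.C * m₀ := by positivity
      nlinarith
    linarith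

namespace ScB

variable {W : SIV m n} {Q : ℕ} {c : FitCst} {m₀ : ℝ} {F : FitFam W Q c m₀} {x : E m} {j : ℕ} {ε : ℝ}

theorem isGeo (H : ScB F x j ε) (hJ : 4 ≤ c.J) (hε : ε ≤ 1 / 4) : Geo ε (scl x (sc j) (F.f x j)) :=
  geo_of_bound hJ H.smooth hε H.geo

theorem cont (H : ScB F x j ε) : Continuous (scl x (sc j) (F.f x j)) := H.smooth.continuous

theorem lip (H : ScB F x j ε) (hJ : 4 ≤ c.J) (hε : ε ≤ 1 / 4) (y y' : E m) :
    ‖scl x (sc j) (F.f x j) y - scl x (sc j) (F.f x j) y'‖ ≤ 1 / 2 * ‖y - y'‖ :=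
  lip_of_slope (H.isGeo hJ hε).differentiable (H.isGeo hJ hε).slope y y'

theorem sup (H : ScB F x j ε) (y : E m) : ‖scl x (sc j) (F.f x j) y‖ ≤ ε := by
  have := H.geo 0 (Nat.zero_le _) y
  rwa [norm_iteratedFDeriv_zero] at this

end ScB

theorem sc_pow_pred (j : ℕ) {k : ℕ} (hk : 1 ≤ k) : sc j ^ k = sc j ^ (k - 1) * sc j := by
  obtain ⟨i, rfl⟩ : ∃ i, k = i + 1 := ⟨k - 1, by omega⟩
  rw [Nat.add_sub_cancel, pow_succ]

/-- norm of the vertical height in the scaled units -/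
theorem norm_vert_sT (x : E m) {ℓ : ℝ} (hℓ : 0 < ℓ) (f : E m → E n) {X : E (m + n)}
    (hX : ‖prH m n X - x‖ ≤ 76 * ℓ) :
    ‖prV m n (sT x (f x) ℓ X) - scl x ℓ f (prH m n (sT x (f x) ℓ X))‖ = ℓ⁻¹ * ‖prV m n X - f (prH m n X)‖ := by
  rw [vert_sT x hℓ f hX, norm_smul, Real.norm_of_nonneg (inv_nonneg.2 hℓ.le)]

theorem vheight {W : SIV m n} {Q : ℕ} {c : FitCst} {m₀ : ℝ} (F : FitFam W Q c m₀) {x : E m} {j : ℕ}
    (hx : ‖x‖ < 5) (hj : (j : ℕ∞) ≤ F.jf x) (hk : 1 ≤ c.k) {X : E (m + n)} (hXs : X ∈ W.support)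
    (hXw : X ∈ Wk m n) (hX : ‖prH m n X - x‖ ≤ 76 * sc j) :
    ‖prV m n (sT x (F.f x j x) (sc j) X) - scl x (sc j) (F.f x j) (prH m n (sT x (F.f x j x) (sc j) X))‖
      ≤ c.C * (m₀ * sc j ^ (c.k - 1)) := by
  have hℓ := sc_pos' j
  rw [norm_vert_sT x hℓ _ hX, inv_mul_le_iff₀ hℓ]
  have := F.height x j hx hj X hXs hXw (by linarith)
  rw [sc_pow_pred j hk] at this
  linarith

theorem mem_simil_support {W : SIV m n} (p : E (m + n)) {ℓ : ℝ} (hℓ : 0 < ℓ) (X : E (m + n)) :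
    simMap p ℓ (LinearIsometryEquiv.refl ℝ _) X ∈ (W.simil p ℓ hℓ (LinearIsometryEquiv.refl ℝ _)).support ↔
      X ∈ W.support := by
  rw [SIV.simil_support, Set.mem_preimage, Base.simInv_simMap _ _ hℓ]

theorem exists_simMap_eq (p : E (m + n)) {ℓ : ℝ} (hℓ : 0 < ℓ) (Y : E (m + n)) :
    ∃ X, simMap p ℓ (LinearIsometryEquiv.refl ℝ _) X = Y :=
  ⟨_, Base.simMap_simInv p _ hℓ Y⟩

/-- **(S), forward.** -/
theorem scale_hyp (m n Q : ℕ) (hm : 1 ≤ m) (hn : 1 ≤ n) (hQ : 1 ≤ Q) :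
    ∃ h₁ : ℝ, 0 < h₁ ∧ ∀ c : FitCst, 4 ≤ c.J → c.h ≤ h₁ → c.Adm m →
      ∃ C' : ℝ, 0 < C' ∧ ∀ ε : ℝ, 0 < ε → ∀ᶠ m₀ in 𝓝[>] (0 : ℝ), ∀ (eg : ℝ) (W : SIV m n), eg ≤ 1 / 2 → IsGood W Q eg →
        ∀ (F : FitFam W Q c m₀) (x : E m) (j : ℕ), ‖x‖ < 5 → F.jf x = (j : ℕ∞) → ∀ N : NCyl m n, IsEn F x j N →
          ScHyp N Q c.J c.h (m₀ * sc j ^ (c.k - 1)) C' ε ∧ HasMom N c.q (m₀ * sc j ^ (c.k - 1)) C' ∧
            HasFail N (m₀ * sc j ^ (c.k - 1)) := by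
  refine ⟨2 / 9, by norm_num, fun c hJ hh hA => ?_⟩
  have hC := hA.C_ge
  have hhp := hA.h_pos
  have hk : 9 ≤ c.k := by have := hA.J_lt; omega
  refine ⟨c.C, by linarith, fun ε hε => ?_⟩
  filter_upwards [self_mem_nhdsWithin, exists_scB m n c hJ hC (min ε (1 / 4)) (by positivity),
    ev_small (2 * c.C) (min ε (min c.h 1)) (by positivity)] with m₀ hm₀ hB h2 eg W heg hW F x j hx hj N hN
  have hm₀' : 0 < m₀ := hm₀
  have H := hB W Q F x j hx hj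
  have hε4 : min ε (1 / 4) ≤ 1 / 4 := min_le_right _ _
  have hℓ := sc_pos' j
  have hℓ1 := sc_le_one' j
  have hgeo := H.isGeo hJ hε4
  have hc := H.cont
  have hL := H.lip hJ hε4
  have hsup : ∀ y, ‖scl x (sc j) (F.f x j) y‖ ≤ 1 / 4 := fun y => (H.sup y).trans hε4
  have hfx : ‖F.f x j x‖ ≤ 1 / 4 := H.fx.trans hε4
  set a : ℝ := m₀ * sc j ^ (c.k - 1) with ha
  have ha0 : 0 < a := by positivity
  have ham : a ≤ m₀ := by
    have : sc j ^ (c.k - 1) ≤ 1 := pow_le_one₀ hℓ.le hℓ1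
    nlinarith
  have hCa : 2 * c.C * a < min ε (min c.h 1) := lt_of_le_of_lt (by nlinarith) h2
  have hCa1 : 2 * c.C * a < ε := lt_of_lt_of_le hCa (min_le_left _ _)
  have hCa2 : 2 * c.C * a < c.h := lt_of_lt_of_le hCa ((min_le_right _ _).trans (min_le_left _ _))
  have hCa3 : 2 * c.C * a < 1 := lt_of_lt_of_le hCa ((min_le_right _ _).trans (min_le_right _ _))
  have hCa0 : 0 < c.C * a := by positivity
  have hopen : IsOpen (Cyl (scl x (sc j) (F.f x j)) (Metric.ball 0 72) c.h) :=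
    cyla_isOpen hgeo Metric.isOpen_ball hh
  -- from the working region to the cylinder
  have hwc : ∀ X ∈ W.support, X ∈ Wk m n → ∀ r : ℝ, r ≤ 71 → ‖prH m n X - x‖ < r * sc j →
      sT x (F.f x j x) (sc j) X ∈ Cyl (scl x (sc j) (F.f x j)) (Metric.ball 0 (r + 1)) c.h := by
    intro X hXs hXw r hr hX
    have h3 := vheight F hx hj.ge (by omega) hXs hXw (by nlinarith)
    refine vert_to_cyl hc hL ?_ (by rw [← ha] at h3; linarith) (by rw [← ha] at h3; linarith)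
    rw [norm_prH_sT x _ hℓ, inv_mul_lt_iff₀ hℓ]
    linarith
  refine ⟨⟨hN.N_Q, hN.N_h, ha0, ?_, ?_, ?_, ⟨hN.N_Ω, ?_, ?_, hN.mass, ?_, ?_⟩⟩, ?_, ?_⟩
  · nlinarith
  · rw [hN.N_u]; exact H.smooth
  · rw [hN.N_u]; exact fun i hi y => (H.geo i hi y).trans (min_le_left _ _)
  · rw [hN.N_u]; exact hgeo.smooth
  · rw [hN.N_u]; exact fun i _ hi y => (H.geo i (by omega) y).trans (min_le_left _ _)
  · -- height
    intro Y hYs hYc
    rw [hN.N_u, hN.N_Ω, hN.N_h] at hYc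
    rw [hN.N_W] at hYs
    rw [hN.N_u]
    obtain ⟨X, rfl⟩ := exists_simMap_eq (mkHV x (F.f x j x)) hℓ Y
    rw [mem_simil_support] at hYs
    obtain ⟨h3, h4⟩ := cyl_to_wk hℓ hℓ1 hx hfx hc hL hsup (by linarith) hYc
    exact (foot_vert hc hL _).1.trans (vheight F hx hj.ge (by omega) hYs h4 (by linarith))
  · -- curvature
    intro y hy
    rw [hN.N_u]
    rw [Metric.mem_ball, dist_zero_right] at hy
    obtain ⟨e1, e2⟩ := scl_curv x hℓ (F.f x j) (y := y) (by linarith)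
    have hy' : x + sc j • y ∈ Metric.ball x (80 * sc j) := by
      rw [Metric.mem_ball, dist_eq_norm, add_sub_cancel_left, norm_smul, Real.norm_of_nonneg hℓ.le]
      nlinarith
    obtain ⟨c1, c2⟩ := F.curv x j hx hj.ge _ hy'
    rw [e1, e2, norm_smul, Real.norm_of_nonneg hℓ.le, Real.sqrt_mul (by positivity),
      show sc j ^ 4 = (sc j ^ 2) ^ 2 by ring, Real.sqrt_sq (by positivity)]
    have p1 : sc j * sc j ^ (2 * c.k - 3) = (sc j ^ (c.k - 1)) ^ 2 := by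
      rw [← pow_succ', ← pow_mul]
      congr 1
      omega
    have p2 : sc j ^ 2 * sc j ^ (2 * c.k - 4) = (sc j ^ (c.k - 1)) ^ 2 := by
      rw [← pow_add, ← pow_mul]
      congr 1
      omega
    have b1 : sc j * ‖HS (F.f x j) (x + sc j • y)‖ ≤ c.C * a ^ 2 := by
      calc sc j * ‖HS (F.f x j) (x + sc j • y)‖ ≤ sc j * (c.C * m₀ ^ 2 * sc j ^ (2 * c.k - 3)) :=
            mul_le_mul_of_nonneg_left c1 hℓ.le
        _ = c.C * m₀ ^ 2 * (sc j * sc j ^ (2 * c.k - 3)) := by ring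
        _ = c.C * a ^ 2 := by rw [p1, ha]; ring
    have b2 : sc j ^ 2 * Real.sqrt (DHSsq (F.f x j) (x + sc j • y)) ≤ c.C * a ^ 2 := by
      calc sc j ^ 2 * Real.sqrt (DHSsq (F.f x j) (x + sc j • y))
            ≤ sc j ^ 2 * (c.C * m₀ ^ 2 * sc j ^ (2 * c.k - 4)) :=
            mul_le_mul_of_nonneg_left c2 (by positivity)
        _ = c.C * m₀ ^ 2 * (sc j ^ 2 * sc j ^ (2 * c.k - 4)) := by ring
        _ = c.C * a ^ 2 := by rw [p2, ha]; ring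
    nlinarith
  · -- first moment
    intro η A hη hsupp hbd
    obtain ⟨g1, g2, g3⟩ := eta_scale hη x hℓ
    have hiff : ∀ X ∈ W.support, ‖prH m n X - x‖ < 69 * sc j →
        (sT x (F.f x j x) (sc j) X ∈ Cyl (scl x (sc j) (F.f x j)) (Metric.ball 0 72) c.h ↔ X ∈ Wk m n) := by
      intro X hXs hX
      constructor
      · intro h
        exact (cyl_to_wk hℓ hℓ1 hx hfx hc hL hsup (by linarith) h).2
      · intro h
        have := hwc X hXs h 71 le_rfl (by nlinarith)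
        norm_num at this
        exact this
    have e := mom_transfer (W := W) (f := F.f x j) (x := x) hℓ hopen.measurableSet hiff η hsupp
    have hmom := F.moment x j hx hj.ge (fun z => η ((sc j)⁻¹ • (z - x))) A g1
      ((g2 69 hsupp).trans (Metric.ball_subset_ball (by nlinarith)))
      (fun i hi y => by rw [g3]; exact hbd i hi _)
    unfold NCyl.μ
    rw [hN.N_W, hN.N_u, hN.N_Ω, hN.N_h, e, abs_mul, abs_of_nonneg (by positivity), inv_mul_le_iff₀ (by positivity)]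
    refine hmom.trans (le_of_eq ?_)
    have p3 : sc j ^ (m + 2 * c.k - 1) = sc j ^ (m + 1) * (sc j ^ (c.k - 1)) ^ 2 := by
      rw [← pow_mul, ← pow_add]
      congr 1
      omega
    rw [p3, ha]
    ring
  · -- the failure point
    obtain ⟨X, hXs, hXw, hXh, hXf⟩ := F.fail x j hx hj
    refine ⟨sT x (F.f x j x) (sc j) X, ?_, ?_, ?_, ?_⟩
    · rw [hN.N_W, mem_simil_support]
      exact hXs
    · rw [hN.N_u, hN.N_Ω, hN.N_h]
      have := hwc X hXs hXw 71 le_rfl (by nlinarith)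
      norm_num at this
      exact this
    · rw [hN.N_u]
      have := (hwc X hXs hXw 64 (by norm_num) hXh).1
      rw [Metric.mem_ball, dist_zero_right] at this
      linarith
    · rw [hN.N_u]
      have h3 := (foot_vert hc hL (sT x (F.f x j x) (sc j) X)).2.1
      rw [norm_vert_sT x hℓ _ (by linarith)] at h3
      have h4 : a < (sc j)⁻¹ * ‖prV m n X - F.f x j (prH m n X)‖ := by
        rw [lt_inv_mul_iff₀ hℓ, ha]
        rw [sc_pow_pred j (show 1 ≤ c.k by omega)] at hXf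
        linarith
      linarith

/-- **(S), backward.**  PLAN.  `N.μ S = ℓ^{-m} W.μ (simMap ⁻¹' (S ∩ Cyl))` (`simil_μ`, `Measure.restrict_apply`, `Measure.map_apply`; `SepSet` is measurable:
open ∩ (preimage of a closed set under the measurable `P`) ∩ closed; `Cyl` is open by `Tube.cyl_carrier`).  For `Y = simMap X ∈ SepSet ∩ Cyl`:
`|prH X - y₀| = ℓ |prH Y - (y₀ - x)/ℓ|`; `|prV X| ≤ |f x| + ℓ (|N.u (npr Y)| + h) ≤ 1`; `N.W.P Y = W.P X` (`O = refl`);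
`|X - P| = ℓ |Y - simMap P| ≥ ℓ cc a = cc m₀ ℓ^k`. -/
theorem scale_back (m n Q : ℕ) (hm : 1 ≤ m) (hn : 1 ≤ n) :
    ∃ h₁ : ℝ, 0 < h₁ ∧ ∀ c : FitCst, 4 ≤ c.J → c.h ≤ h₁ → c.Adm m →
      ∀ᶠ m₀ in 𝓝[>] (0 : ℝ), ∀ (W : SIV m n) (F : FitFam W Q c m₀) (x : E m) (j : ℕ), ‖x‖ < 5 → F.jf x = (j : ℕ∞) →
        ∀ N : NCyl m n, IsEn F x j N → ∀ (cc : ℝ) (y₀ : E m) (Γ : Set (E (m + n))), 0 < cc →
          ENNReal.ofReal cc ≤ N.μ (SepSet N ((sc j)⁻¹ • (y₀ - x))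
            (simMap (mkHV x (F.f x j x)) (sc j) (LinearIsometryEquiv.refl ℝ _) '' Γ) (cc * (m₀ * sc j ^ (c.k - 1)))) →
          ENNReal.ofReal (cc * sc j ^ m) ≤ W.μ {X | ‖prH m n X - y₀‖ < 1 / 100 * sc j ∧ ‖prV m n X‖ ≤ 1 ∧
            ‖W.P X - PH m n‖ ≤ 1 / 100 ∧ ∀ P ∈ Γ, cc * m₀ * sc j ^ c.k ≤ ‖X - P‖} := by
  refine ⟨2 / 9, by norm_num, fun c hJ hh hA => ?_⟩
  have hC := hA.C_ge
  have hk : 9 ≤ c.k := by have := hA.J_lt; omega
  filter_upwards [exists_scB m n c hJ hC (1 / 4) (by norm_num)] with m₀ hB W F x j hx hj N hN cc y₀ Γ hcc hμ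
  have H := hB W Q F x j hx hj
  have hℓ := sc_pos' j
  have hℓ1 := sc_le_one' j
  have hgeo := H.isGeo hJ le_rfl
  have hc := H.cont
  have hL := H.lip hJ le_rfl
  have hopen : IsOpen (Cyl (scl x (sc j) (F.f x j)) (Metric.ball 0 72) c.h) :=
    cyla_isOpen hgeo Metric.isOpen_ball hh
  unfold NCyl.μ at hμ
  rw [hN.N_u, hN.N_Ω, hN.N_h] at hμ
  have hP : ∀ X, N.W.P (sT x (F.f x j x) (sc j) X) = W.P X := by
    intro X
    rw [hN.N_W]
    show (LinearIsometryEquiv.refl ℝ (E (m + n)) : E (m + n) →L[ℝ] E (m + n)) ∘L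
      W.P (simInv _ _ _ (simMap _ _ _ X)) ∘L
        ((LinearIsometryEquiv.refl ℝ (E (m + n))).symm : E (m + n) →L[ℝ] E (m + n)) = W.P X
    rw [Base.simInv_simMap _ _ hℓ]
    ext v
    simp
  have hμ' : ENNReal.ofReal cc ≤ ((W.simil (mkHV x (F.f x j x)) (sc j) hℓ (LinearIsometryEquiv.refl ℝ _)).μ.restrict
      (Cyl (scl x (sc j) (F.f x j)) (Metric.ball 0 72) c.h)) (SepSet N ((sc j)⁻¹ • (y₀ - x))
            (simMap (mkHV x (F.f x j x)) (sc j) (LinearIsometryEquiv.refl ℝ _) '' Γ) (cc * (m₀ * sc j ^ (c.k - 1)))) := by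
    have e : N.W.μ = (W.simil (mkHV x (F.f x j x)) (sc j) hℓ (LinearIsometryEquiv.refl ℝ _)).μ := by rw [hN.N_W]
    rwa [e] at hμ
  refine back_transfer _ hℓ hopen.measurableSet hcc (fun X hXS hXC => ?_) hμ'
  obtain ⟨s1, s2, s3⟩ := hXS
  obtain ⟨-, -, w2⟩ := cyl_to_wk hℓ hℓ1 hx H.fx hc hL H.sup (by linarith) hXC
  refine ⟨?_, w2.le, ?_, fun P hP' => ?_⟩
  · have e : prH m n (sT x (F.f x j x) (sc j) X) - (sc j)⁻¹ • (y₀ - x) = (sc j)⁻¹ • (prH m n X - y₀) := by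
      rw [prH_sT, ← smul_sub]
      congr 1
      abel
    rw [show prH m n (simMap (mkHV x (F.f x j x)) (sc j) (LinearIsometryEquiv.refl ℝ _) X) - (sc j)⁻¹ • (y₀ - x)
      = (sc j)⁻¹ • (prH m n X - y₀) from e, norm_smul, Real.norm_of_nonneg (inv_nonneg.2 hℓ.le),
      inv_mul_lt_iff₀ hℓ] at s1
    linarith
  · rw [← hP X]
    exact s2
  · have h3 := s3 _ ⟨P, hP', rfl⟩
    have e : simMap (mkHV x (F.f x j x)) (sc j) (LinearIsometryEquiv.refl ℝ _) X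
        - simMap (mkHV x (F.f x j x)) (sc j) (LinearIsometryEquiv.refl ℝ _) P = (sc j)⁻¹ • (X - P) := by
      show (sc j)⁻¹ • (X - _) - (sc j)⁻¹ • (P - _) = _
      rw [← smul_sub]
      congr 1
      abel
    rw [e, norm_smul, Real.norm_of_nonneg (inv_nonneg.2 hℓ.le), le_inv_mul_iff₀ hℓ] at h3
    rw [sc_pow_pred j (show 1 ≤ c.k by omega)]
    linarith

/-- cone sets are invariant under translations and dilations -/
theorem coneSet_simMap (p : E (m + n)) (r : ℝ) (hr : 0 < r) (ε : ℝ) (Γ : Set (E (m + n))) (hΓ : ConeSet ε Γ) :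
    ConeSet ε (simMap p r (LinearIsometryEquiv.refl ℝ _) '' Γ) := by
  rintro _ ⟨q, hq, rfl⟩ _ ⟨q', hq', rfl⟩
  have e : simMap p r (LinearIsometryEquiv.refl ℝ _) q - simMap p r (LinearIsometryEquiv.refl ℝ _) q' = r⁻¹ • (q - q') := by
    show r⁻¹ • (q - p) - r⁻¹ • (q' - p) = _
    rw [← smul_sub]
    congr 1
    abel
  rw [e, map_smul, map_smul, norm_smul, norm_smul, mul_left_comm]
  exact mul_le_mul_of_nonneg_left (hΓ q hq q' hq') (norm_nonneg _)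

end Claimed.Agent.R322.Fit
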