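import Claimed.Agent.R322.Fit.Fail.Small
import Claimed.Agent.R322.Fit.Fail.Pos
import Claimed.Agent.R322.Fit.Fail.Scale

/-!
# AE Lemma 7.2 = CO Lemma 4.1 (v): a failed fit implies separation (EXPORT of the package BP-Fit-72)

Owner: helper224.  `fail_sep` is the field `Freq.StartData.sep` for the first failed scale of a family of fits, with constants
`c₀ = ε₀ = 1/100`, `ε₁ = 1` and `cc` fixed before `m₀`.  Order of use: take `(J₀, h₀)` from `fail_sep`, feed them into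
`exists_fitFam`, then take `cc`.
-/

set_option autoImplicit false

open scoped ENNReal ContDiff
open MeasureTheory Filter Topology

namespace Claimed.Agent.R322.Fit

open Claimed.Agent.R322.Tube Claimed.Agent.R322.Freq Claimed.Agent.R322.Lin

/-- **AE Lemma 7.2 in scaled units**: (P) + (Q). -/
theorem fail_scaled (m n Q : ℕ) (hm : 1 ≤ m) (hn : 1 ≤ n) (hQ : 1 ≤ Q) :
    ∃ (J₀ : ℕ) (h₀ : ℝ), 0 < h₀ ∧ ∀ (J q : ℕ) (h C : ℝ), J₀ ≤ J → 0 < h → h ≤ h₀ →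
      ∃ c ε₁ : ℝ, 0 < c ∧ c ≤ 1 ∧ 0 < ε₁ ∧ ∀ (N : NCyl m n) (a ε : ℝ), ε ≤ ε₁ → ScHyp N Q J h a C ε →
        HasMom N q a C → HasFail N a → ∀ y₀ : E m, ‖y₀‖ < 30 → ∀ Γ : Set (E (m + n)), ConeSet 1 Γ →
          ENNReal.ofReal c ≤ N.μ (SepSet N y₀ Γ (c * a)) := by
  obtain ⟨J₁, h₁, hh₁, HP⟩ := fail_pos m n Q hm hn hQ
  obtain ⟨h₂, hh₂, HQ⟩ := fail_small m n Q hm hn hQ
  refine ⟨max J₁ 4, min h₁ h₂, lt_min hh₁ hh₂, fun J q h C hJ hh hh0 => ?_⟩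
  obtain ⟨δ, ε₁, hδ, hε₁, HP⟩ := HP J h C (1 / 400) ((le_max_left _ _).trans hJ) hh
    (hh0.trans (min_le_left _ _)) (by norm_num)
  obtain ⟨c, ε₂, hc, hc1, hε₂, HQ⟩ := HQ J q h C δ ((le_max_right _ _).trans hJ) hh
    (hh0.trans (min_le_right _ _)) hδ
  refine ⟨c, min ε₁ ε₂, hc, hc1, lt_min hε₁ hε₂, fun N a ε hε hS hM hF y₀ hy₀ Γ hΓ => ?_⟩
  by_contra hcon
  have h1 := HQ N a ε (hε.trans (min_le_right _ _)) hS hM y₀ hy₀ Γ hΓ (not_le.1 hcon)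
  have h2 := HP N a ε (hε.trans (min_le_left _ _)) hS hF y₀ hy₀
  linarith

/-- **AE Lemma 7.2.** -/
theorem fail_sep (m n Q : ℕ) (hm : 1 ≤ m) (hn : 1 ≤ n) (hQ : 1 ≤ Q) :
    ∃ (J₀ : ℕ) (h₀ : ℝ), 0 < h₀ ∧ ∀ c : FitCst, J₀ ≤ c.J → c.h ≤ h₀ → c.Adm m →
      ∃ cc : ℝ, 0 < cc ∧ cc ≤ 1 ∧ ∀ᶠ m₀ in 𝓝[>] (0 : ℝ), ∀ (eg : ℝ) (W : SIV m n), eg ≤ 1 / 2 → IsGood W Q eg →
        ∀ (F : FitFam W Q c m₀) (x : E m) (j : ℕ), ‖x‖ < 5 → F.jf x = (j : ℕ∞) →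
        ∀ y₀ : E m, ‖y₀ - x‖ < 30 * sc j → ∀ Γ : Set (E (m + n)), ConeSet 1 Γ →
          ENNReal.ofReal (cc * sc j ^ m) ≤ W.μ {X | ‖prH m n X - y₀‖ < 1 / 100 * sc j ∧ ‖prV m n X‖ ≤ 1 ∧
            ‖W.P X - PH m n‖ ≤ 1 / 100 ∧ ∀ P ∈ Γ, cc * m₀ * sc j ^ c.k ≤ ‖X - P‖} := by
  obtain ⟨J₁, h₁, hh₁, H1⟩ := fail_scaled m n Q hm hn hQ
  obtain ⟨h₂, hh₂, H2⟩ := scale_hyp m n Q hm hn hQ
  obtain ⟨h₃, hh₃, H3⟩ := scale_back m n Q hm hn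
  refine ⟨max J₁ 4, min h₁ (min h₂ h₃), lt_min hh₁ (lt_min hh₂ hh₃), fun c hJ hh hc => ?_⟩
  have hJ4 : 4 ≤ c.J := (le_max_right _ _).trans hJ
  obtain ⟨C', hC', H2⟩ := H2 c hJ4 (hh.trans ((min_le_right _ _).trans (min_le_left _ _))) hc
  obtain ⟨cc, ε₁, hcc, hcc1, hε₁, H1⟩ := H1 c.J c.q c.h C' ((le_max_left _ _).trans hJ) hc.h_pos
    (hh.trans (min_le_left _ _))
  have H3 := H3 c hJ4 (hh.trans ((min_le_right _ _).trans (min_le_right _ _))) hc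
  refine ⟨cc, hcc, hcc1, ?_⟩
  filter_upwards [H2 ε₁ hε₁, H3] with m₀ A2 A3 eg W heg hW F x j hx hj y₀ hy₀ Γ hΓ
  obtain ⟨N, e1, e2, e3, e4, e5, e6⟩ := F.energy x j hx hj.ge
  have hEn : IsEn F x j N := ⟨e1, e2, e3, e4, e5, e6⟩
  obtain ⟨hS, hM, hF⟩ := A2 eg W heg hW F x j hx hj N hEn
  refine A3 W F x j hx hj N hEn cc y₀ Γ hcc ?_
  refine H1 N _ ε₁ le_rfl hS hM hF _ ?_ _ (coneSet_simMap _ _ (sc_pos' j) 1 Γ hΓ)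
  rw [norm_smul, norm_inv, Real.norm_of_nonneg (sc_pos' j).le, inv_mul_lt_iff₀ (sc_pos' j)]
  linarith

end Claimed.Agent.R322.Fit
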