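import Claimed.Agent.R322.Fit.Fail.QKer

/-!
# AE Lemma 7.2 (Q): the abstract interpolation lemma `bv_small`   (architect helper189)

`(𝒳, μ)` a finite measure space, `π : 𝒳 → E m` measurable, `g : 𝒳 → ℝ` integrable, `U = π_# (g μ)` (a signed measure on `E m`),
`mv μ π g K y = ∫ K (y - π x) g x dμ = (K ⋆ U)(y)`.

`bv_small`:  if `|U(∂_j φ)| ≤ ∫ (|φ(π)| b₀ + |Dφ(π)| b₁) dμ` (H1: `U` is "BV up to a small second order term") and
`|U(φ)| ≤ τ sup_{i ≤ q} |D^i φ|` (H2: `U` is small in a negative norm) for tests supported in `ball y₀ (4R)`, then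
`∫_{B_R} |K_s ⋆ U| ≤ r m (∫ b₀ + L ∫ b₁) + |B_R| τ A`,  `L = ∫ |D K_s|`, `A = sup_{i ≤ q} |D^i K_r|`.

Proof: `V = K_s ⋆ U` is `C¹`, `|DV(y)| ≤ Eb(y) := m ∫ (K_s(y - π) b₀ + |DK_s(y - π)| b₁) dμ` on `B_{2R}` (H1 with `φ = K_s(y - ·)`),
`∫ Eb = m (∫ b₀ + L ∫ b₁)` (Tonelli);  `∫_{B_R} |V - K_r ⋆ V| ≤ r ∫ Eb`;  `K_r ⋆ V = K_s ⋆ (K_r ⋆ U)` and `|K_r ⋆ U| ≤ τ A` on `B_{2R}` (H2).
All `L¹` estimates are written with `∫⁻ ‖·‖ₑ` (Tonelli needs measurability only).
-/

set_option autoImplicit false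

open scoped ENNReal ContDiff
open MeasureTheory

namespace Claimed.Agent.R322.Fit

variable {m : ℕ} {𝒳 : Type*} [MeasurableSpace 𝒳]

/-- `(K ⋆ π_#(g μ))(y)` -/
noncomputable def mv (μ : Measure 𝒳) (π : 𝒳 → E m) (g : 𝒳 → ℝ) (K : E m → ℝ) (y : E m) : ℝ :=
  ∫ x, K (y - π x) * g x ∂μ

section Basic

variable {μ : Measure 𝒳} {π : 𝒳 → E m} {g : 𝒳 → ℝ} {K : E m → ℝ}

theorem mv_aux_meas {G : Type*} [TopologicalSpace G] [TopologicalSpace.PseudoMetrizableSpace G]
    (hπ : Measurable π) {Φ : E m → G} (hΦ : Continuous Φ) (y : E m) :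
    AEStronglyMeasurable (fun x => Φ (y - π x)) μ :=
  hΦ.comp_aestronglyMeasurable (measurable_const.sub hπ).aestronglyMeasurable

/-- leaf L-Fit-FailQ-A0.  `Integrable.bdd_mul`, `Continuous.bounded_above_of_compact_support`. -/
theorem mv_integrable (hπ : Measurable π) (hg : Integrable g μ) (hK : Continuous K)
    (hKc : HasCompactSupport K) (y : E m) : Integrable (fun x => K (y - π x) * g x) μ := by
  obtain ⟨B, hB⟩ := hK.bounded_above_of_compact_support hKc
  exact hg.bdd_mul (mv_aux_meas hπ hK y) (Filter.Eventually.of_forall fun x => hB _)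

/-- leaf L-Fit-FailQ-A0.  `continuous_of_dominated` with the bound `B |g|`. -/
theorem mv_continuous (hπ : Measurable π) (hg : Integrable g μ) (hK : Continuous K)
    (hKc : HasCompactSupport K) : Continuous (mv μ π g K) := by
  obtain ⟨B, hB⟩ := hK.bounded_above_of_compact_support hKc
  unfold mv
  refine continuous_of_dominated (bound := fun x => B * ‖g x‖)
    (fun y => (mv_integrable hπ hg hK hKc y).aestronglyMeasurable) ?_ (hg.norm.const_mul B) ?_
  · intro y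
    refine Filter.Eventually.of_forall fun x => ?_
    rw [norm_mul]
    exact mul_le_mul_of_nonneg_right (hB _) (norm_nonneg _)
  · refine Filter.Eventually.of_forall fun x => ?_
    exact (hK.comp (continuous_id.sub continuous_const)).mul continuous_const

theorem mv_aux_integrable (hπ : Measurable π) (hg : Integrable g μ) (hK : ContDiff ℝ 1 K)
    (hKc : HasCompactSupport K) (y : E m) :
    Integrable (fun x => g x • fderiv ℝ K (y - π x)) μ := by
  obtain ⟨B, hB⟩ := (hK.continuous_fderiv one_ne_zero).bounded_above_of_compact_support (hKc.fderiv ℝ)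
  refine (hg.norm.const_mul B).mono'
    (hg.aestronglyMeasurable.smul (mv_aux_meas hπ (hK.continuous_fderiv one_ne_zero) y)) ?_
  refine Filter.Eventually.of_forall fun x => ?_
  rw [norm_smul, mul_comm]
  exact mul_le_mul_of_nonneg_right (hB _) (norm_nonneg _)

/-- leaf L-Fit-FailQ-A1.  `hasFDerivAt_integral_of_dominated_of_fderiv_le` with the bound `B' |g|`, `B' = sup ‖DK‖`
(`(hK.continuous_fderiv le_rfl).bounded_above_of_compact_support (hKc.fderiv ℝ)`). -/
theorem mv_hasFDerivAt (hπ : Measurable π) (hg : Integrable g μ) (hK : ContDiff ℝ 1 K)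
    (hKc : HasCompactSupport K) (y : E m) :
    HasFDerivAt (mv μ π g K) (∫ x, g x • fderiv ℝ K (y - π x) ∂μ) y := by
  obtain ⟨B, hB⟩ := (hK.continuous_fderiv one_ne_zero).bounded_above_of_compact_support (hKc.fderiv ℝ)
  unfold mv
  refine hasFDerivAt_integral_of_dominated_of_fderiv_le (s := Set.univ)
    (F := fun y x => K (y - π x) * g x) (F' := fun y x => g x • fderiv ℝ K (y - π x))
    (bound := fun x => B * ‖g x‖) Filter.univ_mem
    (Filter.Eventually.of_forall fun y => (mv_integrable hπ hg hK.continuous hKc y).aestronglyMeasurable)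
    (mv_integrable hπ hg hK.continuous hKc y)
    (mv_aux_integrable hπ hg hK hKc y).aestronglyMeasurable ?_ (hg.norm.const_mul B) ?_
  · refine Filter.Eventually.of_forall fun x y _ => ?_
    rw [norm_smul, mul_comm]
    exact mul_le_mul_of_nonneg_right (hB _) (norm_nonneg _)
  · refine Filter.Eventually.of_forall fun x y _ => ?_
    have h1 : HasFDerivAt K (fderiv ℝ K (y - π x)) (y - π x) :=
      (hK.differentiable (by simp) _).hasFDerivAt
    have h2 : HasFDerivAt (fun y : E m => y - π x) (ContinuousLinearMap.id ℝ (E m)) y :=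
      (hasFDerivAt_id y).sub_const (π x)
    have h3 := (h1.comp y h2).mul_const (g x)
    simpa using h3

/-- leaf L-Fit-FailQ-A1.  `ContinuousLinearMap.integral_apply` / `integral_comp_comm`. -/
theorem mv_fderiv_apply (hπ : Measurable π) (hg : Integrable g μ) (hK : ContDiff ℝ 1 K)
    (hKc : HasCompactSupport K) (y e : E m) :
    fderiv ℝ (mv μ π g K) y e = ∫ x, g x * fderiv ℝ K (y - π x) e ∂μ := by
  rw [(mv_hasFDerivAt hπ hg hK hKc y).fderiv,
    ContinuousLinearMap.integral_apply (mv_aux_integrable hπ hg hK hKc y)]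
  rfl

/-- leaf L-Fit-FailQ-A1.  `contDiff_one_iff_fderiv`, `continuous_of_dominated`. -/
theorem mv_contDiff_one (hπ : Measurable π) (hg : Integrable g μ) (hK : ContDiff ℝ 1 K)
    (hKc : HasCompactSupport K) : ContDiff ℝ 1 (mv μ π g K) := by
  obtain ⟨B, hB⟩ := (hK.continuous_fderiv one_ne_zero).bounded_above_of_compact_support (hKc.fderiv ℝ)
  rw [contDiff_one_iff_fderiv]
  refine ⟨fun y => (mv_hasFDerivAt hπ hg hK hKc y).differentiableAt, ?_⟩
  have e : fderiv ℝ (mv μ π g K) = fun y => ∫ x, g x • fderiv ℝ K (y - π x) ∂μ :=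
    funext fun y => (mv_hasFDerivAt hπ hg hK hKc y).fderiv
  rw [e]
  refine continuous_of_dominated (bound := fun x => B * ‖g x‖)
    (fun y => (mv_aux_integrable hπ hg hK hKc y).aestronglyMeasurable) ?_ (hg.norm.const_mul B) ?_
  · intro y
    refine Filter.Eventually.of_forall fun x => ?_
    rw [norm_smul, mul_comm]
    exact mul_le_mul_of_nonneg_right (hB _) (norm_nonneg _)
  · refine Filter.Eventually.of_forall fun x => ?_
    exact ((hK.continuous_fderiv one_ne_zero).comp (continuous_id.sub continuous_const)).const_smul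
      (g x)

/-- leaf L-Fit-FailQ-A3 (Tonelli).  `lintegral_lintegral_swap`, `lintegral_mul_const''`, `lintegral_sub_right_eq_self`. -/
theorem lintegral_ker_swap [SFinite μ] (hπ : Measurable π) {k : E m → ℝ≥0∞} (hk : Measurable k)
    {b : 𝒳 → ℝ≥0∞} (hb : AEMeasurable b μ) :
    ∫⁻ y, ∫⁻ x, k (y - π x) * b x ∂μ = (∫⁻ w, k w) * ∫⁻ x, b x ∂μ := by
  have hmeas : AEMeasurable (Function.uncurry fun (y : E m) (x : 𝒳) => k (y - π x) * b x)
      ((volume : Measure (E m)).prod μ) :=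
    (hk.comp (measurable_fst.sub (hπ.comp measurable_snd))).aemeasurable.mul hb.comp_snd
  rw [lintegral_lintegral_swap hmeas]
  have h1 : ∀ x, ∫⁻ y, k (y - π x) * b x = (∫⁻ w, k w) * b x := by
    intro x
    have hm : Measurable fun y : E m => k (y - π x) := hk.comp (measurable_id.sub_const (π x))
    rw [lintegral_mul_const _ hm, lintegral_sub_right_eq_self]
  simp only [h1]
  rw [lintegral_const_mul'' _ hb]

/-- auxiliary for `mv_conv_comm` -/
theorem qabs_conv_aux [SFinite μ] (hπ : Measurable π) (hg : Integrable g μ) {K₁ K₂ : E m → ℝ}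
    (h₁ : Continuous K₁) (c₁ : HasCompactSupport K₁) (h₂ : Continuous K₂)
    (c₂ : HasCompactSupport K₂) (y : E m) :
    ∫ w, K₁ w * mv μ π g K₂ (y - w) = ∫ x, (∫ w, K₁ w * K₂ (y - π x - w)) * g x ∂μ := by
  obtain ⟨B, hB⟩ := h₂.bounded_above_of_compact_support c₂
  have hint : Integrable (Function.uncurry fun (w : E m) (x : 𝒳) =>
      K₂ (y - w - π x) * (K₁ w * g x)) ((volume : Measure (E m)).prod μ) := by
    refine Integrable.bdd_mul (c := B) ((h₁.integrable_of_hasCompactSupport c₁).mul_prod hg) ?_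
      (Filter.Eventually.of_forall fun z => hB _)
    exact (h₂.measurable.comp (((measurable_const.sub measurable_fst).sub
      (hπ.comp measurable_snd)))).aestronglyMeasurable
  unfold mv
  calc ∫ w, K₁ w * ∫ x, K₂ (y - w - π x) * g x ∂μ
      = ∫ w, ∫ x, K₂ (y - w - π x) * (K₁ w * g x) ∂μ := by
        refine integral_congr_ae (Filter.Eventually.of_forall fun w => ?_)
        show K₁ w * ∫ x, K₂ (y - w - π x) * g x ∂μ = ∫ x, K₂ (y - w - π x) * (K₁ w * g x) ∂μ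
        rw [← integral_const_mul]
        refine integral_congr_ae (Filter.Eventually.of_forall fun x => ?_)
        show K₁ w * (K₂ (y - w - π x) * g x) = K₂ (y - w - π x) * (K₁ w * g x)
        ring
    _ = ∫ x, (∫ w, K₂ (y - w - π x) * (K₁ w * g x)) ∂μ := integral_integral_swap hint
    _ = ∫ x, (∫ w, K₁ w * K₂ (y - π x - w)) * g x ∂μ := by
        refine integral_congr_ae (Filter.Eventually.of_forall fun x => ?_)
        show ∫ w, K₂ (y - w - π x) * (K₁ w * g x) = (∫ w, K₁ w * K₂ (y - π x - w)) * g x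
        rw [← integral_mul_const]
        refine integral_congr_ae (Filter.Eventually.of_forall fun w => ?_)
        show K₂ (y - w - π x) * (K₁ w * g x) = K₁ w * K₂ (y - π x - w) * g x
        rw [sub_right_comm]
        ring

/-- leaf L-Fit-FailQ-A6 (Fubini and `w ↦ p - w`).  Both sides are `∫ x, (∫ w, K₁ w * K₂ (y - π x - w)) * g x ∂μ`:
`integral_integral_swap` (the integrand is dominated by `|K₁ w| B₂ |g x|`, `Integrable.mul_prod`), `integral_sub_left_eq_self`. -/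
theorem mv_conv_comm [SFinite μ] (hπ : Measurable π) (hg : Integrable g μ) {K₁ K₂ : E m → ℝ}
    (h₁ : Continuous K₁) (c₁ : HasCompactSupport K₁) (h₂ : Continuous K₂)
    (c₂ : HasCompactSupport K₂) (y : E m) :
    ∫ w, K₁ w * mv μ π g K₂ (y - w) = ∫ w, K₂ w * mv μ π g K₁ (y - w) := by
  rw [qabs_conv_aux hπ hg h₁ c₁ h₂ c₂, qabs_conv_aux hπ hg h₂ c₂ h₁ c₁]
  refine integral_congr_ae (Filter.Eventually.of_forall fun x => ?_)
  show (∫ w, K₁ w * K₂ (y - π x - w)) * g x = (∫ w, K₂ w * K₁ (y - π x - w)) * g x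
  congr 1
  rw [← integral_sub_left_eq_self (fun w => K₁ w * K₂ (y - π x - w)) volume (y - π x)]
  refine integral_congr_ae (Filter.Eventually.of_forall fun w => ?_)
  show K₁ (y - π x - w) * K₂ (y - π x - (y - π x - w)) = K₂ w * K₁ (y - π x - w)
  rw [sub_sub_cancel]
  ring

end Basic

section Translate

variable {V : E m → ℝ} {Eb : E m → ℝ≥0∞} {y₀ : E m} {R : ℝ}

/-- auxiliary for `translate_L1`: the fundamental theorem of calculus on the segment -/
theorem qabs_ftc (hV : ContDiff ℝ 1 V) (y w : E m) :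
    ‖V y - V (y - w)‖ₑ ≤ ∫⁻ t in Set.Ioc (0 : ℝ) 1, ‖fderiv ℝ V (y - w + t • w)‖ₑ * ‖w‖ₑ := by
  have hder : ∀ t ∈ Set.uIcc (0 : ℝ) 1, HasDerivAt (fun t : ℝ => V (y - w + t • w))
      (fderiv ℝ V (y - w + t • w) w) t := by
    intro t _
    have h1 : HasFDerivAt V (fderiv ℝ V (y - w + t • w)) (y - w + t • w) :=
      (hV.differentiable one_ne_zero _).hasFDerivAt
    have h2 : HasDerivAt (fun t : ℝ => y - w + t • w) w t := by
      simpa using ((hasDerivAt_id t).smul_const w).const_add (y - w)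
    exact h1.comp_hasDerivAt t h2
  have hcont : Continuous fun t : ℝ => fderiv ℝ V (y - w + t • w) w :=
    ((hV.continuous_fderiv one_ne_zero).comp (by fun_prop)).clm_apply continuous_const
  have hftc := intervalIntegral.integral_eq_sub_of_hasDerivAt hder (hcont.intervalIntegrable 0 1)
  simp only [one_smul, zero_smul, add_zero, sub_add_cancel] at hftc
  rw [← hftc, intervalIntegral.integral_of_le zero_le_one]
  exact (enorm_integral_le_lintegral_enorm _).trans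
    (lintegral_mono fun t => ContinuousLinearMap.le_opENorm _ _)

/-- leaf L-Fit-FailQ-A4.  `V y - V (y - w) = ∫ t in 0..1, DV (y - w + t w) w` (`intervalIntegral.integral_eq_sub_of_hasDerivAt`),
`enorm_integral_le_lintegral_enorm`; Tonelli for the CONTINUOUS function `(y, t) ↦ ‖DV (y - w + t w)‖ₑ` on `ball y₀ R × Ioc 0 1`;
for fixed `t`: `∫⁻_{B_R} ‖DV (y - w + t w)‖ₑ ≤ ∫⁻_{B_R} Eb (y - (1 - t) w) ≤ ∫⁻ Eb` (`lintegral_sub_right_eq_self`). -/
theorem translate_L1 (hV : ContDiff ℝ 1 V)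
    (hb : ∀ y ∈ Metric.ball y₀ (2 * R), ‖fderiv ℝ V y‖ₑ ≤ Eb y) {w : E m} (hw : ‖w‖ ≤ R) :
    ∫⁻ y in Metric.ball y₀ R, ‖V y - V (y - w)‖ₑ ≤ ‖w‖ₑ * ∫⁻ y, Eb y := by
  have hmeas : Measurable (Function.uncurry fun (y : E m) (t : ℝ) =>
      ‖fderiv ℝ V (y - w + t • w)‖ₑ * ‖w‖ₑ) := by
    have hc : Continuous fun z : E m × ℝ => fderiv ℝ V (z.1 - w + z.2 • w) :=
      (hV.continuous_fderiv one_ne_zero).comp (by fun_prop)
    exact hc.enorm.measurable.mul_const _
  have hin : ∀ t ∈ Set.Ioc (0 : ℝ) 1,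
      ∫⁻ y in Metric.ball y₀ R, ‖fderiv ℝ V (y - w + t • w)‖ₑ * ‖w‖ₑ ≤ ‖w‖ₑ * ∫⁻ y, Eb y := by
    intro t ht
    calc ∫⁻ y in Metric.ball y₀ R, ‖fderiv ℝ V (y - w + t • w)‖ₑ * ‖w‖ₑ
        ≤ ∫⁻ y in Metric.ball y₀ R, Eb (y - (1 - t) • w) * ‖w‖ₑ := by
          refine setLIntegral_mono' Metric.isOpen_ball.measurableSet fun y hy => ?_
          have e : y - w + t • w = y - (1 - t) • w := by
            rw [sub_smul, one_smul]; abel
          rw [e]
          gcongr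
          apply hb
          rw [Metric.mem_ball, dist_eq_norm] at hy ⊢
          have h1 : ‖(1 - t) • w‖ ≤ R := by
            rw [norm_smul, Real.norm_eq_abs, abs_of_nonneg (by linarith [ht.2])]
            calc (1 - t) * ‖w‖ ≤ 1 * ‖w‖ :=
                  mul_le_mul_of_nonneg_right (by linarith [ht.1]) (norm_nonneg _)
              _ ≤ R := by rw [one_mul]; exact hw
          calc ‖y - (1 - t) • w - y₀‖ = ‖(y - y₀) - (1 - t) • w‖ := by congr 1; abel
            _ ≤ ‖y - y₀‖ + ‖(1 - t) • w‖ := norm_sub_le _ _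
            _ < 2 * R := by linarith
      _ ≤ ∫⁻ y, Eb (y - (1 - t) • w) * ‖w‖ₑ := setLIntegral_le_lintegral _ _
      _ = ‖w‖ₑ * ∫⁻ y, Eb y := by
          rw [lintegral_mul_const' _ _ enorm_ne_top, lintegral_sub_right_eq_self, mul_comm]
  calc ∫⁻ y in Metric.ball y₀ R, ‖V y - V (y - w)‖ₑ
      ≤ ∫⁻ y in Metric.ball y₀ R, ∫⁻ t in Set.Ioc (0 : ℝ) 1,
          ‖fderiv ℝ V (y - w + t • w)‖ₑ * ‖w‖ₑ := lintegral_mono fun y => qabs_ftc hV y w
    _ = ∫⁻ t in Set.Ioc (0 : ℝ) 1, ∫⁻ y in Metric.ball y₀ R,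
          ‖fderiv ℝ V (y - w + t • w)‖ₑ * ‖w‖ₑ := lintegral_lintegral_swap hmeas.aemeasurable
    _ ≤ ∫⁻ _t in Set.Ioc (0 : ℝ) 1, ‖w‖ₑ * ∫⁻ y, Eb y := setLIntegral_mono' measurableSet_Ioc hin
    _ = ‖w‖ₑ * ∫⁻ y, Eb y := by
        rw [setLIntegral_const, Real.volume_Ioc]
        simp

/-- leaf L-Fit-FailQ-A5.  `V y - ∫ K_r(w) V(y - w) = ∫ K_r(w) (V y - V (y - w))`, `enorm_integral_le_lintegral_enorm`, Tonelli
(continuous integrand), `translate_L1` for `‖w‖ < r` (`K_r w = 0` otherwise), `MolK.lintegral_enorm`. -/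
theorem moll_L1 (hV : ContDiff ℝ 1 V)
    (hb : ∀ y ∈ Metric.ball y₀ (2 * R), ‖fderiv ℝ V y‖ₑ ≤ Eb y) {Kr : E m → ℝ} {r : ℝ}
    (hKr : MolK Kr r) (hr : r ≤ R) :
    ∫⁻ y in Metric.ball y₀ R, ‖V y - ∫ w, Kr w * V (y - w)‖ₑ
      ≤ ENNReal.ofReal r * ∫⁻ y, Eb y := by
  have hpt : ∀ y, ‖V y - ∫ w, Kr w * V (y - w)‖ₑ ≤ ∫⁻ w, ‖Kr w‖ₑ * ‖V y - V (y - w)‖ₑ := by
    intro y
    have i1 : Integrable fun w => Kr w * V y := hKr.integrable.mul_const _
    have i2 : Integrable fun w => Kr w * V (y - w) :=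
      (hKr.continuous.mul (hV.continuous.comp (by fun_prop))).integrable_of_hasCompactSupport
        hKr.hasCompactSupport.mul_right
    have e : V y - ∫ w, Kr w * V (y - w) = ∫ w, Kr w * (V y - V (y - w)) := by
      simp only [mul_sub]
      rw [integral_sub i1 i2, integral_mul_const, hKr.int, one_mul]
    rw [e]
    refine (enorm_integral_le_lintegral_enorm _).trans (le_of_eq ?_)
    refine lintegral_congr fun w => ?_
    rw [enorm_mul]
  have hmeas : Measurable (Function.uncurry fun (y w : E m) => ‖Kr w‖ₑ * ‖V y - V (y - w)‖ₑ) := by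
    have c1 : Continuous fun z : E m × E m => Kr z.2 := hKr.continuous.comp continuous_snd
    have c2 : Continuous fun z : E m × E m => V z.1 - V (z.1 - z.2) :=
      (hV.continuous.comp continuous_fst).sub (hV.continuous.comp (by fun_prop))
    exact c1.enorm.measurable.mul c2.enorm.measurable
  have hin : ∀ w, ∫⁻ y in Metric.ball y₀ R, ‖Kr w‖ₑ * ‖V y - V (y - w)‖ₑ
      ≤ ‖Kr w‖ₑ * (ENNReal.ofReal r * ∫⁻ y, Eb y) := by
    intro w
    rw [lintegral_const_mul' _ _ enorm_ne_top]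
    rcases le_or_gt r ‖w‖ with h | h
    · rw [hKr.supp w h]; simp
    · gcongr
      refine (translate_L1 hV hb (h.le.trans hr)).trans ?_
      gcongr
      rw [← ofReal_norm]
      exact ENNReal.ofReal_le_ofReal h.le
  calc ∫⁻ y in Metric.ball y₀ R, ‖V y - ∫ w, Kr w * V (y - w)‖ₑ
      ≤ ∫⁻ y in Metric.ball y₀ R, ∫⁻ w, ‖Kr w‖ₑ * ‖V y - V (y - w)‖ₑ := lintegral_mono hpt
    _ = ∫⁻ w, ∫⁻ y in Metric.ball y₀ R, ‖Kr w‖ₑ * ‖V y - V (y - w)‖ₑ :=
        lintegral_lintegral_swap hmeas.aemeasurable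
    _ ≤ ∫⁻ w, ‖Kr w‖ₑ * (ENNReal.ofReal r * ∫⁻ y, Eb y) := lintegral_mono hin
    _ = ENNReal.ofReal r * ∫⁻ y, Eb y := by
        rw [lintegral_mul_const _ hKr.continuous.enorm.measurable, hKr.lintegral_enorm, one_mul]

end Translate

section Main

variable {μ : Measure 𝒳} [IsFiniteMeasure μ] {π : 𝒳 → E m} {g b₀ b₁ : 𝒳 → ℝ} {y₀ : E m}
  {R r s τ A L : ℝ} {q : ℕ} {Ks Kr : E m → ℝ}

/-- reflected and translated kernel: norms of the derivatives -/
theorem bvf_norm_iteratedFDeriv (K : E m → ℝ) (c p : E m) (i : ℕ) :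
    ‖iteratedFDeriv ℝ i (fun p => K (c - p)) p‖ = ‖iteratedFDeriv ℝ i K (c - p)‖ := by
  have e : (fun p => K (c - p))
      = (fun z => K (c + z)) ∘ (LinearIsometryEquiv.neg ℝ : E m ≃ₗᵢ[ℝ] E m) := by
    funext p
    simp [sub_eq_add_neg]
  rw [e, LinearIsometryEquiv.norm_iteratedFDeriv_comp_right, iteratedFDeriv_comp_add_left]
  simp [sub_eq_add_neg]

theorem bvf_tsupport {K : E m → ℝ} {r : ℝ} (hK : MolK K r) (c : E m) :
    tsupport (fun p => K (c - p)) ⊆ Metric.closedBall c r :=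
  closure_minimal (fun p hp => by
    rw [Metric.mem_closedBall, dist_comm, dist_eq_norm]
    by_contra hc
    exact hp (hK.supp _ (not_le.1 hc).le)) Metric.isClosed_closedBall

theorem bvf_smooth {K : E m → ℝ} {r : ℝ} (hK : MolK K r) (c : E m) :
    ContDiff ℝ ∞ (fun p => K (c - p)) :=
  hK.smooth.comp (contDiff_const.sub contDiff_id)

/-- the parametrised integral of a kernel is measurable -/
theorem bvg_measurable_ker {μ : Measure 𝒳} [SFinite μ] {π : 𝒳 → E m} (hπ : Measurable π)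
    {k : E m → ℝ≥0∞} (hk : Measurable k) {b : 𝒳 → ℝ≥0∞} (hb : AEMeasurable b μ) :
    Measurable (fun y => ∫⁻ x, k (y - π x) * b x ∂μ) := by
  have e : (fun y => ∫⁻ x, k (y - π x) * b x ∂μ) = fun y => ∫⁻ x, k (y - π x) * hb.mk b x ∂μ :=
    funext fun y => lintegral_congr_ae (hb.ae_eq_mk.mono fun x hx => by simp only [hx])
  rw [e]
  have hm : Measurable (fun p : E m × 𝒳 => k (p.1 - π p.2) * hb.mk b p.2) :=
    (hk.comp (measurable_fst.sub (hπ.comp measurable_snd))).mul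
      (hb.measurable_mk.comp measurable_snd)
  exact hm.lintegral_prod_right'

/-- the norm of a functional on `E m` is at most the sum of its values on the standard basis -/
theorem bvg_opNorm_le (T : E m →L[ℝ] ℝ) {J : ℝ} (hJ : ∀ j : Fin m, |T (EuclideanSpace.single j 1)| ≤ J) :
    ‖T‖ ≤ m * J := by
  have hJ0 : 0 ≤ (m : ℝ) * J := by
    rcases Nat.eq_zero_or_pos m with h | h
    · subst h
      simp
    · exact mul_nonneg (Nat.cast_nonneg _) ((abs_nonneg _).trans (hJ ⟨0, h⟩))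
  refine T.opNorm_le_bound hJ0 fun v => ?_
  have hv : v = ∑ j : Fin m, v j • EuclideanSpace.single j (1 : ℝ) := by
    ext i
    simp [Finset.sum_apply, Pi.single_apply]
  have h1 : T v = ∑ j : Fin m, v j * T (EuclideanSpace.single j 1) := by
    conv_lhs => rw [hv]
    simp [map_sum]
  rw [h1]
  calc ‖∑ j : Fin m, v j * T (EuclideanSpace.single j 1)‖
      ≤ ∑ j : Fin m, ‖v j * T (EuclideanSpace.single j 1)‖ := norm_sum_le _ _
    _ ≤ ∑ _j : Fin m, ‖v‖ * J := by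
        refine Finset.sum_le_sum fun j _ => ?_
        rw [norm_mul]
        exact mul_le_mul (PiLp.norm_apply_le v j) (hJ j) (norm_nonneg _) (norm_nonneg _)
    _ = m * J * ‖v‖ := by
        simp
        ring

theorem bvg_fderiv {K : E m → ℝ} (hK : Differentiable ℝ K) (y p : E m) :
    fderiv ℝ (fun p => K (y - p)) p = - fderiv ℝ K (y - p) := by
  have h1 : HasFDerivAt (fun p : E m => y - p) (- ContinuousLinearMap.id ℝ (E m)) p :=
    (hasFDerivAt_id p).const_sub y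
  have h2 := ((hK (y - p)).hasFDerivAt.comp p h1).fderiv
  rw [show (fun p => K (y - p)) = K ∘ fun p => y - p from rfl, h2]
  ext v
  simp

/-- leaf L-Fit-FailQ-A2.  `Eb y = m * ∫⁻ (‖Ks (y - π x)‖ₑ * ofReal (b₀ x) + ‖fderiv ℝ Ks (y - π x)‖ₑ * ofReal (b₁ x)) ∂μ`.
`‖T‖ ≤ ∑_j |T e_j|` for `T : E m →L[ℝ] ℝ`; `mv_fderiv_apply`; H1 with `φ = fun p => Ks (y - p)` (`fderiv φ p = - fderiv Ks (y - p)`,
`tsupport φ ⊆ closedBall y s ⊆ ball y₀ (4R)`); `ofReal_integral_eq_lintegral_ofReal`; `lintegral_ker_swap` twice. -/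
theorem bv_grad (hπ : Measurable π) (hg : Integrable g μ) (hb₀ : Integrable b₀ μ)
    (hb₁ : Integrable b₁ μ) (h₀ : ∀ x, 0 ≤ b₀ x) (h₁ : ∀ x, 0 ≤ b₁ x) (hR : 0 < R) (hs : s ≤ R)
    (hKs : MolK Ks s) (hL : ∫ w, ‖fderiv ℝ Ks w‖ ≤ L)
    (H1 : ∀ φ : E m → ℝ, ContDiff ℝ ∞ φ → tsupport φ ⊆ Metric.ball y₀ (4 * R) → ∀ j : Fin m,
      |∫ x, g x * fderiv ℝ φ (π x) (EuclideanSpace.single j 1) ∂μ|
        ≤ ∫ x, (|φ (π x)| * b₀ x + ‖fderiv ℝ φ (π x)‖ * b₁ x) ∂μ) :
    ∃ Eb : E m → ℝ≥0∞, (∀ y ∈ Metric.ball y₀ (2 * R), ‖fderiv ℝ (mv μ π g Ks) y‖ₑ ≤ Eb y) ∧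
      ∫⁻ y, Eb y ≤ ENNReal.ofReal (m * (∫ x, b₀ x ∂μ + L * ∫ x, b₁ x ∂μ)) := by
  have hKs1 : ContDiff ℝ 1 Ks := hKs.smooth.of_le (by simp)
  have hdiff : Differentiable ℝ Ks := hKs1.differentiable one_ne_zero
  have hdc : Continuous (fderiv ℝ Ks) := hKs1.continuous_fderiv one_ne_zero
  have hk₀m : Measurable (fun w : E m => ‖Ks w‖ₑ) := hKs.continuous.enorm.measurable
  have hk₁m : Measurable (fun w : E m => ‖fderiv ℝ Ks w‖ₑ) := hdc.enorm.measurable
  have hB₀ : AEMeasurable (fun x => ENNReal.ofReal (b₀ x)) μ := hb₀.aemeasurable.ennreal_ofReal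
  have hB₁ : AEMeasurable (fun x => ENNReal.ofReal (b₁ x)) μ := hb₁.aemeasurable.ennreal_ofReal
  refine ⟨fun y => m * ∫⁻ x, (‖Ks (y - π x)‖ₑ * ENNReal.ofReal (b₀ x)
    + ‖fderiv ℝ Ks (y - π x)‖ₑ * ENNReal.ofReal (b₁ x)) ∂μ, ?_, ?_⟩
  · intro y hy
    have hsub : Measurable (fun x => y - π x) := measurable_const.sub hπ
    have hf0 : ∀ x, 0 ≤ |Ks (y - π x)| * b₀ x + ‖fderiv ℝ Ks (y - π x)‖ * b₁ x := fun x =>
      add_nonneg (mul_nonneg (abs_nonneg _) (h₀ x)) (mul_nonneg (norm_nonneg _) (h₁ x))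
    have hfm : AEStronglyMeasurable
        (fun x => |Ks (y - π x)| * b₀ x + ‖fderiv ℝ Ks (y - π x)‖ * b₁ x) μ :=
      (((hKs.continuous.abs.measurable.comp hsub).aestronglyMeasurable).mul hb₀.1).add
        (((hdc.norm.measurable.comp hsub).aestronglyMeasurable).mul hb₁.1)
    have hj : ∀ j : Fin m, |fderiv ℝ (mv μ π g Ks) y (EuclideanSpace.single j 1)|
        ≤ ∫ x, (|Ks (y - π x)| * b₀ x + ‖fderiv ℝ Ks (y - π x)‖ * b₁ x) ∂μ := by
      intro j
      rw [mv_fderiv_apply hπ hg hKs1 hKs.hasCompactSupport]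
      have h := H1 (fun p => Ks (y - p)) (bvf_smooth hKs y) (by
        refine (bvf_tsupport hKs y).trans ?_
        intro p hp
        rw [Metric.mem_closedBall] at hp
        rw [Metric.mem_ball] at hy ⊢
        have := dist_triangle p y y₀
        linarith) j
      simp only [bvg_fderiv hdiff, _root_.neg_apply, norm_neg, mul_neg, integral_neg,
        abs_neg] at h
      exact h
    have h1 := bvg_opNorm_le _ hj
    calc ‖fderiv ℝ (mv μ π g Ks) y‖ₑ = ENNReal.ofReal ‖fderiv ℝ (mv μ π g Ks) y‖ :=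
          (ofReal_norm _).symm
      _ ≤ ENNReal.ofReal (m * ∫ x, (|Ks (y - π x)| * b₀ x + ‖fderiv ℝ Ks (y - π x)‖ * b₁ x) ∂μ) :=
          ENNReal.ofReal_le_ofReal h1
      _ = m * ENNReal.ofReal (∫ x, (|Ks (y - π x)| * b₀ x + ‖fderiv ℝ Ks (y - π x)‖ * b₁ x) ∂μ) := by
          rw [ENNReal.ofReal_mul (Nat.cast_nonneg _), ENNReal.ofReal_natCast]
      _ ≤ _ := by
          refine mul_le_mul_right ?_ _
          rw [integral_eq_lintegral_of_nonneg_ae (Filter.Eventually.of_forall hf0) hfm]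
          refine ENNReal.ofReal_toReal_le.trans (le_of_eq (lintegral_congr fun x => ?_))
          rw [ENNReal.ofReal_add (mul_nonneg (abs_nonneg _) (h₀ x))
            (mul_nonneg (norm_nonneg _) (h₁ x)), ENNReal.ofReal_mul (abs_nonneg _),
            ENNReal.ofReal_mul (norm_nonneg _), ofReal_norm, ← Real.norm_eq_abs, ofReal_norm]
  · have hL0 : 0 ≤ L := (integral_nonneg fun w => norm_nonneg _).trans hL
    have hI₀ : 0 ≤ ∫ x, b₀ x ∂μ := integral_nonneg h₀
    have hI₁ : 0 ≤ ∫ x, b₁ x ∂μ := integral_nonneg h₁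
    have hint : Integrable (fderiv ℝ Ks) :=
      hdc.integrable_of_hasCompactSupport (hKs.hasCompactSupport.fderiv ℝ)
    have e1 : ∀ y, ∫⁻ x, (‖Ks (y - π x)‖ₑ * ENNReal.ofReal (b₀ x)
        + ‖fderiv ℝ Ks (y - π x)‖ₑ * ENNReal.ofReal (b₁ x)) ∂μ
        = ∫⁻ x, ‖Ks (y - π x)‖ₑ * ENNReal.ofReal (b₀ x) ∂μ
          + ∫⁻ x, ‖fderiv ℝ Ks (y - π x)‖ₑ * ENNReal.ofReal (b₁ x) ∂μ := fun y =>
      lintegral_add_left' ((hk₀m.comp (measurable_const.sub hπ)).aemeasurable.mul hB₀) _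
    rw [lintegral_const_mul' _ _ (ENNReal.natCast_ne_top m)]
    simp only [e1]
    rw [lintegral_add_left (bvg_measurable_ker hπ hk₀m hB₀), lintegral_ker_swap hπ hk₀m hB₀,
      lintegral_ker_swap hπ hk₁m hB₁, hKs.lintegral_enorm, one_mul,
      ← ofReal_integral_eq_lintegral_ofReal hb₀ (Filter.Eventually.of_forall h₀),
      ← ofReal_integral_eq_lintegral_ofReal hb₁ (Filter.Eventually.of_forall h₁),
      ← ofReal_integral_norm_eq_lintegral_enorm hint,
      ENNReal.ofReal_mul (Nat.cast_nonneg _), ENNReal.ofReal_natCast,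
      ENNReal.ofReal_add hI₀ (mul_nonneg hL0 hI₁), ENNReal.ofReal_mul hL0]
    gcongr

/-- leaf L-Fit-FailQ-A7.  `mv_conv_comm`; for `‖w‖ < s`: `y - w ∈ ball y₀ (2R)` and `|mv μ π g Kr (y - w)| ≤ τ A` by H2 with
`φ = fun p => Kr (y - w - p)` (`‖iteratedFDeriv ℝ i φ p‖ = ‖iteratedFDeriv ℝ i Kr (y - w - p)‖`:
`iteratedFDeriv_comp_sub`, `LinearIsometryEquiv.norm_iteratedFDeriv_comp_right (LinearIsometryEquiv.neg ℝ)`); `∫ Ks = 1`. -/
theorem bv_far (hπ : Measurable π) (hg : Integrable g μ) (hR : 0 < R) (hs : s ≤ R) (hr : r ≤ R)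
    (hKs : MolK Ks s) (hKr : MolK Kr r)
    (hA : ∀ i : ℕ, i ≤ q → ∀ w, ‖iteratedFDeriv ℝ i Kr w‖ ≤ A)
    (H2 : ∀ (φ : E m → ℝ) (A' : ℝ), ContDiff ℝ ∞ φ → tsupport φ ⊆ Metric.ball y₀ (4 * R) →
      (∀ i : ℕ, i ≤ q → ∀ y, ‖iteratedFDeriv ℝ i φ y‖ ≤ A') →
      |∫ x, φ (π x) * g x ∂μ| ≤ τ * A') :
    ∀ y ∈ Metric.ball y₀ R, |∫ w, Kr w * mv μ π g Ks (y - w)| ≤ τ * A := by
  intro y hy
  rw [mv_conv_comm hπ hg hKr.continuous hKr.hasCompactSupport hKs.continuous hKs.hasCompactSupport y]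
  have hpt : ∀ w, ‖Ks w * mv μ π g Kr (y - w)‖ ≤ Ks w * (τ * A) := by
    intro w
    by_cases hw : s ≤ ‖w‖
    · rw [hKs.supp w hw]
      simp
    · push Not at hw
      have h2 : |mv μ π g Kr (y - w)| ≤ τ * A := by
        refine H2 (fun p => Kr (y - w - p)) A (bvf_smooth hKr _) ?_ ?_
        · refine (bvf_tsupport hKr (y - w)).trans ?_
          intro p hp
          rw [Metric.mem_closedBall] at hp
          rw [Metric.mem_ball] at hy ⊢
          have h3 : dist (y - w) y₀ ≤ dist y y₀ + ‖w‖ := by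
            have := dist_triangle (y - w) y y₀
            have e : dist (y - w) y = ‖w‖ := by
              rw [dist_eq_norm]
              simp
            linarith
          have := dist_triangle p (y - w) y₀
          linarith
        · intro i hi p
          rw [bvf_norm_iteratedFDeriv]
          exact hA i hi _
      rw [norm_mul, Real.norm_eq_abs, Real.norm_eq_abs, abs_of_nonneg (hKs.nonneg w)]
      exact mul_le_mul_of_nonneg_left h2 (hKs.nonneg w)
  have h3 := norm_integral_le_of_norm_le (hKs.integrable.mul_const (τ * A))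
    (Filter.Eventually.of_forall hpt)
  rw [integral_mul_const, hKs.int, one_mul, Real.norm_eq_abs] at h3
  exact h3

/-- **the abstract interpolation lemma** -/
theorem bv_small (hπ : Measurable π) (hg : Integrable g μ) (hb₀ : Integrable b₀ μ)
    (hb₁ : Integrable b₁ μ) (h₀ : ∀ x, 0 ≤ b₀ x) (h₁ : ∀ x, 0 ≤ b₁ x) (hR : 0 < R) (hs : s ≤ R)
    (hr : r ≤ R) (hKs : MolK Ks s) (hKr : MolK Kr r) (hL : ∫ w, ‖fderiv ℝ Ks w‖ ≤ L)
    (hA : ∀ i : ℕ, i ≤ q → ∀ w, ‖iteratedFDeriv ℝ i Kr w‖ ≤ A)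
    (H1 : ∀ φ : E m → ℝ, ContDiff ℝ ∞ φ → tsupport φ ⊆ Metric.ball y₀ (4 * R) → ∀ j : Fin m,
      |∫ x, g x * fderiv ℝ φ (π x) (EuclideanSpace.single j 1) ∂μ|
        ≤ ∫ x, (|φ (π x)| * b₀ x + ‖fderiv ℝ φ (π x)‖ * b₁ x) ∂μ)
    (H2 : ∀ (φ : E m → ℝ) (A' : ℝ), ContDiff ℝ ∞ φ → tsupport φ ⊆ Metric.ball y₀ (4 * R) →
      (∀ i : ℕ, i ≤ q → ∀ y, ‖iteratedFDeriv ℝ i φ y‖ ≤ A') →
      |∫ x, φ (π x) * g x ∂μ| ≤ τ * A') :
    ∫⁻ y in Metric.ball y₀ R, ‖mv μ π g Ks y‖ₑ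
      ≤ ENNReal.ofReal r * ENNReal.ofReal (m * (∫ x, b₀ x ∂μ + L * ∫ x, b₁ x ∂μ))
        + ENNReal.ofReal (τ * A) * volume (Metric.ball y₀ R) := by
  obtain ⟨Eb, hE1, hE2⟩ := bv_grad hπ hg hb₀ hb₁ h₀ h₁ hR hs hKs hL H1
  have hV : ContDiff ℝ 1 (mv μ π g Ks) :=
    mv_contDiff_one hπ hg (hKs.smooth.of_le (by simp)) hKs.hasCompactSupport
  have h1 := moll_L1 hV hE1 hKr hr
  have h2 := bv_far hπ hg hR hs hr hKs hKr hA H2
  calc ∫⁻ y in Metric.ball y₀ R, ‖mv μ π g Ks y‖ₑ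
      ≤ ∫⁻ y in Metric.ball y₀ R, (‖mv μ π g Ks y - ∫ w, Kr w * mv μ π g Ks (y - w)‖ₑ
          + ENNReal.ofReal (τ * A)) := by
        refine setLIntegral_mono' Metric.isOpen_ball.measurableSet fun y hy => ?_
        have e : mv μ π g Ks y = (mv μ π g Ks y - ∫ w, Kr w * mv μ π g Ks (y - w))
            + ∫ w, Kr w * mv μ π g Ks (y - w) := by ring
        calc ‖mv μ π g Ks y‖ₑ
            ≤ ‖mv μ π g Ks y - ∫ w, Kr w * mv μ π g Ks (y - w)‖ₑ
              + ‖∫ w, Kr w * mv μ π g Ks (y - w)‖ₑ := by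
              conv_lhs => rw [e]
              exact enorm_add_le _ _
          _ ≤ _ := by
              gcongr
              rw [← ofReal_norm, Real.norm_eq_abs]
              exact ENNReal.ofReal_le_ofReal (h2 y hy)
    _ = (∫⁻ y in Metric.ball y₀ R, ‖mv μ π g Ks y - ∫ w, Kr w * mv μ π g Ks (y - w)‖ₑ)
          + ENNReal.ofReal (τ * A) * volume (Metric.ball y₀ R) := by
        rw [lintegral_add_right _ measurable_const, lintegral_const, Measure.restrict_apply_univ]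
    _ ≤ _ := by
        gcongr
        exact h1.trans (by gcongr)

end Main

end Claimed.Agent.R322.Fit
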