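import Claimed.Agent.R322.Fit.Fail.Defs
import Claimed.Agent.R322.Pack051
import Claimed.Agent.R322.Pack058
import Claimed.Agent.R322.Pack015

/-!
# AE Lemma 7.2 (Q): the geometric inputs   (architect helper189)

Notation: `μ = N.μ`, `π = npr N.u`, `z = zz N.u`, `e = tilt N.u (N.W.P X) X`, kits `K : Lin.SK N 72 a C ε Cm` (`Lin/CylKit.lean`).
`gz u α X = (prV z)_α` are the vertical components of the normal height.

Basic facts for `X ∈ Cyl N.u N.Ω N.h`:  `X = Fg u (π X) + z` (definition of `zz`), `Ph u (π X) z = 0` (`K.ok.normal`), hence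
`prH z = - (Du(π X))ᵀ (prV z)` (`PhA_eq_zero_iff`, `adjoint_dF_apply`; copy the proof of `Freq.npr_close`, `Freq/Weights.lean`; do NOT import that file),
`prH X = π X + prH z`, `prV X = u (π X) + prV z` (`prH_mkHV`, `prV_mkHV`), `‖Du‖ ≤ ε` (`K.small.slope`).
-/

set_option autoImplicit false

open scoped ENNReal ContDiff
open MeasureTheory Filter Topology

namespace Claimed.Agent.R322.Fit

open Claimed.Agent.R322.Tube Claimed.Agent.R322.Freq Claimed.Agent.R322.Lin

variable {m n : ℕ}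

/-- vertical components of the normal height -/
noncomputable def gz (u : E m → E n) (α : Fin n) (X : E (m + n)) : ℝ := prV m n (zz u X) α

/-- points at distance `≥ d` from `Γ` -/
def FarSet (Γ : Set (E (m + n))) (d : ℝ) : Set (E (m + n)) := {X | ∀ P ∈ Γ, d ≤ ‖X - P‖}

/-! ### leaf L-Fit-FailQ-G1: elementary facts -/

theorem gz_eq_inner (u : E m → E n) (α : Fin n) (X : E (m + n)) :
    gz u α X = inner ℝ (zz u X) (mkHV (0 : E m) (EuclideanSpace.single α (1 : ℝ))) := by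
  conv_rhs => rw [← mkHV_prH_prV (zz u X), inner_mkHV, inner_zero_right, zero_add]
  rw [EuclideanSpace.inner_single_right]
  simp [gz]

theorem norm_mkHV_single (α : Fin n) :
    ‖mkHV (0 : E m) (EuclideanSpace.single α (1 : ℝ))‖ ≤ 1 := by
  have h := norm_sq_mkHV (0 : E m) (EuclideanSpace.single α (1 : ℝ))
  rw [norm_zero, PiLp.norm_single, norm_one] at h
  have h0 := norm_nonneg (mkHV (0 : E m) (EuclideanSpace.single α (1 : ℝ)))
  nlinarith

theorem abs_gz_le (u : E m → E n) (α : Fin n) (X : E (m + n)) : |gz u α X| ≤ ‖zz u X‖ := by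
  rw [gz_eq_inner]
  calc |inner ℝ (zz u X) (mkHV (0 : E m) (EuclideanSpace.single α (1 : ℝ)))|
      ≤ ‖zz u X‖ * ‖mkHV (0 : E m) (EuclideanSpace.single α (1 : ℝ))‖ := abs_real_inner_le_norm _ _
    _ ≤ ‖zz u X‖ * 1 := mul_le_mul_of_nonneg_left (norm_mkHV_single α) (norm_nonneg _)
    _ = ‖zz u X‖ := mul_one _

/-- the complement is a union of open balls -/
theorem measurableSet_farSet (Γ : Set (E (m + n))) (d : ℝ) : MeasurableSet (FarSet Γ d) := by
  have h : FarSet Γ d = ⋂ P ∈ Γ, {X | d ≤ ‖X - P‖} := by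
    ext X
    simp [FarSet]
  rw [h]
  exact (isClosed_biInter fun P _ =>
    isClosed_le continuous_const (continuous_id.sub continuous_const).norm).measurableSet

/-- `prH z = - Duᵀ prV z` -/
theorem norm_prH_zz_le {u : E m → E n} {X : E (m + n)} (hz : Ph u (npr u X) (zz u X) = 0) :
    ‖prH m n (zz u X)‖ ≤ ‖fderiv ℝ u (npr u X)‖ * ‖prV m n (zz u X)‖ := by
  have h1 := (PhA_eq_zero_iff (fderiv ℝ u (npr u X)) (zz u X)).1 hz
  rw [adjoint_dF_apply] at h1
  have h2 : prH m n (zz u X) =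
      -(ContinuousLinearMap.adjoint (fderiv ℝ u (npr u X)) (prV m n (zz u X))) :=
    eq_neg_of_add_eq_zero_left h1
  rw [h2, norm_neg]
  refine (ContinuousLinearMap.le_opNorm _ _).trans ?_
  rw [ContinuousLinearMap.adjoint.norm_map]

/-- `|z|² = |prH z|² + |prV z|² ≤ ε² |z|² + ∑ g_α²` (`norm_sq_eq_prH_prV`, `EuclideanSpace.norm_sq_eq`) -/
theorem norm_sq_zz_le {u : E m → E n} {X : E (m + n)} (hz : Ph u (npr u X) (zz u X) = 0)
    (hs : ‖fderiv ℝ u (npr u X)‖ ≤ 1 / 2) : ‖zz u X‖ ^ 2 ≤ 2 * ∑ α, gz u α X ^ 2 := by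
  have h1 := norm_prH_zz_le hz
  have h2 := norm_sq_eq_prH_prV (zz u X)
  have h3 : ‖prV m n (zz u X)‖ ^ 2 = ∑ α, gz u α X ^ 2 := by
    rw [EuclideanSpace.norm_sq_eq]
    refine Finset.sum_congr rfl fun α _ => ?_
    rw [Real.norm_eq_abs, sq_abs]
    rfl
  have h4 : ‖prH m n (zz u X)‖ ≤ 1 / 2 * ‖prV m n (zz u X)‖ :=
    h1.trans (mul_le_mul_of_nonneg_right hs (norm_nonneg _))
  have h5 := norm_nonneg (prH m n (zz u X))
  have h6 := norm_nonneg (prV m n (zz u X))
  rw [← h3, h2]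
  nlinarith

theorem aesm_gz {N : NCyl m n} (ok : CylOK N) (α : Fin n) :
    AEStronglyMeasurable (gz N.u α) N.μ := by
  refine ok.aesm ?_
  have h1 : ContinuousOn (fun X => prV m n (zz N.u X)) (Cyl N.u N.Ω N.h) :=
    (prV m n).continuous.comp_continuousOn ok.cont_zz
  exact (EuclideanSpace.proj α : E n →L[ℝ] ℝ).continuous.comp_continuousOn h1

/-- `|g_α(X) - g_α(X')| ≤ |prV (X - X')| + |u(π X) - u(π X')|`, `|prV (X - X')| ≤ |prV (P - P')| + 2d ≤ |prH (P - P')| + 2d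
≤ |prH (X - X')| + 4d ≤ |π X - π X'| + |prH z| + |prH z'| + 4d`; `u` is `ε`-Lipschitz (`Convex.norm_image_sub_le_of_norm_fderiv_le`);
`‖prH‖, ‖prV‖ ≤ 1`. -/
theorem fq_cone {u : E m → E n} {ε : ℝ} (hu : Differentiable ℝ u) (hε : ∀ y, ‖fderiv ℝ u y‖ ≤ ε)
    (hε1 : ε ≤ 1) {Γ : Set (E (m + n))} (hΓ : ConeSet 1 Γ) {X X' : E (m + n)} {d s ζ : ℝ}
    (hz : Ph u (npr u X) (zz u X) = 0) (hz' : Ph u (npr u X') (zz u X') = 0)
    (hζ : ‖zz u X‖ ≤ ζ) (hζ' : ‖zz u X'‖ ≤ ζ) (hX : X ∉ FarSet Γ d) (hX' : X' ∉ FarSet Γ d)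
    (hs : ‖npr u X - npr u X'‖ ≤ s) (α : Fin n) :
    |gz u α X - gz u α X'| ≤ 2 * s + 2 * ε * ζ + 4 * d := by
  have hε0 : 0 ≤ ε := (norm_nonneg _).trans (hε 0)
  -- the nearby points of the cone set
  have hP : ∃ P ∈ Γ, ‖X - P‖ < d := by
    by_contra hc
    push Not at hc
    exact hX hc
  have hP' : ∃ P ∈ Γ, ‖X' - P‖ < d := by
    by_contra hc
    push Not at hc
    exact hX' hc
  obtain ⟨P, hPΓ, hPd⟩ := hP
  obtain ⟨P', hPΓ', hPd'⟩ := hP'
  -- decomposition
  have eX : X = Fg u (npr u X) + zz u X := by unfold zz; abel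
  have eX' : X' = Fg u (npr u X') + zz u X' := by unfold zz; abel
  have hH : prH m n X = npr u X + prH m n (zz u X) := by
    conv_lhs => rw [eX, map_add]
    unfold Fg
    rw [prH_mkHV]
  have hH' : prH m n X' = npr u X' + prH m n (zz u X') := by
    conv_lhs => rw [eX', map_add]
    unfold Fg
    rw [prH_mkHV]
  have hV : prV m n X = u (npr u X) + prV m n (zz u X) := by
    conv_lhs => rw [eX, map_add]
    unfold Fg
    rw [prV_mkHV]
  have hV' : prV m n X' = u (npr u X') + prV m n (zz u X') := by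
    conv_lhs => rw [eX', map_add]
    unfold Fg
    rw [prV_mkHV]
  -- Lipschitz bound
  have hlip : ‖u (npr u X) - u (npr u X')‖ ≤ ε * ‖npr u X - npr u X'‖ :=
    Convex.norm_image_sub_le_of_norm_fderiv_le (fun y _ => hu y) (fun y _ => hε y) convex_univ
      (Set.mem_univ _) (Set.mem_univ _)
  have hzH : ‖prH m n (zz u X)‖ ≤ ε * ζ :=
    (norm_prH_zz_le hz).trans (mul_le_mul (hε _) ((norm_prV_le _).trans hζ) (norm_nonneg _) hε0)
  have hzH' : ‖prH m n (zz u X')‖ ≤ ε * ζ :=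
    (norm_prH_zz_le hz').trans (mul_le_mul (hε _) ((norm_prV_le _).trans hζ') (norm_nonneg _) hε0)
  -- cone
  have hcone := hΓ P hPΓ P' hPΓ'
  rw [one_mul] at hcone
  have a1 : ‖prV m n (X - X')‖ ≤ ‖prV m n (P - P')‖ + 2 * d := by
    have e : prV m n (X - X') = prV m n (P - P') + prV m n (X - P) - prV m n (X' - P') := by
      rw [← map_add, ← map_sub]; congr 1; abel
    rw [e]
    calc _ ≤ ‖prV m n (P - P') + prV m n (X - P)‖ + ‖prV m n (X' - P')‖ := norm_sub_le _ _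
      _ ≤ ‖prV m n (P - P')‖ + ‖prV m n (X - P)‖ + ‖prV m n (X' - P')‖ := by
          gcongr; exact norm_add_le _ _
      _ ≤ _ := by
          have := norm_prV_le (X - P)
          have := norm_prV_le (X' - P')
          linarith
  have a2 : ‖prH m n (P - P')‖ ≤ ‖prH m n (X - X')‖ + 2 * d := by
    have e : prH m n (P - P') = prH m n (X - X') - prH m n (X - P) + prH m n (X' - P') := by
      rw [← map_sub, ← map_add]; congr 1; abel
    rw [e]
    calc _ ≤ ‖prH m n (X - X') - prH m n (X - P)‖ + ‖prH m n (X' - P')‖ := norm_add_le _ _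
      _ ≤ ‖prH m n (X - X')‖ + ‖prH m n (X - P)‖ + ‖prH m n (X' - P')‖ := by
          gcongr; exact norm_sub_le _ _
      _ ≤ _ := by
          have := norm_prH_le (X - P)
          have := norm_prH_le (X' - P')
          linarith
  have a3 : ‖prH m n (X - X')‖ ≤ s + 2 * (ε * ζ) := by
    have e : prH m n (X - X') = (npr u X - npr u X') + prH m n (zz u X) - prH m n (zz u X') := by
      rw [map_sub, hH, hH']; abel
    rw [e]
    calc _ ≤ ‖(npr u X - npr u X') + prH m n (zz u X)‖ + ‖prH m n (zz u X')‖ := norm_sub_le _ _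
      _ ≤ ‖npr u X - npr u X'‖ + ‖prH m n (zz u X)‖ + ‖prH m n (zz u X')‖ := by
          gcongr; exact norm_add_le _ _
      _ ≤ _ := by linarith
  -- the vertical heights
  have e : prV m n (zz u X) - prV m n (zz u X') =
      prV m n (X - X') - (u (npr u X) - u (npr u X')) := by
    rw [map_sub, hV, hV']; abel
  have a4 : |gz u α X - gz u α X'| ≤ ‖prV m n (zz u X) - prV m n (zz u X')‖ := by
    have := EuclideanSpace.norm_eq (prV m n (zz u X) - prV m n (zz u X'))
    have h1 : gz u α X - gz u α X' = (prV m n (zz u X) - prV m n (zz u X')) α := rfl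
    rw [h1, ← Real.norm_eq_abs]
    exact PiLp.norm_apply_le _ α
  have a5 : ε * ‖npr u X - npr u X'‖ ≤ s := by
    calc ε * ‖npr u X - npr u X'‖ ≤ 1 * ‖npr u X - npr u X'‖ :=
          mul_le_mul_of_nonneg_right hε1 (norm_nonneg _)
      _ ≤ s := by rw [one_mul]; exact hs
  calc |gz u α X - gz u α X'| ≤ ‖prV m n (zz u X) - prV m n (zz u X')‖ := a4
    _ = ‖prV m n (X - X') - (u (npr u X) - u (npr u X'))‖ := by rw [e]
    _ ≤ ‖prV m n (X - X')‖ + ‖u (npr u X) - u (npr u X')‖ := norm_sub_le _ _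
    _ ≤ 2 * s + 2 * ε * ζ + 4 * d := by linarith

/-- auxiliary for `fq_low`: `Small` gives bounded geometry with constant `ε` -/
theorem fq_geo_of_small {N : NCyl m n} {R a C ε : ℝ} (h : Small N R a C ε) (hε : ε ≤ 1 / 3) :
    Geo ε N.u :=
  ⟨h.smooth, fun y => (h.slope y).trans (hε.trans (by norm_num)),
    fun y => h.geo 2 (by norm_num) (by norm_num) y,
    fun y => h.geo 3 (by norm_num) (by norm_num) y, hε.trans (by norm_num)⟩

/-- `ball X₀ (s/4) ⊆ Cyl` (`gk_norm_zz_le`, `gk_npr_lip`, `K.small.Ω_eq`), `π` maps it into `closedBall (π X₀) (s/2)`,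
`N.W.lower_mass`, `N.cyl_sub`, `N.μ = N.W.μ.restrict Cyl`. -/
theorem fq_low (hm : 1 ≤ m) {N : NCyl m n} {a C ε Cm : ℝ} (K : SK N 72 a C ε Cm) (hε : ε ≤ 1 / 3)
    (hN : N.h ≤ 1 / 9) {X₀ : E (m + n)} (h1 : X₀ ∈ N.W.support) (h2 : X₀ ∈ Cyl N.u N.Ω N.h)
    (h3 : ‖npr N.u X₀‖ < 31) {s ζ : ℝ} (hs : 0 < s) (hs1 : s ≤ 1 / 9) (hz : ‖zz N.u X₀‖ ≤ ζ)
    (hh : ζ + s < N.h) :
    ENNReal.ofReal (kap m * (s / 4) ^ m) ≤ N.μ {X | ‖npr N.u X₀ - npr N.u X‖ ≤ s / 2} := by
  have hG : Geo ε N.u := fq_geo_of_small K.small hε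
  have hT : X₀ ∈ Tub N.u (1 / 9) := ⟨npr N.u X₀, lt_of_lt_of_le h2.2 hN⟩
  have hlip : ∀ X ∈ Metric.ball X₀ (s / 4), ‖npr N.u X - npr N.u X₀‖ ≤ s / 2 := by
    intro X hX
    rw [Metric.mem_ball, dist_eq_norm] at hX
    have := Dens.gk_npr_lip hG hε hT (X' := X) (by linarith)
    linarith
  have hsub : Metric.ball X₀ (s / 4) ⊆ Cyl N.u N.Ω N.h := by
    intro X hX
    have hl := hlip X hX
    rw [Metric.mem_ball, dist_eq_norm] at hX
    constructor
    · rw [K.small.Ω_eq, Metric.mem_ball, dist_zero_right]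
      calc ‖npr N.u X‖ = ‖(npr N.u X - npr N.u X₀) + npr N.u X₀‖ := by congr 1; abel
        _ ≤ ‖npr N.u X - npr N.u X₀‖ + ‖npr N.u X₀‖ := norm_add_le _ _
        _ < 72 := by linarith
    · have := Dens.gk_norm_zz_le hG X₀ X
      linarith
  have hlow := N.W.lower_mass hm h1 (by positivity : 0 < s / 4) (hsub.trans N.cyl_sub)
  refine hlow.trans ?_
  calc N.W.μ (Metric.ball X₀ (s / 4)) = N.μ (Metric.ball X₀ (s / 4)) := by
        unfold NCyl.μ
        rw [Measure.restrict_apply Metric.isOpen_ball.measurableSet,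
          Set.inter_eq_left.2 hsub]
    _ ≤ N.μ {X | ‖npr N.u X₀ - npr N.u X‖ ≤ s / 2} := by
        refine measure_mono fun X hX => ?_
        show ‖npr N.u X₀ - npr N.u X‖ ≤ s / 2
        rw [norm_sub_rev]
        exact hlip X hX

/-- `K.ok.nu_apply`, `Tube.intM_le` (second part, `η = 0`; see the proof of `Lin.CylOK.mass_le`), `volS A ≤ Cv μH[m] A` (`Lin.exists_vdens_bound`,
`withDensity_apply`), `Fit.hausdorff_eq_cH`, `K.Mabs_le` (finiteness of `Mabs (ball 0 72)` from `K.small.mass`). -/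
theorem fq_dens (m n Q : ℕ) : ∃ D : ℝ, 0 < D ∧ ∀ (N : NCyl m n) (a C ε Cm : ℝ), N.Q = Q →
    SK N 72 a C ε Cm → ∀ A : Set (E m), MeasurableSet A → A ⊆ Metric.ball 0 72 →
      N.μ {X | npr N.u X ∈ A} ≤ ENNReal.ofReal D * volume A + ENNReal.ofReal (Cm * a ^ 2) := by
  obtain ⟨Cv, hCv, HCv⟩ := Lin.exists_vdens_bound m n
  have hcH := cH_pos m
  refine ⟨Q * (Cv * cH m) + 1, by positivity, fun N a C ε Cm hQ K A hA hAB => ?_⟩
  have := K.fin
  rw [← K.ok.nu_apply hA]
  have hfin : N.nu A < ⊤ := by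
    rw [K.ok.nu_apply hA]; exact measure_lt_top _ _
  have hvol : N.volS A < ⊤ :=
    ((measure_mono (Set.subset_univ A)).trans K.volS_le).trans_lt ENNReal.ofReal_lt_top
  have hAΩ : A ⊆ N.Ω := K.small.Ω_eq ▸ hAB
  have h4 := (intM_le N 0 A 0 measurable_zero hA hAΩ (fun _ _ => rfl) (by simp) hfin hvol).2
  have hv : ∀ y, vdens (fderiv ℝ N.u y) ≤ Cv := fun y =>
    HCv _ ((K.small.slope y).trans (K.ε_le.trans (by norm_num)))
  have h5 : N.volS A ≤ ENNReal.ofReal Cv * (ENNReal.ofReal (cH m) * volume A) := by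
    unfold NCyl.volS
    rw [withDensity_apply _ hA]
    calc ∫⁻ y in A, ENNReal.ofReal (vdens (fderiv ℝ N.u y)) ∂(μH[(m : ℝ)]).restrict N.Ω
        ≤ ∫⁻ _y in A, ENNReal.ofReal Cv ∂(μH[(m : ℝ)]).restrict N.Ω :=
          lintegral_mono fun y => ENNReal.ofReal_le_ofReal (hv y)
      _ = ENNReal.ofReal Cv * ((μH[(m : ℝ)]).restrict N.Ω) A := by
          rw [lintegral_const, Measure.restrict_apply_univ]
      _ ≤ ENNReal.ofReal Cv * (μH[(m : ℝ)] : Measure (E m)) A :=
          mul_le_mul_right (Measure.restrict_apply_le _ _) _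
      _ = ENNReal.ofReal Cv * (ENNReal.ofReal (cH m) * volume A) := by
          rw [hausdorff_eq_cH, Measure.smul_apply, smul_eq_mul]
  have h6 : N.Mabs (Metric.ball 0 72) < ⊤ :=
    ((le_add_self.trans (le_of_eq (Measure.add_apply _ _ _).symm)).trans
      K.small.mass).trans_lt ENNReal.ofReal_lt_top
  have h7 : N.Mabs A ≤ ENNReal.ofReal (Cm * a ^ 2) := by
    refine (measure_mono hAB).trans ?_
    rw [← ENNReal.ofReal_toReal h6.ne]
    exact ENNReal.ofReal_le_ofReal K.Mabs_le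
  refine h4.trans (add_le_add ?_ h7)
  refine (mul_le_mul_right h5 _).trans ?_
  rw [hQ, ← mul_assoc, ← mul_assoc]
  refine mul_le_mul_left ?_ _
  rw [← ENNReal.ofReal_natCast, ← ENNReal.ofReal_mul (Nat.cast_nonneg _),
    ← ENNReal.ofReal_mul (by positivity)]
  exact ENNReal.ofReal_le_ofReal (by nlinarith)

/-! ### leaf L-Fit-FailQ-G5: mass of the far set -/

/-- For a.e. `X` (`K.ae`) in the set on the left: `|prH X - y₀| ≤ ε |z| + 1/200 < 1/100`; either `X ∈ SepSet` or `|P - PH| > 1/100`.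
`|(P - PH) v|² ≤ 2 tl(P) |v|²` (`Freq.ang_norm_sub_PH_le`), `tl P = tdiv P (1 - PH) ≤ 2 e + 2 (m+n) |Ph - PH|²` (`Dens.gk_tdiv_compare`,
`ang_isProj_PH`, `isProj_Ph`), `|Ph u y - PH| ≤ C |Du y|` (again `ang_norm_sub_PH_le` for `P = Ph u y`, or `v - Ph v`, `v` horizontal);
so `|P - PH| > 1/100` forces `e ≥ c₂` if `ε ≤ ε₂`; Markov (`mul_meas_ge_le_integral_of_nonneg`, `K.int_tilt`, `K.tilt_le`). -/
theorem fq_far (m n : ℕ) : ∃ ε₂ C₂ : ℝ, 0 < ε₂ ∧ 0 < C₂ ∧ ∀ (N : NCyl m n) (a C ε Cm : ℝ),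
    SK N 72 a C ε Cm → ε ≤ ε₂ → ε * (|C| * a) ≤ 1 / 400 → ∀ (y₀ : E m) (Γ : Set (E (m + n))) (d : ℝ),
      N.μ (FarSet Γ d ∩ {X | ‖npr N.u X - y₀‖ < 1 / 200})
        ≤ N.μ (SepSet N y₀ Γ d) + ENNReal.ofReal (C₂ * Cm * a ^ 2) := by
  have hmn : (0 : ℝ) ≤ ((m + n : ℕ) : ℝ) := Nat.cast_nonneg _
  refine ⟨1 / (1000 * (((m + n : ℕ) : ℝ) + 1)), 80000, by positivity, by norm_num, ?_⟩
  intro N a C ε Cm K hε hεC y₀ Γ d
  have := K.fin
  have hPV : (ContinuousLinearMap.id ℝ (E (m + n)) - PH m n) = Flat.PV m n := by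
    ext1 X
    rw [sub_apply, ContinuousLinearMap.id_apply, ang_PH_apply, Flat.PV_apply, sub_eq_iff_eq_add, ← mkHV_add, zero_add, add_zero, mkHV_prH_prV]
  have hPhPH : ∀ A : E m →L[ℝ] E n, ‖PH m n - PhA A‖ ≤ 2 * ‖A‖ := by
    intro A
    have hPA := isProj_PhA A
    refine ContinuousLinearMap.opNorm_le_bound _ (by positivity) fun v => ?_
    have p1 : ‖PH m n v - PhA A (PH m n v)‖ ≤ ‖A‖ * ‖v‖ := by
      have h1 : PH m n v = dF A (prH m n v) - mkHV 0 (A (prH m n v)) := by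
        rw [ang_PH_apply, dF_apply, ← mkHV_sub, sub_zero, sub_self]
      have e : PH m n v - PhA A (PH m n v) = -(mkHV 0 (A (prH m n v)) - PhA A (mkHV 0 (A (prH m n v)))) := by
        rw [h1, map_sub, PhA_dF]
        abel
      rw [e, norm_neg]
      refine (hPA.norm_sub_apply_le _).trans ?_
      rw [← inV_apply, norm_inV]
      exact (A.le_opNorm _).trans (mul_le_mul_of_nonneg_left (norm_prH_le v) (norm_nonneg _))
    have p2 : ‖PhA A (v - PH m n v)‖ ≤ ‖A‖ * ‖v‖ := by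
      have hx' : v - PH m n v = mkHV 0 (prV m n v) := by
        rw [ang_PH_apply, sub_eq_iff_eq_add, ← mkHV_add, zero_add, add_zero, mkHV_prH_prV]
      rw [hx']
      set x : E (m + n) := mkHV 0 (prV m n v) with hx
      set w := dFp A x with hw0
      have hw : PhA A x = mkHV w (A w) := by
        rw [PhA_eq, ContinuousLinearMap.comp_apply, dF_apply]
      have h1 : ‖PhA A x‖ ^ 2 = inner ℝ (A w) (prV m n v) := by
        rw [← hPA.inner_apply_self, hw, hx, inner_mkHV, inner_zero_right, zero_add]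
      have h2 : ‖w‖ ≤ ‖PhA A x‖ := by
        rw [hw]
        have := norm_prH_le (mkHV w (A w))
        rwa [prH_mkHV] at this
      have h3 : inner ℝ (A w) (prV m n v) ≤ ‖A‖ * ‖PhA A x‖ * ‖v‖ :=
        (real_inner_le_norm _ _).trans (mul_le_mul ((A.le_opNorm _).trans
          (mul_le_mul_of_nonneg_left h2 (norm_nonneg _))) (norm_prV_le v) (norm_nonneg _) (by positivity))
      by_contra hc
      push Not at hc
      have h4 := norm_nonneg (PhA A x)
      have h5 : 0 ≤ ‖A‖ * ‖v‖ := by positivity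
      nlinarith
    have e : (PH m n - PhA A) v = (PH m n v - PhA A (PH m n v)) - PhA A (v - PH m n v) := by
      rw [sub_apply, map_sub]
      abel
    rw [e]
    refine (norm_sub_le _ _).trans ?_
    linarith
  have hε2 : 36 * ((m + n : ℕ) : ℝ) * ε ^ 2 ≤ 1 / 20000 := by
    have h1 : ε ^ 2 ≤ (1 / (1000 * (((m + n : ℕ) : ℝ) + 1))) ^ 2 := pow_le_pow_left₀ K.ε_nonneg hε 2
    have h2 : 36 * ((m + n : ℕ) : ℝ) * (1 / (1000 * (((m + n : ℕ) : ℝ) + 1))) ^ 2 ≤ 1 / 20000 := by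
      rw [div_pow, one_pow, mul_one_div, div_le_div_iff₀ (by positivity) (by norm_num)]
      nlinarith
    refine le_trans ?_ h2
    gcongr
  have key : ∀ᵐ X ∂N.μ, X ∈ FarSet Γ d ∩ {X | ‖npr N.u X - y₀‖ < 1 / 200} →
      X ∈ SepSet N y₀ Γ d ∪ {X | 1 / 80000 ≤ tilt N.u (N.W.P X) X} := by
    filter_upwards [K.ae] with X hX hXF
    obtain ⟨hcyl, -, hz⟩ := hX
    obtain ⟨hfar, hy⟩ := hXF
    have hy' : ‖npr N.u X - y₀‖ < 1 / 200 := hy
    have hn := K.ok.normal X hcyl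
    have h1 : ‖prH m n (zz N.u X)‖ ≤ 1 / 400 := by
      refine (norm_prH_zz_le hn).trans ?_
      calc ‖fderiv ℝ N.u (npr N.u X)‖ * ‖prV m n (zz N.u X)‖ ≤ ε * (|C| * a) := by
            gcongr
            · exact K.ε_nonneg
            · exact K.small.slope _
            · exact (norm_prV_le _).trans hz
        _ ≤ 1 / 400 := hεC
    have h2 : prH m n X = npr N.u X + prH m n (zz N.u X) := by
      unfold zz Fg
      rw [map_sub, prH_mkHV]
      abel
    have h3 : ‖prH m n X - y₀‖ < 1 / 100 := by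
      have e : prH m n X - y₀ = (npr N.u X - y₀) + prH m n (zz N.u X) := by
        rw [h2]
        abel
      rw [e]
      refine (norm_add_le _ _).trans_lt ?_
      linarith
    by_cases hP : ‖N.W.P X - PH m n‖ ≤ 1 / 100
    · exact Or.inl ⟨h3, hP, hfar⟩
    · right
      push Not at hP
      have hPp := N.W.P_proj X
      have h4 : Flat.tl (N.W.P X) ≤ 2 * tilt N.u (N.W.P X) X + 2 * ((m + n : ℕ) : ℝ) * ‖PH m n - Ph N.u (npr N.u X)‖ ^ 2 := by
        have := Dens.gk_tdiv_compare hPp (isProj_Ph N.u (npr N.u X)) (ang_isProj_PH m n)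
        rw [hPV] at this
        exact this
      have h5 : ‖PH m n - Ph N.u (npr N.u X)‖ ≤ 3 * ε := by
        have h := hPhPH (fderiv ℝ N.u (npr N.u X))
        have hs := K.small.slope (npr N.u X)
        have := K.ε_nonneg
        refine h.trans ?_
        linarith
      have h6 : ‖PH m n - Ph N.u (npr N.u X)‖ ^ 2 ≤ 9 * ε ^ 2 := by
        have := pow_le_pow_left₀ (norm_nonneg _) h5 2
        nlinarith
      have h7 : ‖N.W.P X - PH m n‖ ^ 2 ≤ 2 * Flat.tl (N.W.P X) := by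
        have ht : 0 ≤ 2 * Flat.tl (N.W.P X) := by
          by_contra hc
          push Not at hc
          have hh := ang_norm_sub_PH_le hPp (0 : E (m + n))
          have hN : N.W.P X - PH m n = 0 := by
            ext1 v
            have hv := ang_norm_sub_PH_le hPp v
            have : ‖(N.W.P X - PH m n) v‖ ^ 2 ≤ 0 := hv.trans (mul_nonpos_of_nonpos_of_nonneg hc.le (by positivity))
            have h0 : ‖(N.W.P X - PH m n) v‖ = 0 := by
              have := sq_nonneg ‖(N.W.P X - PH m n) v‖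
              exact pow_eq_zero_iff two_ne_zero |>.1 (le_antisymm ‹_› this)
            simpa using h0
          rw [hN, norm_zero] at hP
          norm_num at hP
        have hb : ‖N.W.P X - PH m n‖ ≤ Real.sqrt (2 * Flat.tl (N.W.P X)) := by
          refine ContinuousLinearMap.opNorm_le_bound _ (Real.sqrt_nonneg _) fun v => ?_
          refine abs_le_of_sq_le_sq' ?_ (by positivity) |>.2
          rw [mul_pow, Real.sq_sqrt ht]
          exact ang_norm_sub_PH_le hPp v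
        have := pow_le_pow_left₀ (norm_nonneg _) hb 2
        rwa [Real.sq_sqrt ht] at this
      have h8 : (1 / 100 : ℝ) ^ 2 < ‖N.W.P X - PH m n‖ ^ 2 := pow_lt_pow_left₀ hP (by norm_num) two_ne_zero
      have h9 : 2 * ((m + n : ℕ) : ℝ) * ‖PH m n - Ph N.u (npr N.u X)‖ ^ 2 ≤ 2 * ((m + n : ℕ) : ℝ) * (9 * ε ^ 2) := by
        gcongr
      show 1 / 80000 ≤ tilt N.u (N.W.P X) X
      nlinarith
  have hmk : N.μ {X | 1 / 80000 ≤ tilt N.u (N.W.P X) X} ≤ ENNReal.ofReal (80000 * Cm * a ^ 2) := by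
    have h := mul_meas_ge_le_integral_of_nonneg (μ := N.μ) (f := fun X => tilt N.u (N.W.P X) X)
      (Filter.Eventually.of_forall fun X => ck_tilt_nonneg N.u X (N.W.P_proj X)) K.int_tilt (1 / 80000)
    rw [← ofReal_measureReal (measure_ne_top _ _)]
    refine ENNReal.ofReal_le_ofReal ?_
    have := K.tilt_le
    linarith
  calc N.μ (FarSet Γ d ∩ {X | ‖npr N.u X - y₀‖ < 1 / 200})
      ≤ N.μ (SepSet N y₀ Γ d ∪ {X | 1 / 80000 ≤ tilt N.u (N.W.P X) X}) := measure_mono_ae key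
    _ ≤ N.μ (SepSet N y₀ Γ d) + N.μ {X | 1 / 80000 ≤ tilt N.u (N.W.P X) X} := measure_union_le _ _
    _ ≤ N.μ (SepSet N y₀ Γ d) + ENNReal.ofReal (80000 * Cm * a ^ 2) := by gcongr

/-! ### leaf L-Fit-FailQ-G6: vertical moment ⟹ normal moment -/

/-- `η = fun y => φ y • e_α` in `HasMom` (`ContinuousLinearMap.norm_iteratedFDeriv_comp_left` or `iteratedFDeriv_smul_const_apply`).
Pointwise a.e.: `|(prV X - u(prH X))_α φ(prH X) - g_α φ(π X)| ≤ |z| A ε |z| + ε² |z| A ≤ A ε |C| a (|C| + 1)`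
(`|φ(prH X) - φ(π X)| ≤ A |prH z|`: order `1` of `hA` and the mean value inequality; `|φ| ≤ A`: order `0`). -/
theorem fq_mom {N : NCyl m n} {q : ℕ} {a C ε Cm : ℝ} (K : SK N 72 a C ε Cm) (hM : HasMom N q a C)
    (α : Fin n) {φ : E m → ℝ} {A : ℝ} (hφ : ContDiff ℝ ∞ φ) (hs : tsupport φ ⊆ Metric.ball 0 68)
    (hA : ∀ i : ℕ, i ≤ max q 1 → ∀ y, ‖iteratedFDeriv ℝ i φ y‖ ≤ A) :
    |∫ X, φ (npr N.u X) * gz N.u α X ∂N.μ|
      ≤ (|C| * a ^ 2 + |C| * (|C| + 1) * Cm * ε * a) * A := by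
  have := K.fin
  have hA0 : ∀ y, |φ y| ≤ A := fun y => by
    have := hA 0 (Nat.zero_le _) y
    rwa [norm_iteratedFDeriv_zero, Real.norm_eq_abs] at this
  have hA1 : ∀ y, ‖fderiv ℝ φ y‖ ≤ A := fun y => by
    have := hA 1 (le_max_right _ _) y
    rwa [norm_iteratedFDeriv_one] at this
  have hAn : 0 ≤ A := (abs_nonneg _).trans (hA0 0)
  have hφL : ∀ x y, |φ y - φ x| ≤ A * ‖y - x‖ := fun x y => by
    have := Convex.norm_image_sub_le_of_norm_fderiv_le (𝕜 := ℝ) (f := φ) (s := Set.univ) (C := A) (x := x) (y := y)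
      (fun z _ => (hφ.differentiable (by simp)).differentiableAt) (fun z _ => hA1 z) convex_univ (Set.mem_univ _) (Set.mem_univ _)
    rwa [Real.norm_eq_abs] at this
  have huL : ∀ x y, ‖N.u y - N.u x‖ ≤ ε * ‖y - x‖ := fun x y =>
    Convex.norm_image_sub_le_of_norm_fderiv_le (𝕜 := ℝ) (f := N.u) (s := Set.univ) (C := ε) (x := x) (y := y)
      (fun z _ => (K.small.smooth.differentiable (by norm_num)).differentiableAt) (fun z _ => K.small.slope z) convex_univ (Set.mem_univ _) (Set.mem_univ _)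
  set eα : E n := EuclideanSpace.single α (1 : ℝ) with heα
  have heα1 : ‖eα‖ = 1 := by simp [heα]
  set L : ℝ →L[ℝ] E n := ContinuousLinearMap.toSpanSingleton ℝ eα with hL
  have hLn : ‖L‖ = 1 := by rw [hL, ContinuousLinearMap.norm_toSpanSingleton, heα1]
  have hη : (fun y => φ y • eα) = L ∘ φ := by
    funext y
    simp [hL, ContinuousLinearMap.toSpanSingleton_apply]
  have hMom := hM (fun y => φ y • eα) A (hφ.smul contDiff_const)
    ((tsupport_smul_subset_left φ (fun _ => eα)).trans (hs.trans (Metric.ball_subset_ball (by norm_num))))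
    (fun i hi y => by
      rw [hη]
      refine (L.norm_iteratedFDeriv_comp_left hφ.contDiffAt (by exact_mod_cast le_top)).trans ?_
      rw [hLn, one_mul]
      exact hA i (hi.trans (le_max_left _ _)) y)
  set F : E (m + n) → ℝ := fun X => inner ℝ (prV m n X - N.u (prH m n X)) (φ (prH m n X) • eα) with hF
  set G : E (m + n) → ℝ := fun X => φ (npr N.u X) * gz N.u α X with hG
  set B : ℝ := A * ε * |C| * a * (|C| + 1) with hB
  have hcoord : ∀ v : E n, inner ℝ v eα = v α := fun v => by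
    rw [heα, EuclideanSpace.inner_single_right]
    simp
  have hcoordle : ∀ v : E n, |v α| ≤ ‖v‖ := fun v => by
    have := PiLp.norm_apply_le v α
    rwa [Real.norm_eq_abs] at this
  have hFm : AEStronglyMeasurable F N.μ := by
    have hu : Continuous N.u := K.small.smooth.continuous
    have : Continuous F := by
      rw [hF]
      exact ((prV m n).continuous.sub (hu.comp (prH m n).continuous)).inner
        ((hφ.continuous.comp (prH m n).continuous).smul continuous_const)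
    exact this.aestronglyMeasurable
  have hGm : AEStronglyMeasurable G N.μ :=
    (K.ok.aesm (hφ.continuous.comp_continuousOn K.ok.cont_npr)).mul (aesm_gz K.ok α)
  have hGb : ∀ᵐ X ∂N.μ, ‖G X‖ ≤ A * (|C| * a) := by
    filter_upwards [K.ae] with X hX
    rw [hG, Real.norm_eq_abs, abs_mul]
    exact mul_le_mul (hA0 _) ((abs_gz_le _ _ _).trans hX.2.2) (abs_nonneg _) hAn
  have hDb : ∀ᵐ X ∂N.μ, ‖F X - G X‖ ≤ B := by
    filter_upwards [K.ae] with X hX
    obtain ⟨hcyl, -, hz⟩ := hX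
    have hn := K.ok.normal X hcyl
    have hz0 := norm_nonneg (zz N.u X)
    have h1 : ‖prH m n (zz N.u X)‖ ≤ ε * ‖zz N.u X‖ := by
      refine (norm_prH_zz_le hn).trans ?_
      exact mul_le_mul (K.small.slope _) (norm_prV_le _) (norm_nonneg _) K.ε_nonneg
    have h2 : prH m n X = npr N.u X + prH m n (zz N.u X) := by
      unfold zz Fg
      rw [map_sub, prH_mkHV]
      abel
    have h3 : prV m n X = N.u (npr N.u X) + prV m n (zz N.u X) := by
      unfold zz Fg
      rw [map_sub, prV_mkHV]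
      abel
    have h4 : ‖prH m n X - npr N.u X‖ ≤ ε * ‖zz N.u X‖ := by
      rw [h2, add_sub_cancel_left]
      exact h1
    have e1 : F X - G X = (φ (prH m n X) - φ (npr N.u X)) * gz N.u α X
        + φ (prH m n X) * (N.u (npr N.u X) - N.u (prH m n X)) α := by
      rw [hF, hG]
      simp only
      rw [inner_smul_right, hcoord, h3]
      simp only [gz, PiLp.sub_apply, PiLp.add_apply]
      ring
    have h5 : |φ (prH m n X) - φ (npr N.u X)| ≤ A * (ε * ‖zz N.u X‖) :=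
      (hφL _ _).trans (mul_le_mul_of_nonneg_left h4 hAn)
    have h6 : |(N.u (npr N.u X) - N.u (prH m n X)) α| ≤ ε * (ε * ‖zz N.u X‖) := by
      refine (hcoordle _).trans ((huL _ _).trans ?_)
      rw [norm_sub_rev]
      exact mul_le_mul_of_nonneg_left h4 K.ε_nonneg
    have h7 : |gz N.u α X| ≤ ‖zz N.u X‖ := abs_gz_le _ _ _
    rw [e1, Real.norm_eq_abs]
    refine (abs_add_le _ _).trans ?_
    rw [abs_mul, abs_mul]
    have hε0 := K.ε_nonneg
    have hε1 := K.ε_le
    have ha0 := K.a_pos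
    have ha1 := K.a_le
    have hC0 := abs_nonneg C
    have t1 : |φ (prH m n X) - φ (npr N.u X)| * |gz N.u α X| ≤ A * (ε * (|C| * a)) * (|C| * a) := by
      refine mul_le_mul (h5.trans ?_) (h7.trans hz) (abs_nonneg _) (by positivity)
      gcongr
    have t2 : |φ (prH m n X)| * |(N.u (npr N.u X) - N.u (prH m n X)) α| ≤ A * (ε * (ε * (|C| * a))) := by
      refine mul_le_mul (hA0 _) (h6.trans ?_) (abs_nonneg _) hAn
      gcongr
    have t3 : A * (ε * (|C| * a)) * (|C| * a) ≤ A * ε * |C| * a * |C| := by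
      have : A * (ε * (|C| * a)) * (|C| * a) = (A * ε * |C| * a * |C|) * a := by ring
      rw [this]
      exact mul_le_of_le_one_right (by positivity) ha1
    have t4 : A * (ε * (ε * (|C| * a))) ≤ A * ε * |C| * a * 1 := by
      have : A * (ε * (ε * (|C| * a))) = (A * ε * |C| * a) * ε := by ring
      rw [this]
      exact mul_le_mul_of_nonneg_left (by linarith) (by positivity)
    rw [hB]
    linarith
  have hGi : Integrable G N.μ := Integrable.of_bound hGm _ hGb
  have hDi : Integrable (fun X => F X - G X) N.μ := Integrable.of_bound (hFm.sub hGm) _ hDb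
  have hFi : Integrable F N.μ := by
    have := hGi.add hDi
    refine this.congr (Filter.Eventually.of_forall fun X => ?_)
    simp
  have hD : |∫ X, (F X - G X) ∂N.μ| ≤ B * Cm := by
    have h := norm_integral_le_of_norm_le_const hDb
    rw [Real.norm_eq_abs] at h
    refine h.trans ?_
    have hB0 : 0 ≤ B := by
      have := K.ε_nonneg
      have := K.a_pos
      rw [hB]
      positivity
    exact mul_le_mul_of_nonneg_left K.mass hB0
  have e2 : ∫ X, G X ∂N.μ = ∫ X, F X ∂N.μ - ∫ X, (F X - G X) ∂N.μ := by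
    rw [integral_sub hFi hGi]
    ring
  have hF' : |∫ X, F X ∂N.μ| ≤ |C| * A * a ^ 2 := by
    refine hMom.trans ?_
    have := le_abs_self C
    gcongr
  show |∫ X, G X ∂N.μ| ≤ _
  rw [e2]
  refine (abs_sub _ _).trans ?_
  rw [hB] at hD
  nlinarith

/-! ### leaf L-Fit-FailQ-G7: the error densities -/

/-- `K.int_sqrt`, `K.sqrt_le`, `K.int_tilt`, `K.tilt_le`, `K.ae`, `K.mass`, `K.ok.aesm K.ok.cont_zz.norm`. -/
theorem fq_bint {N : NCyl m n} {a C ε Cm : ℝ} (K : SK N 72 a C ε Cm) :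
    Integrable (fun X => Real.sqrt (tilt N.u (N.W.P X) X) + ε * ‖zz N.u X‖) N.μ ∧
    Integrable (fun X => ‖zz N.u X‖ * tilt N.u (N.W.P X) X) N.μ ∧
    ∫ X, (Real.sqrt (tilt N.u (N.W.P X) X) + ε * ‖zz N.u X‖) ∂N.μ ≤ Cm * a * (1 + ε * |C|) ∧
    ∫ X, ‖zz N.u X‖ * tilt N.u (N.W.P X) X ∂N.μ ≤ |C| * Cm * a ^ 3 := by
  have hfin := K.fin
  have ha := K.a_pos
  have hε := K.ε_nonneg
  have hCm := K.Cm_pos
  have h0 : ∀ X, 0 ≤ tilt N.u (N.W.P X) X := fun X => ck_tilt_nonneg N.u X (N.W.P_proj X)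
  have hzm : AEStronglyMeasurable (fun X => ‖zz N.u X‖) N.μ := K.ok.aesm K.ok.cont_zz.norm
  have hz : Integrable (fun X => ‖zz N.u X‖) N.μ := by
    refine Integrable.mono' (g := fun _ => |C| * a) (integrable_const _) hzm
      (K.ae.mono fun X hX => ?_)
    rw [norm_norm]
    exact hX.2.2
  have hzI : ∫ X, ‖zz N.u X‖ ∂N.μ ≤ Cm * (|C| * a) := by
    calc ∫ X, ‖zz N.u X‖ ∂N.μ ≤ ∫ _X, |C| * a ∂N.μ :=
          integral_mono_ae hz (integrable_const _) (K.ae.mono fun X hX => hX.2.2)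
      _ = N.μ.real Set.univ * (|C| * a) := by rw [integral_const, smul_eq_mul]
      _ ≤ Cm * (|C| * a) := mul_le_mul_of_nonneg_right K.mass (by positivity)
  have hze : Integrable (fun X => ‖zz N.u X‖ * tilt N.u (N.W.P X) X) N.μ := by
    refine Integrable.mono' (g := fun X => (|C| * a) * tilt N.u (N.W.P X) X)
      (K.int_tilt.const_mul _) (hzm.mul K.ok.aesm_tilt) (K.ae.mono fun X hX => ?_)
    rw [Real.norm_of_nonneg (mul_nonneg (norm_nonneg _) (h0 X))]
    exact mul_le_mul_of_nonneg_right hX.2.2 (h0 X)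
  refine ⟨K.int_sqrt.add (hz.const_mul ε), hze, ?_, ?_⟩
  · rw [integral_add K.int_sqrt (hz.const_mul ε), integral_const_mul]
    calc ∫ X, Real.sqrt (tilt N.u (N.W.P X) X) ∂N.μ + ε * ∫ X, ‖zz N.u X‖ ∂N.μ
        ≤ Cm * a + ε * (Cm * (|C| * a)) :=
          add_le_add K.sqrt_le (mul_le_mul_of_nonneg_left hzI hε)
      _ = Cm * a * (1 + ε * |C|) := by ring
  · calc ∫ X, ‖zz N.u X‖ * tilt N.u (N.W.P X) X ∂N.μ
        ≤ ∫ X, (|C| * a) * tilt N.u (N.W.P X) X ∂N.μ :=
          integral_mono_ae hze (K.int_tilt.const_mul _)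
            (K.ae.mono fun X hX => mul_le_mul_of_nonneg_right hX.2.2 (h0 X))
      _ = (|C| * a) * ∫ X, tilt N.u (N.W.P X) X ∂N.μ := integral_const_mul _ _
      _ ≤ (|C| * a) * (Cm * a ^ 2) := mul_le_mul_of_nonneg_left K.tilt_le (by positivity)
      _ = |C| * Cm * a ^ 3 := by ring

end Claimed.Agent.R322.Fit
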