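import Claimed.Agent.R322.Fit.Fail.QVarPt
import Claimed.Agent.R322.Fit.Fail.QGeo

/-!
# AE Lemma 7.2 (Q): the first variation with the multiplier `⟨z, w⟩`   (architect helper189, proof helper224)

`fq_var`: for `φ ∈ C_c^∞(B_71)`, `|w| ≤ 1`, `j : Fin m`:
  `|∫ ⟨z,w⟩ ∂_jφ(π) dμ| ≤ ∫ (|φ(π)| C₁ (√e + ε|z|) + |Dφ(π)| C₁ |z| e) dμ`.

Same pattern as `Lin.q_grad_core` with `⟨z,w⟩` instead of `|z|²`; the pointwise part is in `QVarPt.lean`.
-/

set_option autoImplicit false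

open scoped ENNReal ContDiff
open MeasureTheory Filter Topology

namespace Claimed.Agent.R322.Fit

open Claimed.Agent.R322.Tube Claimed.Agent.R322.Freq Claimed.Agent.R322.Lin

/-- leaf L-Fit-FailQ-var -/
theorem fq_var (m n : ℕ) (Cg : ℝ) (hCg : 0 < Cg) : ∃ C₁ : ℝ, 0 < C₁ ∧
    ∀ (N : NCyl m n) (a C ε Cm : ℝ), SK N 72 a C ε Cm → VK N ε Cg →
      ∀ (w : E (m + n)), ‖w‖ ≤ 1 → ∀ φ : E m → ℝ, ContDiff ℝ ∞ φ → tsupport φ ⊆ Metric.ball 0 71 →
        ∀ j : Fin m,
        |∫ X, inner ℝ (zz N.u X) w * fderiv ℝ φ (npr N.u X) (EuclideanSpace.single j 1) ∂N.μ|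
          ≤ ∫ X, (|φ (npr N.u X)| * (C₁ * (Real.sqrt (tilt N.u (N.W.P X) X) + ε * ‖zz N.u X‖))
              + ‖fderiv ℝ φ (npr N.u X)‖ * (C₁ * (‖zz N.u X‖ * tilt N.u (N.W.P X) X))) ∂N.μ := by
  obtain ⟨CL, hCL0, hCL⟩ := exists_dlog_vdens_bound m n
  refine ⟨CL + 2 * m + Cg * m + 2 * Cg + 11, by positivity,
    fun N a C ε Cm K v w hw φ hφ hsupp j => ?_⟩
  set C₁ : ℝ := CL + 2 * m + Cg * m + 2 * Cg + 11 with hC₁
  have := K.fin
  have hφ1 : ContDiff ℝ 1 φ := hφ.of_le (by simp)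
  have hcs : HasCompactSupport φ :=
    (isCompact_closedBall (0 : E m) 71).of_isClosed_subset (isClosed_tsupport _)
      (hsupp.trans Metric.ball_subset_closedBall)
  have hL : ContDiffOn ℝ 1 (lift N.u (qfld φ j)) (Cyl N.u N.Ω N.h) :=
    lk_contDiffOn_lift v.geo.c3 (contDiff_qfld hφ1) (v.c3_npr.of_le (by norm_num))
      (v.c3_zz.of_le (by norm_num))
  have hY : ContDiffOn ℝ 1 (fun X => (inner ℝ (zz N.u X) w : ℝ) • lift N.u (qfld φ j) X)
      (Cyl N.u N.Ω N.h) :=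
    ((v.c3_zz.of_le (by norm_num)).inner ℝ contDiffOn_const).smul hL
  obtain ⟨hDi, hD0⟩ := v.stat _ (tsupport φ) hY hcs
    (K.small.Ω_eq ▸ hsupp.trans (Metric.ball_subset_ball (by norm_num)))
    (fun X _ hXK => by
      have h0 : qfld φ j (npr N.u X) = 0 := by
        unfold qfld
        rw [image_eq_zero_of_notMem_tsupport hXK, zero_smul]
      rw [lift_eq_zero N.u h0, smul_zero])
  obtain ⟨hb0, hb1, -, -⟩ := fq_bint K
  -- bounds of the test function
  obtain ⟨B0, hB0⟩ := hφ.continuous.bounded_above_of_compact_support hcs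
  obtain ⟨B1, hB1⟩ := (hφ1.continuous_fderiv one_ne_zero).bounded_above_of_compact_support
    (hcs.fderiv ℝ)
  -- integrability
  have hR : Integrable (fun X => |φ (npr N.u X)|
        * (C₁ * (Real.sqrt (tilt N.u (N.W.P X) X) + ε * ‖zz N.u X‖))
      + ‖fderiv ℝ φ (npr N.u X)‖ * (C₁ * (‖zz N.u X‖ * tilt N.u (N.W.P X) X))) N.μ :=
    (K.ok.integrable_weight (hb0.const_mul C₁) hφ.continuous.abs
      (fun y => by rw [abs_abs]; exact hB0 y)).add
    (K.ok.integrable_weight (hb1.const_mul C₁) (hφ1.continuous_fderiv one_ne_zero).norm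
      (fun y => by rw [abs_norm]; exact hB1 y))
  have hF : Integrable (fun X => inner ℝ (zz N.u X) w
      * fderiv ℝ φ (npr N.u X) (EuclideanSpace.single j 1)) N.μ := by
    have h1 : Integrable (fun X => (inner ℝ (zz N.u X) w : ℝ)) N.μ := by
      refine Integrable.of_bound (K.ok.aesm (K.ok.cont_zz.inner continuousOn_const)) (2 / 9)
        (K.ae.mono fun X hX => ?_)
      rw [Real.norm_eq_abs]
      refine (abs_real_inner_le_norm _ _).trans ?_
      have := v.norm_zz_le hX.1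
      nlinarith [norm_nonneg (zz N.u X), norm_nonneg w]
    have h2 := K.ok.integrable_weight h1
      (g := fun y => fderiv ℝ φ y (EuclideanSpace.single j 1))
      ((hφ1.continuous_fderiv one_ne_zero).clm_apply continuous_const) (B := B1) (fun y => by
        rw [← Real.norm_eq_abs]
        refine ((fderiv ℝ φ y).le_opNorm _).trans ?_
        rw [PiLp.norm_single, norm_one, mul_one]
        exact hB1 y)
    refine h2.congr (Filter.Eventually.of_forall fun X => ?_)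
    exact mul_comm _ _
  have e : ∫ X, inner ℝ (zz N.u X) w * fderiv ℝ φ (npr N.u X) (EuclideanSpace.single j 1) ∂N.μ
      = ∫ X, (inner ℝ (zz N.u X) w * fderiv ℝ φ (npr N.u X) (EuclideanSpace.single j 1)
        - tdiv (N.W.P X) (fderiv ℝ
            (fun X => (inner ℝ (zz N.u X) w : ℝ) • lift N.u (qfld φ j) X) X)) ∂N.μ := by
    rw [integral_sub hF hDi, hD0, sub_zero]
  rw [e, ← Real.norm_eq_abs]
  refine norm_integral_le_of_norm_le hR (K.ae.mono fun X hX => ?_)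
  rw [Real.norm_eq_abs]
  refine (var_err v hφ1 j w hX.1 (N.W.P_proj X)).trans ?_
  have hdφ : DifferentiableAt ℝ φ (npr N.u X) := hφ1.differentiable (by simp) _
  have h1 := K.small.curv _ hX.2.1
  have hn := norm_nonneg (HS N.u (npr N.u X))
  have hnb : ‖nabS N.u (qfld φ j) (npr N.u X)‖
      ≤ 9 / 4 * ‖fderiv ℝ φ (npr N.u X)‖ + 3 / 2 * ε * |φ (npr N.u X)| := by
    have := norm_nabS_le v.geo (Xc := qfld φ j) (y := npr N.u X)
      (hasFDerivAt_qfld hdφ).differentiableAt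
    rwa [norm_fderiv_qfld hdφ, norm_qfld] at this
  have hρ : |fderiv ℝ (fun y' => Real.log (vdens (fderiv ℝ N.u y'))) (npr N.u X)
      (qfld φ j (npr N.u X))| ≤ CL * ε * |φ (npr N.u X)| := by
    refine (abs_dlog_vdens_le hCL v.geo.c2 _ _ ((K.small.slope _).trans
      (K.ε_le.trans (by norm_num)))).trans ?_
    rw [norm_qfld]
    have a2 : ‖D2 N.u (npr N.u X)‖ ≤ ε := v.geo.norm_D2_le _
    gcongr
  have htn : ‖tanF N.u (qfld φ j) (npr N.u X)‖ ≤ 3 / 2 * |φ (npr N.u X)| := by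
    unfold tanF
    refine (ContinuousLinearMap.le_opNorm _ _).trans ?_
    rw [norm_qfld]
    exact mul_le_mul_of_nonneg_right (v.geo.norm_dF_le _) (abs_nonneg _)
  have hD : Real.sqrt (DHSsq N.u (npr N.u X)) ≤ ε := by
    have : ε * a ≤ ε := mul_le_of_le_one_right K.ε_nonneg K.a_le
    linarith
  rw [norm_qfld]
  exact var_arith (ck_tilt_nonneg N.u X (N.W.P_proj X)) (ck_tilt_le N.u X (N.W.P_proj X))
    (Real.sqrt_nonneg _) (norm_nonneg _) (v.norm_zz_le hX.1) K.ε_nonneg K.ε_le hCg.le hCL0.le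
    (abs_nonneg _) hρ (abs_nonneg _) (norm_nonneg _) (norm_nonneg _) hnb (norm_nonneg _) htn
    (Real.sqrt_nonneg _) hD (norm_nonneg _) hw

end Claimed.Agent.R322.Fit
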