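import Claimed.Agent.R322.Fit.Fail.QOsc
import Claimed.Agent.R322.Fit.Fail.QGeo
import Claimed.Agent.R322.Fit.Fail.QVar

/-!
# AE Lemma 7.2 (Q): glue of the abstract and the geometric half   (helper189)
-/

set_option autoImplicit false

open scoped ENNReal ContDiff
open MeasureTheory Filter Topology

namespace Claimed.Agent.R322.Fit

open Claimed.Agent.R322.Tube Claimed.Agent.R322.Freq Claimed.Agent.R322.Lin

variable {m n : ℕ}

/-- lower bound of the mollified mass -/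
theorem mv_one_lower {𝒳 : Type*} [MeasurableSpace 𝒳] {μ : Measure 𝒳} [IsFiniteMeasure μ]
    {π : 𝒳 → E m} (hπ : Measurable π) {K : E m → ℝ} {s : ℝ} (hK : MolK K s) {c₀ t : ℝ}
    (hlow : ∀ w, ‖w‖ ≤ t → c₀ ≤ K w) (y : E m) :
    c₀ * μ.real {x | ‖y - π x‖ ≤ t} ≤ mv μ π (fun _ => 1) K y := by
  have hS : MeasurableSet {x | ‖y - π x‖ ≤ t} :=
    measurableSet_le (measurable_const.sub hπ).norm measurable_const
  have hi : Integrable (fun x => K (y - π x) * (1 : ℝ)) μ :=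
    mv_integrable hπ (integrable_const 1) hK.continuous hK.hasCompactSupport y
  unfold mv
  calc c₀ * μ.real {x | ‖y - π x‖ ≤ t}
      = ∫ x, ({x | ‖y - π x‖ ≤ t}).indicator (fun _ => c₀) x ∂μ := by
        rw [integral_indicator hS, setIntegral_const, smul_eq_mul, mul_comm]
    _ ≤ ∫ x, K (y - π x) * 1 ∂μ := by
        refine integral_mono ((integrable_const c₀).indicator hS) hi fun x => ?_
        by_cases hx : x ∈ {x | ‖y - π x‖ ≤ t}
        · simp only [Set.indicator_of_mem hx, mul_one]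
          exact hlow _ hx
        · simp only [Set.indicator_of_notMem hx, mul_one]
          exact hK.nonneg _

/-- the volume of the base ball -/
noncomputable def vB (m : ℕ) : ℝ := (volume (Metric.ball (0 : E m) (1 / 400))).toReal

theorem volume_ball_eq_vB (y₀ : E m) :
    volume (Metric.ball y₀ (1 / 400)) = ENNReal.ofReal (vB m) := by
  unfold vB
  rw [ENNReal.ofReal_toReal measure_ball_lt_top.ne, Measure.addHaar_ball_center]

theorem vB_nonneg (m : ℕ) : 0 ≤ vB m := ENNReal.toReal_nonneg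

theorem integrable_gz {N : NCyl m n} {a C ε Cm : ℝ} (K : SK N 72 a C ε Cm) (α : Fin n) :
    Integrable (gz N.u α) N.μ := by
  have := K.fin
  exact Integrable.of_bound (aesm_gz K.ok α) (|C| * a)
    (K.ae.mono fun X hX => (abs_gz_le N.u α X).trans hX.2.2)

/-- the `L¹` bound of the mollified first moment -/
theorem fq_L1 {N : NCyl m n} {q : ℕ} {a C ε Cm C₁ Cρ : ℝ} (K : SK N 72 a C ε Cm)
    (hM : HasMom N q a C) (hC₁ : 0 < C₁) (hCρ : 0 < Cρ)
    (Hvar : ∀ (w : E (m + n)), ‖w‖ ≤ 1 → ∀ φ : E m → ℝ, ContDiff ℝ ∞ φ →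
      tsupport φ ⊆ Metric.ball 0 71 → ∀ j : Fin m,
        |∫ X, inner ℝ (zz N.u X) w * fderiv ℝ φ (npr N.u X) (EuclideanSpace.single j 1) ∂N.μ|
          ≤ ∫ X, (|φ (npr N.u X)| * (C₁ * (Real.sqrt (tilt N.u (N.W.P X) X) + ε * ‖zz N.u X‖))
              + ‖fderiv ℝ φ (npr N.u X)‖ * (C₁ * (‖zz N.u X‖ * tilt N.u (N.W.P X) X))) ∂N.μ)
    {π' : E (m + n) → E m} (hπm : Measurable π') (hπe : npr N.u =ᵐ[N.μ] π')
    {y₀ : E m} (hy₀ : ‖y₀‖ < 30) {s r : ℝ} (hs : 0 < s) (hs1 : s ≤ 1 / 400) (hr : 0 < r)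
    (hr1 : r ≤ 1 / 400) (HS : ∫ w, ‖fderiv ℝ (kr m s) w‖ ≤ Cρ / s)
    (HR : ∀ i : ℕ, i ≤ max q 1 → ∀ w, ‖iteratedFDeriv ℝ i (kr m r) w‖
      ≤ Cρ * (r ^ (m + max q 1))⁻¹) (α : Fin n) :
    ∫⁻ y in Metric.ball y₀ (1 / 400), ‖mv N.μ π' (gz N.u α) (kr m s) y‖ₑ
      ≤ ENNReal.ofReal (r * (m * (C₁ * (Cm * a * (1 + ε * |C|))
            + Cρ / s * (C₁ * (|C| * Cm * a ^ 3))))
          + (|C| * a ^ 2 + |C| * (|C| + 1) * Cm * ε * a) * (Cρ * (r ^ (m + max q 1))⁻¹)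
            * vB m) := by
  have := K.fin
  obtain ⟨hb0, hb1, hi0, hi1⟩ := fq_bint K
  have hsub : ∀ R' : ℝ, 31 ≤ R' → Metric.ball y₀ (4 * (1 / 400)) ⊆ Metric.ball (0 : E m) R' := by
    intro R' hR' y hy
    rw [Metric.mem_ball, dist_eq_norm] at hy
    rw [Metric.mem_ball, dist_zero_right]
    have : ‖y‖ ≤ ‖y - y₀‖ + ‖y₀‖ := by
      have := norm_add_le (y - y₀) y₀
      rwa [sub_add_cancel] at this
    linarith
  have ha := K.a_pos
  have hε := K.ε_nonneg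
  have hCm := K.Cm_pos
  have h := bv_small (μ := N.μ) (π := π') (g := gz N.u α)
    (b₀ := fun X => C₁ * (Real.sqrt (tilt N.u (N.W.P X) X) + ε * ‖zz N.u X‖))
    (b₁ := fun X => C₁ * (‖zz N.u X‖ * tilt N.u (N.W.P X) X)) (y₀ := y₀) (R := 1 / 400) (r := r)
    (s := s) (τ := |C| * a ^ 2 + |C| * (|C| + 1) * Cm * ε * a)
    (A := Cρ * (r ^ (m + max q 1))⁻¹) (L := Cρ / s) (q := max q 1) (Ks := kr m s) (Kr := kr m r)
    hπm (integrable_gz K α) (hb0.const_mul C₁) (hb1.const_mul C₁)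
    (fun X => by
      have := Real.sqrt_nonneg (tilt N.u (N.W.P X) X)
      positivity)
    (fun X => by
      have := ck_tilt_nonneg N.u X (N.W.P_proj X)
      positivity)
    (by norm_num) hs1 hr1 (molK_kr m hs) (molK_kr m hr) HS HR
    (fun φ hφ hsupp j => by
      have h1 := Hvar _ (norm_mkHV_single α) φ hφ (hsupp.trans (hsub 71 (by norm_num))) j
      have e1 : ∫ X, gz N.u α X * fderiv ℝ φ (π' X) (EuclideanSpace.single j 1) ∂N.μ
          = ∫ X, inner ℝ (zz N.u X) (mkHV (0 : E m) (EuclideanSpace.single α (1 : ℝ)))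
            * fderiv ℝ φ (npr N.u X) (EuclideanSpace.single j 1) ∂N.μ :=
        integral_congr_ae (hπe.mono fun X hX => by
          simp only
          rw [← hX, gz_eq_inner])
      have e2 : ∫ X, (|φ (π' X)| * (C₁ * (Real.sqrt (tilt N.u (N.W.P X) X) + ε * ‖zz N.u X‖))
            + ‖fderiv ℝ φ (π' X)‖ * (C₁ * (‖zz N.u X‖ * tilt N.u (N.W.P X) X))) ∂N.μ
          = ∫ X, (|φ (npr N.u X)| * (C₁ * (Real.sqrt (tilt N.u (N.W.P X) X) + ε * ‖zz N.u X‖))
            + ‖fderiv ℝ φ (npr N.u X)‖ * (C₁ * (‖zz N.u X‖ * tilt N.u (N.W.P X) X))) ∂N.μ :=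
        integral_congr_ae (hπe.mono fun X hX => by
          simp only
          rw [← hX])
      rw [e1, e2]
      exact h1)
    (fun φ A' hφ hsupp hA' => by
      have h1 := fq_mom K hM α hφ (hsupp.trans (hsub 68 (by norm_num))) hA'
      have e1 : ∫ X, φ (π' X) * gz N.u α X ∂N.μ = ∫ X, φ (npr N.u X) * gz N.u α X ∂N.μ :=
        integral_congr_ae (hπe.mono fun X hX => by
          simp only
          rw [← hX])
      rw [e1]
      exact h1)
  refine h.trans ?_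
  rw [volume_ball_eq_vB, ← ENNReal.ofReal_mul hr.le,
    ← ENNReal.ofReal_mul (by positivity), ← ENNReal.ofReal_add]
  · refine ENNReal.ofReal_le_ofReal ?_
    rw [integral_const_mul, integral_const_mul]
    have hL : 0 ≤ Cρ / s := by positivity
    gcongr
  · rw [integral_const_mul, integral_const_mul]
    have i0 : 0 ≤ ∫ X, (Real.sqrt (tilt N.u (N.W.P X) X) + ε * ‖zz N.u X‖) ∂N.μ :=
      integral_nonneg fun X => by
        have := Real.sqrt_nonneg (tilt N.u (N.W.P X) X)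
        positivity
    have i1 : 0 ≤ ∫ X, ‖zz N.u X‖ * tilt N.u (N.W.P X) X ∂N.μ :=
      integral_nonneg fun X => by
        have := ck_tilt_nonneg N.u X (N.W.P_proj X)
        positivity
    positivity
  · have := vB_nonneg m
    positivity

/-- the second moment is controlled by the abstract oscillation lemma -/
theorem fq_core (hm : 1 ≤ m) {N : NCyl m n} {a C ε Cm D C₂ cρ c s I θ₁ θ₂ : ℝ}
    (K : SK N 72 a C ε Cm) (hε : ε ≤ 1 / 3) (hN : N.h ≤ 1 / 9) (hD : 0 < D)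
    (Hdens : ∀ A : Set (E m), MeasurableSet A → A ⊆ Metric.ball 0 72 →
      N.μ {X | npr N.u X ∈ A} ≤ ENNReal.ofReal D * volume A + ENNReal.ofReal (Cm * a ^ 2))
    (hC₂ : 0 < C₂)
    (Hfar : ∀ (y₀ : E m) (Γ : Set (E (m + n))) (d : ℝ),
      N.μ (FarSet Γ d ∩ {X | ‖npr N.u X - y₀‖ < 1 / 200})
        ≤ N.μ (SepSet N y₀ Γ d) + ENNReal.ofReal (C₂ * Cm * a ^ 2))
    (hcρ : 0 < cρ) (Hlow : ∀ w : E m, ‖w‖ ≤ s / 2 → cρ * (s ^ m)⁻¹ ≤ kr m s w)
    (hs : 0 < s) (hs1 : s ≤ 1 / 400) (hh : |C| * a + s < N.h) (hc : 0 < c)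
    {π' : E (m + n) → E m} (hπm : Measurable π') (hπe : npr N.u =ᵐ[N.μ] π')
    {y₀ : E m} (hy₀ : ‖y₀‖ < 30) {Γ : Set (E (m + n))} (hΓ : ConeSet 1 Γ)
    (hSep : N.μ (SepSet N y₀ Γ (c * a)) < ENNReal.ofReal c) (hI : 0 ≤ I)
    (HI : ∀ α, ∫⁻ y in Metric.ball y₀ (1 / 400), ‖mv N.μ π' (gz N.u α) (kr m s) y‖ₑ
      ≤ ENNReal.ofReal I) (hθ₁ : 0 < θ₁) (hθ₂ : 0 < θ₂) :
    sm N y₀ (1 / 400) ≤ 2 * (n * (|C| * a) ^ 2 * ((c + C₂ * Cm * a ^ 2)
          + (D * (n * I / θ₁ + (c + C₂ * Cm * a ^ 2) / θ₂) + Cm * a ^ 2))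
        + n * ((θ₁ + 2 * (|C| * a) * θ₂) / (cρ * kap m * (1 / 4) ^ m)
          + (2 * s + 2 * ε * (|C| * a) + 4 * (c * a))) ^ 2 * Cm) := by
  have := K.fin
  have ha := K.a_pos
  have hε0 := K.ε_nonneg
  have hCm := K.Cm_pos
  have hkap := kap_pos m
  set G : Set (E (m + n)) := {X | X ∈ N.W.support ∧ X ∈ Cyl N.u N.Ω N.h ∧ ‖zz N.u X‖ ≤ |C| * a ∧
    npr N.u X = π' X} with hGdef
  have hG : ∀ᵐ X ∂N.μ, X ∈ G := by
    filter_upwards [K.ok.ae_mem, K.ae, hπe] with X h1 h2 h3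
    exact ⟨h1.1, h1.2.1, h2.2.2, h3⟩
  have hball : ∀ y ∈ Metric.ball y₀ (1 / 400), ‖y‖ < 31 := by
    intro y hy
    rw [Metric.mem_ball, dist_eq_norm] at hy
    have : ‖y‖ ≤ ‖y - y₀‖ + ‖y₀‖ := by
      have := norm_add_le (y - y₀) y₀
      rwa [sub_add_cancel] at this
    linarith
  have hF0 : 0 ≤ c + C₂ * Cm * a ^ 2 := by positivity
  have key := osc_small (μ := N.μ) (π := π') (g := fun α => gz N.u α) (Far := FarSet Γ (c * a))
    (G := G) (K := kr m s) (y₀ := y₀) (s := s) (R := 1 / 400) (M := |C| * a)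
    (σ := 2 * s + 2 * ε * (|C| * a) + 4 * (c * a)) (cm := cρ * kap m * (1 / 4) ^ m) (θ₁ := θ₁)
    (θ₂ := θ₂) (D := D) (M₂ := Cm * a ^ 2) (I := I) (F := c + C₂ * Cm * a ^ 2)
    hπm (fun α => aesm_gz K.ok α) (measurableSet_farSet _ _) hG (molK_kr m hs) hs1 (by norm_num)
    (by positivity) (by positivity) (by positivity) hθ₁ hθ₂ hD.le (by positivity) hI hF0
    (fun X hX α => (abs_gz_le N.u α X).trans hX.2.2.1)
    (fun X hX X' hX' hF hF' hd α =>
      fq_cone (K.small.smooth.differentiable (by norm_num)) K.small.slope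
        (hε.trans (by norm_num)) hΓ (K.ok.normal X hX.2.1) (K.ok.normal X' hX'.2.1) hX.2.2.1
        hX'.2.2.1 hF hF' (by rw [hX.2.2.2, hX'.2.2.2]; exact hd.le) α)
    (fun X hX hXb => by
      have l1 := fq_low hm K hε hN hX.1 hX.2.1 (by rw [hX.2.2.2]; exact hball _ hXb) hs
        (hs1.trans (by norm_num)) hX.2.2.1 hh
      have l2 := mv_one_lower (μ := N.μ) hπm (molK_kr m hs) Hlow (π' X)
      have e1 : N.μ {X' | ‖npr N.u X - npr N.u X'‖ ≤ s / 2} = N.μ {X' | ‖π' X - π' X'‖ ≤ s / 2} :=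
        measure_congr (hπe.mono fun X' hX' => by
          show (‖npr N.u X - npr N.u X'‖ ≤ s / 2) = (‖π' X - π' X'‖ ≤ s / 2)
          rw [hX', hX.2.2.2])
      rw [e1] at l1
      have l3 : kap m * (s / 4) ^ m ≤ N.μ.real {X' | ‖π' X - π' X'‖ ≤ s / 2} :=
        (ENNReal.ofReal_le_iff_le_toReal (measure_ne_top _ _)).1 l1
      refine le_trans (le_of_eq ?_) ((mul_le_mul_of_nonneg_left l3 (by positivity)).trans l2)
      rw [div_pow, div_pow, one_pow]
      field_simp)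
    (fun A hA hAs => by
      have e1 : N.μ (π' ⁻¹' A) = N.μ {X | npr N.u X ∈ A} :=
        measure_congr (hπe.mono fun X hX => by
          show (π' X ∈ A) = (npr N.u X ∈ A)
          rw [hX])
      rw [e1]
      refine Hdens A hA (hAs.trans fun y hy => ?_)
      rw [Metric.mem_ball, dist_zero_right]
      exact (hball y hy).trans (by norm_num))
    HI
    (by
      have e1 : N.μ (FarSet Γ (c * a) ∩ π' ⁻¹' Metric.ball y₀ (2 * (1 / 400)))
          = N.μ (FarSet Γ (c * a) ∩ {X | ‖npr N.u X - y₀‖ < 1 / 200}) :=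
        measure_congr (hπe.mono fun X hX => by
          show (X ∈ FarSet Γ (c * a) ∧ π' X ∈ Metric.ball y₀ (2 * (1 / 400)))
            = (X ∈ FarSet Γ (c * a) ∧ ‖npr N.u X - y₀‖ < 1 / 200)
          rw [hX, Metric.mem_ball, dist_eq_norm]
          norm_num)
      rw [e1, ENNReal.ofReal_add hc.le (by positivity)]
      exact (Hfar y₀ Γ (c * a)).trans (by gcongr))
  -- from `∑ g²` to `|z|²`
  have e0 : ({X | ‖npr N.u X - y₀‖ < 1 / 400} : Set (E (m + n)))
      =ᵐ[N.μ] π' ⁻¹' Metric.ball y₀ (1 / 400) :=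
    hπe.mono fun X hX => by
      show (‖npr N.u X - y₀‖ < 1 / 400) = (π' X ∈ Metric.ball y₀ (1 / 400))
      rw [hX, Metric.mem_ball, dist_eq_norm]
  have hgi : Integrable (fun X => 2 * ∑ α, gz N.u α X ^ 2) N.μ := by
    refine Integrable.const_mul (integrable_finsetSum _ fun α _ => ?_) 2
    refine Integrable.of_bound ((aesm_gz K.ok α).pow 2) ((|C| * a) ^ 2)
      (K.ae.mono fun X hX => ?_)
    rw [Real.norm_of_nonneg (sq_nonneg _), ← sq_abs]
    exact pow_le_pow_left₀ (abs_nonneg _) ((abs_gz_le N.u α X).trans hX.2.2) 2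
  have h1 : sm N y₀ (1 / 400)
      ≤ 2 * ∫ X in π' ⁻¹' Metric.ball y₀ (1 / 400), ∑ α, gz N.u α X ^ 2 ∂N.μ := by
    unfold sm
    rw [setIntegral_congr_set e0, ← integral_const_mul]
    refine integral_mono_ae K.hsqw.1.integrableOn hgi.integrableOn ?_
    refine ae_restrict_of_ae (K.ae.mono fun X hX => ?_)
    exact norm_sq_zz_le (K.ok.normal X hX.1) ((K.small.slope _).trans K.ε_le)
  refine h1.trans (mul_le_mul_of_nonneg_left (key.trans ?_) (by norm_num))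
  have := K.mass
  gcongr

end Claimed.Agent.R322.Fit
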