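import Claimed.Agent.R322.Basic

/-!
# AE Lemma 7.2 (Q): mollifier kernels   (architect helper189)

`MolK K s`: a smooth nonnegative kernel on `E m` with integral `1` which vanishes outside `ball 0 s`.
`kr m s w = s^{-m} ρ(w / s)`, `ρ` the normalised standard bump with radii `1/2, 1`.

PLANS.
* `molK_kr`: `ContDiffBump.contDiff_normed`, `nonneg_normed`, `support_normed_eq`, `integral_normed`,
  `Measure.integral_comp_inv_smul` / `integral_comp_smul` (`finrank ℝ (E m) = m`).
* `exists_kr_bounds`: `ρ = 1 / ∫ kb` on `closedBall 0 (1/2)` (`ContDiffBump.one_of_mem_closedBall`);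
  `iteratedFDeriv_comp_const_smul`: `D^i (kr m s) w = s^{-m} s^{-i} D^i ρ (w / s)`; `D^i ρ` is bounded (continuous, compact support);
  `∫ ‖D (kr m s)‖ = s^{-1} ∫ ‖Dρ‖` by the same change of variables.
-/

set_option autoImplicit false

open scoped ENNReal ContDiff
open MeasureTheory

namespace Claimed.Agent.R322.Fit

variable {m : ℕ}

/-- a mollifier kernel at scale `s` -/
structure MolK (K : E m → ℝ) (s : ℝ) : Prop where
  smooth : ContDiff ℝ ∞ K
  nonneg : ∀ w, 0 ≤ K w
  supp : ∀ w, s ≤ ‖w‖ → K w = 0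
  int : ∫ w, K w = 1

/-- the standard bump with radii `1/2`, `1` -/
noncomputable def kb (m : ℕ) : ContDiffBump (0 : E m) := ⟨1 / 2, 1, by norm_num, by norm_num⟩

/-- the standard kernel at scale `s` -/
noncomputable def kr (m : ℕ) (s : ℝ) (w : E m) : ℝ :=
  (s ^ m)⁻¹ * (kb m).normed volume (s⁻¹ • w)

/-- leaf L-Fit-FailQ-ker1 -/
theorem molK_kr (m : ℕ) {s : ℝ} (hs : 0 < s) : MolK (kr m s) s := by
  refine ⟨?_, ?_, ?_, ?_⟩
  · unfold kr
    exact contDiff_const.mul ((kb m).contDiff_normed.comp (contDiff_id.const_smul s⁻¹))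
  · intro w
    exact mul_nonneg (by positivity) ((kb m).nonneg_normed _)
  · intro w hw
    have h1 : s⁻¹ • w ∉ Function.support ((kb m).normed volume) := by
      rw [(kb m).support_normed_eq, Metric.mem_ball, dist_zero_right, norm_smul, norm_inv,
        Real.norm_of_nonneg hs.le, not_lt]
      show (1 : ℝ) ≤ s⁻¹ * ‖w‖
      rw [inv_mul_eq_div, le_div_iff₀ hs, one_mul]
      exact hw
    unfold kr
    rw [Function.notMem_support.1 h1, mul_zero]
  · unfold kr
    rw [integral_const_mul, Measure.integral_comp_inv_smul_of_nonneg volume _ hs.le,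
      (kb m).integral_normed, finrank_euclideanSpace_fin, smul_eq_mul, mul_one]
    exact inv_mul_cancel₀ (by positivity)

theorem kr_fderiv (m : ℕ) (s : ℝ) (w : E m) :
    fderiv ℝ (kr m s) w = ((s ^ m)⁻¹ * s⁻¹) • fderiv ℝ ((kb m).normed volume) (s⁻¹ • w) := by
  have h1 : HasFDerivAt ((kb m).normed volume) (fderiv ℝ ((kb m).normed volume) (s⁻¹ • w)) (s⁻¹ • w) :=
    (((kb m).contDiff_normed (n := 1)).differentiable (by simp) _).hasFDerivAt
  have h2 : HasFDerivAt (fun w : E m => s⁻¹ • w) (s⁻¹ • ContinuousLinearMap.id ℝ (E m)) w :=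
    (hasFDerivAt_id w).const_smul s⁻¹
  have h3 := (h1.comp w h2).const_mul ((s ^ m)⁻¹)
  have h4 : HasFDerivAt (kr m s) _ w := h3
  rw [h4.fderiv, ContinuousLinearMap.comp_smul, ContinuousLinearMap.comp_id, smul_smul]

theorem kr_iteratedFDeriv (m : ℕ) (s : ℝ) (i : ℕ) (w : E m) :
    iteratedFDeriv ℝ i (kr m s) w
      = ((s ^ m)⁻¹ * (s⁻¹) ^ i) • iteratedFDeriv ℝ i ((kb m).normed volume) (s⁻¹ • w) := by
  have hc : ContDiff ℝ i ((kb m).normed volume) := (kb m).contDiff_normed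
  have hc2 : ContDiff ℝ i (fun z : E m => (kb m).normed volume (s⁻¹ • z)) :=
    hc.comp (contDiff_id.const_smul s⁻¹)
  have e : kr m s = fun w => (s ^ m)⁻¹ • (fun z : E m => (kb m).normed volume (s⁻¹ • z)) w := by
    funext w
    rfl
  rw [e, iteratedFDeriv_const_smul_apply' hc2.contDiffAt, iteratedFDeriv_comp_const_smul _ hc,
    smul_smul]

/-- leaf L-Fit-FailQ-ker2 -/
theorem exists_kr_bounds (m q : ℕ) : ∃ cρ Cρ : ℝ, 0 < cρ ∧ 0 < Cρ ∧ ∀ s : ℝ, 0 < s → s ≤ 1 →
    (∀ w : E m, ‖w‖ ≤ s / 2 → cρ * (s ^ m)⁻¹ ≤ kr m s w) ∧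
    ∫ w, ‖fderiv ℝ (kr m s) w‖ ≤ Cρ / s ∧
    ∀ i : ℕ, i ≤ q → ∀ w, ‖iteratedFDeriv ℝ i (kr m s) w‖ ≤ Cρ * (s ^ (m + q))⁻¹ := by
  have hI : 0 < ∫ x, (kb m) x := (kb m).integral_pos
  have hbd : ∀ i : ℕ, ∃ M : ℝ, ∀ w, ‖iteratedFDeriv ℝ i ((kb m).normed volume) w‖ ≤ M := by
    intro i
    exact (((kb m).contDiff_normed (n := i)).continuous_iteratedFDeriv'
      ).bounded_above_of_compact_support ((kb m).hasCompactSupport_normed.iteratedFDeriv i)
  choose M hM using hbd
  have hM0 : ∀ i, 0 ≤ M i := fun i => (norm_nonneg _).trans (hM i 0)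
  have hJ : 0 ≤ ∫ w, ‖fderiv ℝ ((kb m).normed volume) w‖ := integral_nonneg fun _ => norm_nonneg _
  have hS : 0 ≤ ∑ i ∈ Finset.range (q + 1), M i := Finset.sum_nonneg fun i _ => hM0 i
  refine ⟨(∫ x, (kb m) x)⁻¹, 1 + (∫ w, ‖fderiv ℝ ((kb m).normed volume) w‖)
    + ∑ i ∈ Finset.range (q + 1), M i, by positivity, by positivity, ?_⟩
  intro s hs hs1
  refine ⟨?_, ?_, ?_⟩
  · intro w hw
    have h1 : s⁻¹ • w ∈ Metric.closedBall (0 : E m) (kb m).rIn := by
      rw [Metric.mem_closedBall, dist_zero_right, norm_smul, norm_inv, Real.norm_of_nonneg hs.le]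
      show s⁻¹ * ‖w‖ ≤ 1 / 2
      rw [inv_mul_eq_div, div_le_iff₀ hs]
      linarith
    unfold kr
    rw [(kb m).normed_def, (kb m).one_of_mem_closedBall h1, one_div, mul_comm]
  · have e : (fun w => ‖fderiv ℝ (kr m s) w‖)
        = fun w => ((s ^ m)⁻¹ * s⁻¹) * (fun z => ‖fderiv ℝ ((kb m).normed volume) z‖) (s⁻¹ • w) := by
      funext w
      rw [kr_fderiv, norm_smul, Real.norm_of_nonneg (by positivity)]
    rw [e, integral_const_mul, Measure.integral_comp_inv_smul_of_nonneg volume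
      (fun z => ‖fderiv ℝ ((kb m).normed volume) z‖) hs.le, finrank_euclideanSpace_fin, smul_eq_mul]
    have e2 : (s ^ m)⁻¹ * s⁻¹ * (s ^ m * ∫ w, ‖fderiv ℝ ((kb m).normed volume) w‖)
        = (∫ w, ‖fderiv ℝ ((kb m).normed volume) w‖) / s := by
      field_simp
    rw [e2]
    apply div_le_div_of_nonneg_right _ hs.le
    linarith
  · intro i hi w
    rw [kr_iteratedFDeriv, norm_smul, Real.norm_of_nonneg (by positivity)]
    have h1 : M i ≤ ∑ i ∈ Finset.range (q + 1), M i :=
      Finset.single_le_sum (fun j _ => hM0 j) (Finset.mem_range.2 (by omega))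
    have h2 : (s ^ m)⁻¹ * (s⁻¹) ^ i ≤ (s ^ (m + q))⁻¹ := by
      rw [pow_add, mul_inv, inv_pow]
      apply mul_le_mul_of_nonneg_left _ (by positivity)
      apply inv_anti₀ (by positivity)
      exact pow_le_pow_of_le_one hs.le hs1 hi
    calc (s ^ m)⁻¹ * (s⁻¹) ^ i * ‖iteratedFDeriv ℝ i ((kb m).normed volume) (s⁻¹ • w)‖
        ≤ (s ^ (m + q))⁻¹ * (1 + (∫ w, ‖fderiv ℝ ((kb m).normed volume) w‖)
            + ∑ i ∈ Finset.range (q + 1), M i) := by
          apply mul_le_mul h2 _ (norm_nonneg _) (by positivity)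
          have := hM i (s⁻¹ • w)
          linarith
      _ = _ := by ring

namespace MolK

variable {K : E m → ℝ} {s : ℝ}

theorem continuous (h : MolK K s) : Continuous K := h.smooth.continuous

theorem tsupport_subset (h : MolK K s) : tsupport K ⊆ Metric.closedBall 0 s :=
  closure_minimal (fun w hw => by
    rw [Metric.mem_closedBall, dist_zero_right]
    by_contra hc
    exact hw (h.supp w (not_le.1 hc).le)) Metric.isClosed_closedBall

theorem hasCompactSupport (h : MolK K s) : HasCompactSupport K :=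
  (isCompact_closedBall (0 : E m) s).of_isClosed_subset (isClosed_tsupport _) h.tsupport_subset

theorem integrable (h : MolK K s) : Integrable K :=
  h.continuous.integrable_of_hasCompactSupport h.hasCompactSupport

theorem exists_bound (h : MolK K s) : ∃ B : ℝ, ∀ w, |K w| ≤ B :=
  h.continuous.bounded_above_of_compact_support h.hasCompactSupport

theorem lintegral_enorm (h : MolK K s) : ∫⁻ w, ‖K w‖ₑ = 1 := by
  have h1 := ofReal_integral_eq_lintegral_ofReal h.integrable
    (Filter.Eventually.of_forall h.nonneg)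
  rw [h.int, ENNReal.ofReal_one] at h1
  rw [h1]
  refine lintegral_congr fun w => ?_
  rw [Real.enorm_eq_ofReal (h.nonneg w)]

end MolK

end Claimed.Agent.R322.Fit
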