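import Mathlib

/-!
# AE Lemma 7.2 (Q): the choice of the constants   (helper189)
-/

set_option autoImplicit false

namespace Claimed.Agent.R322.Fit

theorem qn_ex_small {K η b : ℝ} (hK : 0 ≤ K) (hη : 0 < η) (hb : 0 < b) :
    ∃ x : ℝ, 0 < x ∧ x ≤ b ∧ K * x ≤ η := by
  refine ⟨min b (η / (K + 1)), lt_min hb (by positivity), min_le_left _ _, ?_⟩
  calc K * min b (η / (K + 1)) ≤ K * (η / (K + 1)) :=
        mul_le_mul_of_nonneg_left (min_le_right _ _) hK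
    _ = η * (K / (K + 1)) := by ring
    _ ≤ η * 1 := by
        refine mul_le_mul_of_nonneg_left ?_ hη.le
        rw [div_le_one (by linarith)]
        linarith
    _ = η := mul_one η

/-- scaling identity -/
theorem qn_id {nn mm C₀ Cm cm D C₁ C₂ Cρ vb Rp δ₁ κ r c a ε : ℝ} (ha : 0 < a) (hκ : 0 < κ)
    (hδ₁ : 0 < δ₁) (hcm : 0 < cm) :
    2 * (nn * (C₀ * a) ^ 2 * ((c + C₂ * Cm * a ^ 2)
          + (D * (nn * (r * (mm * (C₁ * (Cm * a * (1 + ε * C₀))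
                + Cρ / (κ * a) * (C₁ * (C₀ * Cm * a ^ 3))))
              + (C₀ * a ^ 2 + C₀ * (C₀ + 1) * Cm * ε * a) * (Cρ * Rp) * vb) / (δ₁ * a)
            + (c + C₂ * Cm * a ^ 2) / δ₁) + Cm * a ^ 2))
        + nn * ((δ₁ * a + 2 * (C₀ * a) * δ₁) / cm
          + (2 * (κ * a) + 2 * ε * (C₀ * a) + 4 * (c * a))) ^ 2 * Cm)
      = a ^ 2 * (2 * nn * C₀ ^ 2 * (1 + D / δ₁) * (c + C₂ * Cm * a ^ 2)
          + 2 * nn * C₀ ^ 2 * D * nn / δ₁ * (r * (mm * (C₁ * (Cm * (1 + ε * C₀))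
                + Cρ / κ * (C₁ * (C₀ * Cm * a))))
              + (C₀ * a + C₀ * (C₀ + 1) * Cm * ε) * (Cρ * Rp) * vb)
          + 2 * nn * C₀ ^ 2 * Cm * a ^ 2
          + 2 * nn * Cm * (δ₁ * (1 + 2 * C₀) / cm + (2 * κ + 2 * ε * C₀ + 4 * c)) ^ 2) := by
  field_simp
  ring

/-- the bracket is small -/
theorem qn_bound {nn mm C₀ Cm cm D C₁ C₂ Cρ vb Rp δ₁ κ r c a ε ε₁ t δ : ℝ} (hnn : 0 ≤ nn)
    (hmm : 0 ≤ mm) (hC₀ : 0 ≤ C₀) (hCm : 0 < Cm) (hcm : 0 < cm) (hD : 0 < D) (hC₁ : 0 < C₁)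
    (hC₂ : 0 < C₂) (hCρ : 0 < Cρ) (hvb : 0 ≤ vb) (hRp : 0 ≤ Rp) (hδ₁ : 0 < δ₁) (hκ : 0 < κ)
    (hr : 0 < r) (hc : 0 < c) (ha : 0 < a) (haε : a ≤ ε) (hε : ε ≤ ε₁) (hε₁ : ε₁ ≤ 1)
    (ht0 : 0 < t) (ht1 : t ≤ 1) (hδ : 0 < δ)
    (T1 : δ₁ * (1 + 2 * C₀) / cm ≤ t / 4) (T2 : 2 * κ ≤ t / 4) (T3 : 2 * ε₁ * C₀ ≤ t / 4)
    (T4 : 4 * c ≤ t / 4) (Tt : 2 * nn * Cm * t ≤ δ / 4)
    (B1 : 2 * nn * C₀ ^ 2 * (1 + D / δ₁) * c ≤ δ / 8)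
    (B2 : 2 * nn * C₀ ^ 2 * D * nn / δ₁ * (mm * C₁ * Cm * (1 + C₀ + Cρ * C₀ / κ)) * r ≤ δ / 8)
    (B3 : (2 * nn * C₀ ^ 2 * (1 + D / δ₁) * (C₂ * Cm)
        + 2 * nn * C₀ ^ 2 * D * nn / δ₁ * ((C₀ + C₀ * (C₀ + 1) * Cm) * (Cρ * Rp) * vb)
        + 2 * nn * C₀ ^ 2 * Cm) * ε₁ ≤ δ / 8) :
    2 * nn * C₀ ^ 2 * (1 + D / δ₁) * (c + C₂ * Cm * a ^ 2)
          + 2 * nn * C₀ ^ 2 * D * nn / δ₁ * (r * (mm * (C₁ * (Cm * (1 + ε * C₀))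
                + Cρ / κ * (C₁ * (C₀ * Cm * a))))
              + (C₀ * a + C₀ * (C₀ + 1) * Cm * ε) * (Cρ * Rp) * vb)
          + 2 * nn * C₀ ^ 2 * Cm * a ^ 2
          + 2 * nn * Cm * (δ₁ * (1 + 2 * C₀) / cm + (2 * κ + 2 * ε * C₀ + 4 * c)) ^ 2 < δ := by
  have hε0 : 0 < ε := ha.trans_le haε
  have ha1 : a ≤ ε₁ := haε.trans hε
  have ha11 : a ≤ 1 := ha1.trans hε₁
  have hε1 : ε ≤ 1 := hε.trans hε₁
  have ha2 : a ^ 2 ≤ ε₁ := (pow_le_of_le_one ha.le ha11 two_ne_zero).trans ha1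
  set E₁ := 2 * nn * C₀ ^ 2 * (1 + D / δ₁) with hE₁
  set E₂ := 2 * nn * C₀ ^ 2 * D * nn / δ₁ with hE₂
  set E₃ := 2 * nn * C₀ ^ 2 * Cm with hE₃
  have hE₁0 : 0 ≤ E₁ := by positivity
  have hE₂0 : 0 ≤ E₂ := by positivity
  have hE₃0 : 0 ≤ E₃ := by positivity
  -- the first term
  have s1 : E₁ * (c + C₂ * Cm * a ^ 2) ≤ E₁ * c + E₁ * (C₂ * Cm) * ε₁ := by
    have : C₂ * Cm * a ^ 2 ≤ C₂ * Cm * ε₁ := by gcongr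
    calc E₁ * (c + C₂ * Cm * a ^ 2) ≤ E₁ * (c + C₂ * Cm * ε₁) := by gcongr
      _ = _ := by ring
  -- the second term
  have s2a : mm * (C₁ * (Cm * (1 + ε * C₀)) + Cρ / κ * (C₁ * (C₀ * Cm * a)))
      ≤ mm * C₁ * Cm * (1 + C₀ + Cρ * C₀ / κ) := by
    have h1 : ε * C₀ ≤ 1 * C₀ := by gcongr
    have h2 : C₀ * Cm * a ≤ C₀ * Cm * 1 := by gcongr
    calc mm * (C₁ * (Cm * (1 + ε * C₀)) + Cρ / κ * (C₁ * (C₀ * Cm * a)))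
        ≤ mm * (C₁ * (Cm * (1 + 1 * C₀)) + Cρ / κ * (C₁ * (C₀ * Cm * 1))) := by gcongr
      _ = _ := by ring
  have s2b : (C₀ * a + C₀ * (C₀ + 1) * Cm * ε) * (Cρ * Rp) * vb
      ≤ ((C₀ + C₀ * (C₀ + 1) * Cm) * (Cρ * Rp) * vb) * ε₁ := by
    have h1 : C₀ * a ≤ C₀ * ε₁ := by gcongr
    have h2 : C₀ * (C₀ + 1) * Cm * ε ≤ C₀ * (C₀ + 1) * Cm * ε₁ := by gcongr
    calc (C₀ * a + C₀ * (C₀ + 1) * Cm * ε) * (Cρ * Rp) * vb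
        ≤ (C₀ * ε₁ + C₀ * (C₀ + 1) * Cm * ε₁) * (Cρ * Rp) * vb := by gcongr
      _ = _ := by ring
  have s2 : E₂ * (r * (mm * (C₁ * (Cm * (1 + ε * C₀)) + Cρ / κ * (C₁ * (C₀ * Cm * a))))
        + (C₀ * a + C₀ * (C₀ + 1) * Cm * ε) * (Cρ * Rp) * vb)
      ≤ E₂ * (mm * C₁ * Cm * (1 + C₀ + Cρ * C₀ / κ)) * r
        + E₂ * ((C₀ + C₀ * (C₀ + 1) * Cm) * (Cρ * Rp) * vb) * ε₁ := by
    calc _ ≤ E₂ * (r * (mm * C₁ * Cm * (1 + C₀ + Cρ * C₀ / κ))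
          + ((C₀ + C₀ * (C₀ + 1) * Cm) * (Cρ * Rp) * vb) * ε₁) := by gcongr
      _ = _ := by ring
  have s3 : E₃ * a ^ 2 ≤ E₃ * ε₁ := by gcongr
  -- the last term
  have hT0 : 0 ≤ δ₁ * (1 + 2 * C₀) / cm + (2 * κ + 2 * ε * C₀ + 4 * c) := by positivity
  have hT : δ₁ * (1 + 2 * C₀) / cm + (2 * κ + 2 * ε * C₀ + 4 * c) ≤ t := by
    have : 2 * ε * C₀ ≤ 2 * ε₁ * C₀ := by gcongr
    linarith
  have s4 : 2 * nn * Cm * (δ₁ * (1 + 2 * C₀) / cm + (2 * κ + 2 * ε * C₀ + 4 * c)) ^ 2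
      ≤ 2 * nn * Cm * t := by
    have h1 : (δ₁ * (1 + 2 * C₀) / cm + (2 * κ + 2 * ε * C₀ + 4 * c)) ^ 2 ≤ t ^ 2 :=
      pow_le_pow_left₀ hT0 hT 2
    have h2 : t ^ 2 ≤ t := pow_le_of_le_one ht0.le ht1 two_ne_zero
    have h3 := h1.trans h2
    gcongr
  have e : (E₁ * (C₂ * Cm) + E₂ * ((C₀ + C₀ * (C₀ + 1) * Cm) * (Cρ * Rp) * vb) + E₃) * ε₁
      = E₁ * (C₂ * Cm) * ε₁ + E₂ * ((C₀ + C₀ * (C₀ + 1) * Cm) * (Cρ * Rp) * vb) * ε₁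
        + E₃ * ε₁ := by ring
  rw [e] at B3
  linarith

/-- **the choice of the constants** -/
theorem fq_num {nn mm C₀ Cm cm D C₁ C₂ Cρ vb δ h ε₂ : ℝ} (p : ℕ) (hnn : 0 ≤ nn)
    (hmm : 0 ≤ mm) (hC₀ : 0 ≤ C₀) (hCm : 0 < Cm) (hcm : 0 < cm) (hD : 0 < D) (hC₁ : 0 < C₁)
    (hC₂ : 0 < C₂) (hCρ : 0 < Cρ) (hvb : 0 ≤ vb) (hδ : 0 < δ) (hh : 0 < h) (hε₂ : 0 < ε₂) :
    ∃ δ₁ κ r c ε₁ : ℝ, 0 < δ₁ ∧ 0 < κ ∧ 0 < r ∧ r ≤ 1 / 400 ∧ 0 < c ∧ c ≤ 1 ∧ 0 < ε₁ ∧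
      ε₁ ≤ 1 / 3 ∧ ε₁ ≤ ε₂ ∧ ∀ a ε : ℝ, 0 < a → a ≤ ε → ε ≤ ε₁ →
        ε * (C₀ * a) ≤ 1 / 400 ∧ κ * a ≤ 1 / 400 ∧ C₀ * a + κ * a < h ∧
        2 * (nn * (C₀ * a) ^ 2 * ((c + C₂ * Cm * a ^ 2)
          + (D * (nn * (r * (mm * (C₁ * (Cm * a * (1 + ε * C₀))
                + Cρ / (κ * a) * (C₁ * (C₀ * Cm * a ^ 3))))
              + (C₀ * a ^ 2 + C₀ * (C₀ + 1) * Cm * ε * a) * (Cρ * (r ^ p)⁻¹) * vb) / (δ₁ * a)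
            + (c + C₂ * Cm * a ^ 2) / δ₁) + Cm * a ^ 2))
        + nn * ((δ₁ * a + 2 * (C₀ * a) * δ₁) / cm
          + (2 * (κ * a) + 2 * ε * (C₀ * a) + 4 * (c * a))) ^ 2 * Cm) < δ * a ^ 2 := by
  obtain ⟨t, ht0, ht1, Tt⟩ := qn_ex_small (K := 2 * nn * Cm) (η := δ / 4) (b := 1)
    (by positivity) (by positivity) one_pos
  set δ₁ : ℝ := t * cm / (4 * (1 + 2 * C₀)) with hδ₁d
  have hδ₁ : 0 < δ₁ := by positivity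
  set κ : ℝ := t / 8 with hκd
  have hκ : 0 < κ := by positivity
  obtain ⟨c, hc0, hcb, B1⟩ := qn_ex_small (K := 2 * nn * C₀ ^ 2 * (1 + D / δ₁)) (η := δ / 8)
    (b := min 1 (t / 16)) (by positivity) (by positivity) (lt_min one_pos (by positivity))
  obtain ⟨r, hr0, hrb, B2⟩ := qn_ex_small
    (K := 2 * nn * C₀ ^ 2 * D * nn / δ₁ * (mm * C₁ * Cm * (1 + C₀ + Cρ * C₀ / κ))) (η := δ / 8)
    (b := 1 / 400) (by positivity) (by positivity) (by norm_num)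
  obtain ⟨ε₁, hε0, hεb, B3⟩ := qn_ex_small
    (K := 2 * nn * C₀ ^ 2 * (1 + D / δ₁) * (C₂ * Cm)
        + 2 * nn * C₀ ^ 2 * D * nn / δ₁ * ((C₀ + C₀ * (C₀ + 1) * Cm) * (Cρ * (r ^ p)⁻¹) * vb)
        + 2 * nn * C₀ ^ 2 * Cm) (η := δ / 8)
    (b := min (min (1 / 3) ε₂) (min (t / (8 * (C₀ + 1)))
      (min (1 / (400 * (C₀ + κ + 1))) (h / (2 * (C₀ + κ + 1))))))
    (by positivity) (by positivity)
    (lt_min (lt_min (by norm_num) hε₂) (lt_min (by positivity)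
      (lt_min (by positivity) (by positivity))))
  have b1 : ε₁ ≤ 1 / 3 := hεb.trans ((min_le_left _ _).trans (min_le_left _ _))
  have b2 : ε₁ ≤ ε₂ := hεb.trans ((min_le_left _ _).trans (min_le_right _ _))
  have b3 : ε₁ ≤ t / (8 * (C₀ + 1)) := hεb.trans ((min_le_right _ _).trans (min_le_left _ _))
  have b4 : ε₁ ≤ 1 / (400 * (C₀ + κ + 1)) :=
    hεb.trans ((min_le_right _ _).trans ((min_le_right _ _).trans (min_le_left _ _)))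
  have b5 : ε₁ ≤ h / (2 * (C₀ + κ + 1)) :=
    hεb.trans ((min_le_right _ _).trans ((min_le_right _ _).trans (min_le_right _ _)))
  have b3' : ε₁ * (8 * (C₀ + 1)) ≤ t := (le_div_iff₀ (by positivity)).1 b3
  have b4' : ε₁ * (400 * (C₀ + κ + 1)) ≤ 1 := (le_div_iff₀ (by positivity)).1 b4
  have b5' : ε₁ * (2 * (C₀ + κ + 1)) ≤ h := (le_div_iff₀ (by positivity)).1 b5
  refine ⟨δ₁, κ, r, c, ε₁, hδ₁, hκ, hr0, hrb, hc0, hcb.trans (min_le_left _ _), hε0, b1, b2,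
    fun a ε ha haε hε => ?_⟩
  have ha1 : a ≤ ε₁ := haε.trans hε
  have hε1 : ε ≤ 1 := hε.trans (b1.trans (by norm_num))
  have hεpos : 0 < ε := ha.trans_le haε
  have q1 : C₀ * a ≤ C₀ * ε₁ := mul_le_mul_of_nonneg_left ha1 hC₀
  have q2 : κ * a ≤ κ * ε₁ := mul_le_mul_of_nonneg_left ha1 hκ.le
  have q0 : 0 ≤ C₀ * a := by positivity
  have q3 : 0 ≤ C₀ * ε₁ := by positivity
  have q4 : 0 ≤ κ * ε₁ := by positivity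
  have e3 : ε₁ * (8 * (C₀ + 1)) = 8 * (C₀ * ε₁) + 8 * ε₁ := by ring
  have e4 : ε₁ * (400 * (C₀ + κ + 1)) = 400 * (C₀ * ε₁) + 400 * (κ * ε₁) + 400 * ε₁ := by ring
  have e5 : ε₁ * (2 * (C₀ + κ + 1)) = 2 * (C₀ * ε₁) + 2 * (κ * ε₁) + 2 * ε₁ := by ring
  rw [e3] at b3'
  rw [e4] at b4'
  rw [e5] at b5'
  refine ⟨?_, ?_, ?_, ?_⟩
  · calc ε * (C₀ * a) ≤ 1 * (C₀ * a) := mul_le_mul_of_nonneg_right hε1 q0
      _ ≤ 1 / 400 := by linarith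
  · linarith
  · linarith
  · rw [qn_id ha hκ hδ₁ hcm, mul_comm δ]
    refine mul_lt_mul_of_pos_left ?_ (by positivity)
    refine qn_bound (ε₁ := ε₁) (t := t) hnn hmm hC₀ hCm hcm hD hC₁ hC₂ hCρ hvb (by positivity)
      hδ₁ hκ hr0 hc0 ha haε hε (b1.trans (by norm_num)) ht0 ht1 hδ ?_ ?_ ?_ ?_ Tt B1 B2 B3
    · rw [hδ₁d]
      refine le_of_eq ?_
      field_simp
    · rw [hκd]
      linarith
    · have : 2 * ε₁ * C₀ = 2 * (C₀ * ε₁) := by ring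
      linarith
    · have := hcb.trans (min_le_right _ _)
      linarith

end Claimed.Agent.R322.Fit
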