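import Claimed.Agent.R322.Fit.Fail.QAbs

/-!
# AE Lemma 7.2 (Q): the abstract oscillation lemma `osc_small`   (architect helper189)

`(𝒳, μ)` finite, `π : 𝒳 → E m` measurable, `g α : 𝒳 → ℝ` (`α : Fin n`) bounded by `M` on a set `G` of full measure, `Far ⊆ 𝒳` measurable, `K` a kernel at scale `s ≤ R`.
If  (osc) `|g α x - g α x'| ≤ σ` for `x, x' ∈ G \ Far`, `|π x - π x'| < s`,  (low) `(K ⋆ π_# μ)(π x) ≥ cm` for `x ∈ G` over `B_R`,
(dens) `π_# μ ≤ D vol + M₂` on `B_R`,  (L¹) `∫_{B_R} |K ⋆ π_#(g α μ)| ≤ I`,  (far) `μ(Far ∩ π⁻¹ B_{2R}) ≤ F`,  then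
`∫_{π⁻¹ B_R} ∑ g_α² ≤ n M² (F + D (n I / θ₁ + F / θ₂) + M₂) + n ((θ₁ + 2 M θ₂) / cm + σ)² μ(𝒳)` for all thresholds `θ₁, θ₂ > 0`.
-/

set_option autoImplicit false

open scoped ENNReal ContDiff
open MeasureTheory

namespace Claimed.Agent.R322.Fit

variable {m n : ℕ} {𝒳 : Type*} [MeasurableSpace 𝒳]

/-- the bad base points -/
def BadSet (μ : Measure 𝒳) (π : 𝒳 → E m) (g : Fin n → 𝒳 → ℝ) (Far : Set 𝒳) (K : E m → ℝ)
    (y₀ : E m) (R θ₁ θ₂ : ℝ) : Set (E m) :=
  {y | y ∈ Metric.ball y₀ R ∧ ((∃ α, θ₁ < |mv μ π (g α) K y|) ∨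
    θ₂ < |mv μ π (Far.indicator fun _ => 1) K y|)}

variable {μ : Measure 𝒳} [IsFiniteMeasure μ] {π : 𝒳 → E m} {g : Fin n → 𝒳 → ℝ} {Far G : Set 𝒳}
  {K : E m → ℝ} {y₀ : E m} {s R M σ cm θ₁ θ₂ D M₂ I F : ℝ}

/-- leaf L-Fit-FailQ-O1.  `g α x₀ * m(y) - V(y) = ∫ K (y - π x) (g α x₀ - g α x) dμ`, `y = π x₀`;  for `x ∈ G`:
`K (y - π x) |g α x₀ - g α x| ≤ K (y - π x) (σ + 2 M 1_Far(x))` (if `K ≠ 0` then `‖π x₀ - π x‖ < s`). -/
theorem osc_point (hπ : Measurable π) (hg : ∀ α, AEStronglyMeasurable (g α) μ)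
    (hFar : MeasurableSet Far) (hG : ∀ᵐ x ∂μ, x ∈ G) (hK : MolK K s) (hM : 0 ≤ M) (hσ : 0 ≤ σ)
    (hbd : ∀ x ∈ G, ∀ α, |g α x| ≤ M)
    (hosc : ∀ x ∈ G, ∀ x' ∈ G, x ∉ Far → x' ∉ Far → ‖π x - π x'‖ < s →
      ∀ α, |g α x - g α x'| ≤ σ) {x₀ : 𝒳} (hx₀ : x₀ ∈ G) (hx₀F : x₀ ∉ Far) (α : Fin n) :
    |g α x₀| * mv μ π (fun _ => 1) K (π x₀)
      ≤ |mv μ π (g α) K (π x₀)| + σ * mv μ π (fun _ => 1) K (π x₀)
        + 2 * M * |mv μ π (Far.indicator fun _ => 1) K (π x₀)| := by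
  have hgi : Integrable (g α) μ :=
    Integrable.of_bound (hg α) M (hG.mono fun x hx => hbd x hx α)
  have hc := hK.continuous
  have hcs := hK.hasCompactSupport
  have i1 := mv_integrable (y := π x₀) hπ (integrable_const (μ := μ) (1 : ℝ)) hc hcs
  have i2 := mv_integrable (y := π x₀) hπ hgi hc hcs
  have i3 := mv_integrable (y := π x₀) hπ
    ((integrable_const (μ := μ) (1 : ℝ)).indicator hFar) hc hcs
  have hmm0 : 0 ≤ mv μ π (fun _ => 1) K (π x₀) :=
    integral_nonneg fun x => mul_nonneg (hK.nonneg _) zero_le_one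
  have hf0 : 0 ≤ mv μ π (Far.indicator fun _ => 1) K (π x₀) :=
    integral_nonneg fun x => mul_nonneg (hK.nonneg _)
      (Set.indicator_nonneg (fun _ _ => zero_le_one) _)
  have e1 : g α x₀ * mv μ π (fun _ => 1) K (π x₀) - mv μ π (g α) K (π x₀)
      = ∫ x, K (π x₀ - π x) * (g α x₀ - g α x) ∂μ := by
    unfold mv
    rw [← integral_const_mul, ← integral_sub (i1.const_mul _) i2]
    refine integral_congr_ae (Filter.Eventually.of_forall fun x => ?_)
    simp only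
    ring
  have e2 : σ * mv μ π (fun _ => 1) K (π x₀) + 2 * M * mv μ π (Far.indicator fun _ => 1) K (π x₀)
      = ∫ x, K (π x₀ - π x) * (σ + 2 * M * Far.indicator (fun _ => (1 : ℝ)) x) ∂μ := by
    unfold mv
    rw [← integral_const_mul, ← integral_const_mul,
      ← integral_add (i1.const_mul _) (i3.const_mul _)]
    refine integral_congr_ae (Filter.Eventually.of_forall fun x => ?_)
    simp only
    ring
  have h1 : |g α x₀ * mv μ π (fun _ => 1) K (π x₀) - mv μ π (g α) K (π x₀)|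
      ≤ σ * mv μ π (fun _ => 1) K (π x₀)
        + 2 * M * mv μ π (Far.indicator fun _ => 1) K (π x₀) := by
    rw [e1, e2]
    refine (abs_integral_le_integral_abs).trans ?_
    refine integral_mono_ae ?_ ?_ ?_
    · have : Integrable (fun x => K (π x₀ - π x) * (g α x₀ - g α x)) μ := by
        have := (i1.const_mul (g α x₀)).sub i2
        refine this.congr (Filter.Eventually.of_forall fun x => ?_)
        simp only [Pi.sub_apply]
        ring
      exact this.abs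
    · have := (i1.const_mul σ).add (i3.const_mul (2 * M))
      refine this.congr (Filter.Eventually.of_forall fun x => ?_)
      simp only [Pi.add_apply]
      ring
    · filter_upwards [hG] with x hx
      rw [abs_mul, abs_of_nonneg (hK.nonneg _)]
      by_cases hk : K (π x₀ - π x) = 0
      · rw [hk, zero_mul, zero_mul]
      · refine mul_le_mul_of_nonneg_left ?_ (hK.nonneg _)
        have hs : ‖π x₀ - π x‖ < s := by
          by_contra hc'
          exact hk (hK.supp _ (not_lt.1 hc'))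
        by_cases hxF : x ∈ Far
        · rw [Set.indicator_of_mem hxF]
          have h2 := hbd x₀ hx₀ α
          have h3 := hbd x hx α
          have h4 := abs_sub (g α x₀) (g α x)
          linarith
        · rw [Set.indicator_of_notMem hxF]
          have := hosc x₀ hx₀ x hx hx₀F hxF hs α
          linarith
  rw [abs_of_nonneg hf0]
  have h2 : |g α x₀| * mv μ π (fun _ => 1) K (π x₀)
      = |g α x₀ * mv μ π (fun _ => 1) K (π x₀)| := by
    rw [abs_mul, abs_of_nonneg hmm0]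
  rw [h2]
  have h3 := abs_sub_abs_le_abs_sub (g α x₀ * mv μ π (fun _ => 1) K (π x₀))
    (mv μ π (g α) K (π x₀))
  linarith

/-- leaf L-Fit-FailQ-O2 (Tonelli).  `‖f y‖ₑ ≤ ∫⁻ ‖K (y - π x)‖ₑ 1_Far(x) dμ`; swap; for fixed `x`:
`∫⁻_{y ∈ B_R} ‖K (y - π x)‖ₑ ≤ 1_{π x ∈ B_{2R}}` (`K (y - π x) = 0` if `‖y - π x‖ ≥ s`, `MolK.lintegral_enorm`, `lintegral_sub_right_eq_self`). -/
theorem lintegral_far_le (hπ : Measurable π) (hFar : MeasurableSet Far) (hK : MolK K s)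
    (hs : s ≤ R) :
    ∫⁻ y in Metric.ball y₀ R, ‖mv μ π (Far.indicator fun _ => 1) K y‖ₑ
      ≤ μ (Far ∩ π ⁻¹' Metric.ball y₀ (2 * R)) := by
  have hKm : Measurable K := hK.continuous.measurable
  have hmeas : Measurable (Function.uncurry fun (y : E m) (x : 𝒳) =>
      ‖K (y - π x)‖ₑ * Far.indicator (fun _ => (1 : ℝ≥0∞)) x) := by
    refine Measurable.mul ?_ ?_
    · exact (hKm.comp (measurable_fst.sub (hπ.comp measurable_snd))).enorm
    · exact (measurable_const.indicator hFar).comp measurable_snd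
  calc ∫⁻ y in Metric.ball y₀ R, ‖mv μ π (Far.indicator fun _ => 1) K y‖ₑ
      ≤ ∫⁻ y in Metric.ball y₀ R,
          (∫⁻ x, ‖K (y - π x)‖ₑ * Far.indicator (fun _ => (1 : ℝ≥0∞)) x ∂μ) := by
        refine lintegral_mono fun y => ?_
        unfold mv
        refine (enorm_integral_le_lintegral_enorm _).trans (le_of_eq ?_)
        refine lintegral_congr fun x => ?_
        rw [enorm_mul]
        congr 1
        by_cases hx : x ∈ Far
        · simp [Set.indicator_of_mem hx]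
        · simp [Set.indicator_of_notMem hx]
    _ = ∫⁻ x, (∫⁻ y in Metric.ball y₀ R,
          ‖K (y - π x)‖ₑ * Far.indicator (fun _ => (1 : ℝ≥0∞)) x) ∂μ :=
        lintegral_lintegral_swap hmeas.aemeasurable
    _ ≤ ∫⁻ x, (Far ∩ π ⁻¹' Metric.ball y₀ (2 * R)).indicator (fun _ => (1 : ℝ≥0∞)) x ∂μ := by
        refine lintegral_mono fun x => ?_
        by_cases hx : x ∈ Far ∩ π ⁻¹' Metric.ball y₀ (2 * R)
        · rw [Set.indicator_of_mem hx, Set.indicator_of_mem hx.1]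
          simp only [mul_one]
          calc ∫⁻ y in Metric.ball y₀ R, ‖K (y - π x)‖ₑ ≤ ∫⁻ y, ‖K (y - π x)‖ₑ :=
                setLIntegral_le_lintegral _ _
            _ = ∫⁻ y, ‖K y‖ₑ := lintegral_sub_right_eq_self (fun y => ‖K y‖ₑ) (π x)
            _ = 1 := hK.lintegral_enorm
        · rw [Set.indicator_of_notMem hx]
          by_cases hxF : x ∈ Far
          · have hx2 : π x ∉ Metric.ball y₀ (2 * R) := fun h => hx ⟨hxF, h⟩
            rw [Metric.mem_ball, not_lt, dist_eq_norm] at hx2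
            refine le_of_eq ?_
            rw [setLIntegral_congr_fun (g := fun _ => 0) Metric.isOpen_ball.measurableSet]
            · simp
            · intro y hy
              rw [Metric.mem_ball, dist_eq_norm] at hy
              have h1 : s ≤ ‖y - π x‖ := by
                have h2 : ‖π x - y₀‖ ≤ ‖y - π x‖ + ‖y - y₀‖ := by
                  have : π x - y₀ = (y - y₀) - (y - π x) := by abel
                  rw [this]
                  exact (norm_sub_le _ _).trans (by rw [add_comm])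
                linarith
              simp only
              rw [hK.supp _ h1]
              simp
          · rw [Set.indicator_of_notMem hxF]
            simp
    _ = μ (Far ∩ π ⁻¹' Metric.ball y₀ (2 * R)) :=
        lintegral_indicator_one (hFar.inter (hπ Metric.isOpen_ball.measurableSet))

/-- leaf L-Fit-FailQ-O3 (Markov).  `mv_continuous`; `BadSet ⊆ ⋃ α, {y ∈ B_R | θ₁ < |V α y|} ∪ {y ∈ B_R | θ₂ < |f y|}`;
`meas_ge_le_lintegral_div` / `mul_meas_ge_le_lintegral₀` on `volume.restrict (ball y₀ R)`. -/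
theorem badSet_facts (hπ : Measurable π) (hg : ∀ α, Integrable (g α) μ)
    (hFar : MeasurableSet Far) (hK : MolK K s) (hθ₁ : 0 < θ₁) (hθ₂ : 0 < θ₂) (hI : 0 ≤ I)
    (hF : 0 ≤ F)
    (hIb : ∀ α, ∫⁻ y in Metric.ball y₀ R, ‖mv μ π (g α) K y‖ₑ ≤ ENNReal.ofReal I)
    (hFb : ∫⁻ y in Metric.ball y₀ R, ‖mv μ π (Far.indicator fun _ => 1) K y‖ₑ
      ≤ ENNReal.ofReal F) :
    MeasurableSet (BadSet μ π g Far K y₀ R θ₁ θ₂) ∧
      volume (BadSet μ π g Far K y₀ R θ₁ θ₂) ≤ ENNReal.ofReal (n * I / θ₁ + F / θ₂) := by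
  have hcV : ∀ α, Continuous (mv μ π (g α) K) := fun α =>
    mv_continuous hπ (hg α) hK.continuous hK.hasCompactSupport
  have hFi : Integrable (Far.indicator fun _ => (1 : ℝ)) μ :=
    (integrable_const (1 : ℝ)).indicator hFar
  have hcf : Continuous (mv μ π (Far.indicator fun _ => 1) K) :=
    mv_continuous hπ hFi hK.continuous hK.hasCompactSupport
  have hmark : ∀ (V : E m → ℝ) (θ J : ℝ), Continuous V → 0 < θ → 0 ≤ J →
      ∫⁻ y in Metric.ball y₀ R, ‖V y‖ₑ ≤ ENNReal.ofReal J →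
      volume {y | y ∈ Metric.ball y₀ R ∧ θ < |V y|} ≤ ENNReal.ofReal (J / θ) := by
    intro V θ J hV hθ hJ hb
    have h1 := meas_ge_le_lintegral_div (μ := volume.restrict (Metric.ball y₀ R))
      (f := fun y => ‖V y‖ₑ) hV.enorm.measurable.aemeasurable
      (ε := ENNReal.ofReal θ) (by simpa using hθ) ENNReal.ofReal_ne_top
    have hms : MeasurableSet {y | ENNReal.ofReal θ ≤ ‖V y‖ₑ} :=
      measurableSet_le measurable_const hV.enorm.measurable
    rw [Measure.restrict_apply hms] at h1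
    calc volume {y | y ∈ Metric.ball y₀ R ∧ θ < |V y|}
        ≤ volume ({y | ENNReal.ofReal θ ≤ ‖V y‖ₑ} ∩ Metric.ball y₀ R) := by
          refine measure_mono fun y hy => ⟨?_, hy.1⟩
          change ENNReal.ofReal θ ≤ ‖V y‖ₑ
          rw [← ofReal_norm, Real.norm_eq_abs]
          exact ENNReal.ofReal_le_ofReal hy.2.le
      _ ≤ (∫⁻ y in Metric.ball y₀ R, ‖V y‖ₑ) / ENNReal.ofReal θ := h1
      _ ≤ ENNReal.ofReal J / ENNReal.ofReal θ := by gcongr
      _ = ENNReal.ofReal (J / θ) := (ENNReal.ofReal_div_of_pos hθ).symm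
  have hset : BadSet μ π g Far K y₀ R θ₁ θ₂
      = (⋃ α, {y | y ∈ Metric.ball y₀ R ∧ θ₁ < |mv μ π (g α) K y|})
        ∪ {y | y ∈ Metric.ball y₀ R ∧ θ₂ < |mv μ π (Far.indicator fun _ => 1) K y|} := by
    ext y
    simp only [BadSet, Set.mem_ofPred_eq, Set.mem_union, Set.mem_iUnion]
    constructor
    · rintro ⟨hy, ⟨α, hα⟩ | h⟩
      · exact Or.inl ⟨α, hy, hα⟩
      · exact Or.inr ⟨hy, h⟩
    · rintro (⟨α, hy, hα⟩ | ⟨hy, h⟩)
      · exact ⟨hy, Or.inl ⟨α, hα⟩⟩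
      · exact ⟨hy, Or.inr h⟩
  have hopen : ∀ (V : E m → ℝ) (θ : ℝ), Continuous V →
      MeasurableSet {y | y ∈ Metric.ball y₀ R ∧ θ < |V y|} := fun V θ hV =>
    (Metric.isOpen_ball.inter (isOpen_lt continuous_const hV.abs)).measurableSet
  rw [hset]
  refine ⟨(MeasurableSet.iUnion fun α => hopen _ _ (hcV α)).union (hopen _ _ hcf), ?_⟩
  calc volume ((⋃ α, {y | y ∈ Metric.ball y₀ R ∧ θ₁ < |mv μ π (g α) K y|})
        ∪ {y | y ∈ Metric.ball y₀ R ∧ θ₂ < |mv μ π (Far.indicator fun _ => 1) K y|})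
      ≤ volume (⋃ α, {y | y ∈ Metric.ball y₀ R ∧ θ₁ < |mv μ π (g α) K y|})
        + volume {y | y ∈ Metric.ball y₀ R ∧ θ₂ < |mv μ π (Far.indicator fun _ => 1) K y|} :=
        measure_union_le _ _
    _ ≤ (∑ α : Fin n, volume {y | y ∈ Metric.ball y₀ R ∧ θ₁ < |mv μ π (g α) K y|})
        + volume {y | y ∈ Metric.ball y₀ R ∧ θ₂ < |mv μ π (Far.indicator fun _ => 1) K y|} := by
        gcongr
        exact measure_iUnion_fintype_le _ _
    _ ≤ (∑ _α : Fin n, ENNReal.ofReal (I / θ₁)) + ENNReal.ofReal (F / θ₂) := by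
        gcongr with α
        · exact hmark _ _ _ (hcV α) hθ₁ hI (hIb α)
        · exact hmark _ _ _ hcf hθ₂ hF hFb
    _ = ENNReal.ofReal (n * I / θ₁ + F / θ₂) := by
        rw [ENNReal.ofReal_add (by positivity) (by positivity), Finset.sum_const, Finset.card_univ,
          Fintype.card_fin, nsmul_eq_mul, mul_div_assoc, ENNReal.ofReal_mul (Nat.cast_nonneg _),
          ENNReal.ofReal_natCast]

/-- leaf L-Fit-FailQ-O4.  Pointwise a.e. on `S`: `∑ g_α² ≤ n M² (1_{A₁} + 1_{A₂}) + n t²`; integrate. -/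
theorem osc_integrate (hg : ∀ α, AEStronglyMeasurable (g α) μ) (hG : ∀ᵐ x ∂μ, x ∈ G)
    {S A₁ A₂ : Set 𝒳} (hS : MeasurableSet S) (hA₁ : MeasurableSet A₁) (hA₂ : MeasurableSet A₂)
    {t a₁ a₂ : ℝ} (hM : 0 ≤ M) (ht : 0 ≤ t) (ha₁ : 0 ≤ a₁) (ha₂ : 0 ≤ a₂)
    (hbd : ∀ x ∈ G, ∀ α, |g α x| ≤ M)
    (hsm : ∀ x ∈ G, x ∈ S → x ∉ A₁ → x ∉ A₂ → ∀ α, |g α x| ≤ t)
    (h₁ : μ A₁ ≤ ENNReal.ofReal a₁) (h₂ : μ A₂ ≤ ENNReal.ofReal a₂) :
    ∫ x in S, ∑ α, g α x ^ 2 ∂μ ≤ n * M ^ 2 * (a₁ + a₂) + n * t ^ 2 * μ.real Set.univ := by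
  set H : 𝒳 → ℝ := fun x => n * M ^ 2 * (A₁.indicator (fun _ => (1 : ℝ)) x
    + A₂.indicator (fun _ => (1 : ℝ)) x) + n * t ^ 2 with hH
  have hi₁ : Integrable (A₁.indicator fun _ => (1 : ℝ)) μ := (integrable_const (1 : ℝ)).indicator hA₁
  have hi₂ : Integrable (A₂.indicator fun _ => (1 : ℝ)) μ := (integrable_const (1 : ℝ)).indicator hA₂
  have hHi : Integrable H μ := ((hi₁.add hi₂).const_mul _).add (integrable_const _)
  have hind : ∀ (A : Set 𝒳) (x : 𝒳), 0 ≤ A.indicator (fun _ => (1 : ℝ)) x := fun A x =>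
    Set.indicator_nonneg (fun _ _ => zero_le_one) x
  have hH0 : ∀ x, 0 ≤ H x := fun x => by
    have := hind A₁ x
    have := hind A₂ x
    positivity
  have hpt : ∀ x ∈ G, x ∈ S → ∑ α, g α x ^ 2 ≤ H x := by
    intro x hx hxS
    by_cases hA : x ∉ A₁ ∧ x ∉ A₂
    · have h1 : ∑ α, g α x ^ 2 ≤ ∑ _α : Fin n, t ^ 2 := Finset.sum_le_sum fun α _ => by
        rw [← sq_abs]
        exact pow_le_pow_left₀ (abs_nonneg _) (hsm x hx hxS hA.1 hA.2 α) 2
      rw [Finset.sum_const, Finset.card_univ, Fintype.card_fin, nsmul_eq_mul] at h1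
      have h2 : 0 ≤ n * M ^ 2 * (A₁.indicator (fun _ => (1 : ℝ)) x
          + A₂.indicator (fun _ => (1 : ℝ)) x) := by
        have := hind A₁ x
        have := hind A₂ x
        positivity
      simp only [hH]
      linarith
    · have h1 : ∑ α, g α x ^ 2 ≤ ∑ _α : Fin n, M ^ 2 := Finset.sum_le_sum fun α _ => by
        rw [← sq_abs]
        exact pow_le_pow_left₀ (abs_nonneg _) (hbd x hx α) 2
      rw [Finset.sum_const, Finset.card_univ, Fintype.card_fin, nsmul_eq_mul] at h1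
      have h2 : 1 ≤ A₁.indicator (fun _ => (1 : ℝ)) x + A₂.indicator (fun _ => (1 : ℝ)) x := by
        by_cases h : x ∈ A₁
        · rw [Set.indicator_of_mem h]
          linarith [hind A₂ x]
        · have h' : x ∈ A₂ := by
            by_contra h'
            exact hA ⟨h, h'⟩
          rw [Set.indicator_of_mem h']
          linarith [hind A₁ x]
      have h3 : (n : ℝ) * M ^ 2 * 1 ≤ n * M ^ 2 * (A₁.indicator (fun _ => (1 : ℝ)) x
          + A₂.indicator (fun _ => (1 : ℝ)) x) :=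
        mul_le_mul_of_nonneg_left h2 (by positivity)
      have h4 : 0 ≤ (n : ℝ) * t ^ 2 := by positivity
      simp only [hH]
      linarith
  have s1 : ∫ x in S, ∑ α, g α x ^ 2 ∂μ ≤ ∫ x in S, H x ∂μ := by
    refine integral_mono_of_nonneg (Filter.Eventually.of_forall fun x =>
      Finset.sum_nonneg fun α _ => sq_nonneg _) hHi.integrableOn ?_
    rw [Filter.EventuallyLE, ae_restrict_iff' hS]
    exact hG.mono fun x hx hxS => hpt x hx hxS
  have s2 : ∫ x in S, H x ∂μ ≤ ∫ x, H x ∂μ :=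
    setIntegral_le_integral hHi (Filter.Eventually.of_forall hH0)
  have s3 : ∫ x, H x ∂μ = n * M ^ 2 * (μ.real A₁ + μ.real A₂) + n * t ^ 2 * μ.real Set.univ := by
    have hsum : Integrable (fun x => A₁.indicator (fun _ => (1 : ℝ)) x
        + A₂.indicator (fun _ => (1 : ℝ)) x) μ := hi₁.add hi₂
    have hc : Integrable (fun x => n * M ^ 2 * (A₁.indicator (fun _ => (1 : ℝ)) x
        + A₂.indicator (fun _ => (1 : ℝ)) x)) μ := hsum.const_mul _
    have e₁ : ∫ x, A₁.indicator (fun _ => (1 : ℝ)) x ∂μ = μ.real A₁ := integral_indicator_one hA₁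
    have e₂ : ∫ x, A₂.indicator (fun _ => (1 : ℝ)) x ∂μ = μ.real A₂ := integral_indicator_one hA₂
    simp only [hH]
    rw [integral_add hc (integrable_const _), integral_const_mul, integral_add hi₁ hi₂, e₁, e₂,
      integral_const, smul_eq_mul]
    ring
  have r₁ : μ.real A₁ ≤ a₁ := ENNReal.toReal_le_of_le_ofReal ha₁ h₁
  have r₂ : μ.real A₂ ≤ a₂ := ENNReal.toReal_le_of_le_ofReal ha₂ h₂
  have s4 : (n : ℝ) * M ^ 2 * (μ.real A₁ + μ.real A₂) ≤ n * M ^ 2 * (a₁ + a₂) :=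
    mul_le_mul_of_nonneg_left (add_le_add r₁ r₂) (by positivity)
  linarith

/-- **the abstract oscillation lemma** -/
theorem osc_small (hπ : Measurable π) (hg : ∀ α, AEStronglyMeasurable (g α) μ)
    (hFar : MeasurableSet Far) (hG : ∀ᵐ x ∂μ, x ∈ G) (hK : MolK K s) (hs : s ≤ R) (hR : 0 < R)
    (hM : 0 ≤ M) (hσ : 0 ≤ σ) (hcm : 0 < cm) (hθ₁ : 0 < θ₁) (hθ₂ : 0 < θ₂) (hD : 0 ≤ D)
    (hM₂ : 0 ≤ M₂) (hI : 0 ≤ I) (hF : 0 ≤ F)
    (hbd : ∀ x ∈ G, ∀ α, |g α x| ≤ M)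
    (hosc : ∀ x ∈ G, ∀ x' ∈ G, x ∉ Far → x' ∉ Far → ‖π x - π x'‖ < s →
      ∀ α, |g α x - g α x'| ≤ σ)
    (hlow : ∀ x ∈ G, π x ∈ Metric.ball y₀ R → cm ≤ mv μ π (fun _ => 1) K (π x))
    (hdens : ∀ A : Set (E m), MeasurableSet A → A ⊆ Metric.ball y₀ R →
      μ (π ⁻¹' A) ≤ ENNReal.ofReal D * volume A + ENNReal.ofReal M₂)
    (hIb : ∀ α, ∫⁻ y in Metric.ball y₀ R, ‖mv μ π (g α) K y‖ₑ ≤ ENNReal.ofReal I)
    (hFb : μ (Far ∩ π ⁻¹' Metric.ball y₀ (2 * R)) ≤ ENNReal.ofReal F) :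
    ∫ x in π ⁻¹' Metric.ball y₀ R, ∑ α, g α x ^ 2 ∂μ
      ≤ n * M ^ 2 * (F + (D * (n * I / θ₁ + F / θ₂) + M₂))
        + n * ((θ₁ + 2 * M * θ₂) / cm + σ) ^ 2 * μ.real Set.univ := by
  have hgi : ∀ α, Integrable (g α) μ := fun α =>
    Integrable.of_bound (hg α) M (hG.mono fun x hx => hbd x hx α)
  obtain ⟨hBm, hBv⟩ := badSet_facts (y₀ := y₀) (R := R) hπ hgi hFar hK hθ₁ hθ₂ hI hF hIb
    ((lintegral_far_le hπ hFar hK hs).trans hFb)
  set Bad := BadSet μ π g Far K y₀ R θ₁ θ₂ with hBad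
  have hBsub : Bad ⊆ Metric.ball y₀ R := fun y hy => hy.1
  have hV0 : 0 ≤ n * I / θ₁ + F / θ₂ := by positivity
  have h2 : μ (π ⁻¹' Bad) ≤ ENNReal.ofReal (D * (n * I / θ₁ + F / θ₂) + M₂) := by
    refine (hdens Bad hBm hBsub).trans ?_
    rw [ENNReal.ofReal_add (by positivity) hM₂, ENNReal.ofReal_mul hD]
    gcongr
  have h1 : μ (Far ∩ π ⁻¹' Metric.ball y₀ R) ≤ ENNReal.ofReal F :=
    (measure_mono (Set.inter_subset_inter_right _ (Set.preimage_mono
      (Metric.ball_subset_ball (by linarith))))).trans hFb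
  refine osc_integrate hg hG (hπ Metric.isOpen_ball.measurableSet)
    (hFar.inter (hπ Metric.isOpen_ball.measurableSet)) (hπ hBm) hM (by positivity) hF
    (by positivity) hbd (fun x hx hxS hx1 hx2 α => ?_) h1 h2
  have hxF : x ∉ Far := fun h => hx1 ⟨h, hxS⟩
  have hp := osc_point hπ hg hFar hG hK hM hσ hbd hosc hx hxF α
  have hl := hlow x hx hxS
  have hb : ¬ ((∃ α, θ₁ < |mv μ π (g α) K (π x)|) ∨
      θ₂ < |mv μ π (Far.indicator fun _ => 1) K (π x)|) := fun h => hx2 ⟨hxS, h⟩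
  rw [not_or, not_exists, not_lt] at hb
  have hb1 := not_lt.1 (hb.1 α)
  have hb2 := hb.2
  set mm := mv μ π (fun _ => 1) K (π x) with hmm
  have hmm0 : 0 < mm := hcm.trans_le hl
  have h3 : |g α x| * mm ≤ (θ₁ + 2 * M * θ₂) + σ * mm := by
    have : 2 * M * |mv μ π (Far.indicator fun _ => 1) K (π x)| ≤ 2 * M * θ₂ := by gcongr
    linarith
  have h4 : |g α x| ≤ (θ₁ + 2 * M * θ₂) / mm + σ := by
    rw [← sub_le_iff_le_add, le_div_iff₀ hmm0]
    linarith
  refine h4.trans ?_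
  gcongr

end Claimed.Agent.R322.Fit
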