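import Claimed.Agent.R322.Lin.QGrad
import Claimed.Agent.R322.Fit.Fail.Defs

/-!
# AE Lemma 7.2 (Q), step (1): the first variation with `Y = ⟨z, w⟩ J_z (φ ∂_j)`   (helper224)

Pointwise estimate `VK.var_err` and its integrated form `first_var`:
`|∫ ⟨z,w⟩ ∂_jφ(π) dμ| ≤ ∫ (|φ(π)| C₁ (√e + e + ε a) + |Dφ(π)| C₁ a e) dμ`.
-/

set_option autoImplicit false

open scoped ENNReal ContDiff Topology
open MeasureTheory

namespace Claimed.Agent.R322.Fit

open Claimed.Agent.R322.Tube Claimed.Agent.R322.Fn Claimed.Agent.R322.Lin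

local notation "adj" => ContinuousLinearMap.adjoint
local notation "𝟙" => ContinuousLinearMap.id ℝ _

variable {m n : ℕ}

/-- the chart field `φ ∂_j` -/
noncomputable def qfld (φ : E m → ℝ) (j : Fin m) (y : E m) : E m :=
  φ y • EuclideanSpace.single j (1 : ℝ)

section Fld

variable {φ : E m → ℝ} {j : Fin m}

theorem contDiff_qfld {k : ℕ∞ω} (hφ : ContDiff ℝ k φ) : ContDiff ℝ k (qfld φ j) :=
  hφ.smul contDiff_const

theorem hasFDerivAt_qfld {y : E m} (hφ : DifferentiableAt ℝ φ y) :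
    HasFDerivAt (qfld φ j) ((fderiv ℝ φ y).smulRight (EuclideanSpace.single j (1 : ℝ))) y :=
  hφ.hasFDerivAt.smul_const _

theorem norm_qfld (y : E m) : ‖qfld φ j y‖ = |φ y| := by
  unfold qfld
  rw [norm_smul, PiLp.norm_single, norm_one, mul_one, Real.norm_eq_abs]

theorem norm_fderiv_qfld {y : E m} (hφ : DifferentiableAt ℝ φ y) :
    ‖fderiv ℝ (qfld φ j) y‖ = ‖fderiv ℝ φ y‖ := by
  rw [(hasFDerivAt_qfld hφ).fderiv, ContinuousLinearMap.norm_smulRight_apply,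
    PiLp.norm_single, norm_one, mul_one]

theorem trc_fderiv_qfld {y : E m} (hφ : DifferentiableAt ℝ φ y) :
    trc (fderiv ℝ (qfld φ j) y) = fderiv ℝ φ y (EuclideanSpace.single j (1 : ℝ)) := by
  rw [(hasFDerivAt_qfld hφ).fderiv]
  have h := tdiv_smulRight (𝟙 : E m →L[ℝ] E m) (fderiv ℝ φ y) (EuclideanSpace.single j (1 : ℝ))
  unfold tdiv at h
  rw [ContinuousLinearMap.id_comp] at h
  exact h

end Fld

section Pt

variable {N : NCyl m n} {κ Cg : ℝ}

/-- the divergence of `⟨z, w⟩ J_z Y` -/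
theorem tdiv_inner_lift (v : VK N κ Cg) {Xc : E m → E m} (hXc : ContDiff ℝ 1 Xc) {X : E (m + n)}
    (hX : X ∈ Cyl N.u N.Ω N.h) (w : E (m + n)) (P : E (m + n) →L[ℝ] E (m + n)) :
    tdiv P (fderiv ℝ (fun X => (inner ℝ (zz N.u X) w : ℝ) • lift N.u Xc X) X)
      = inner ℝ (zz N.u X) w * tdiv P (fderiv ℝ (lift N.u Xc) X)
        + inner ℝ (fderiv ℝ (zz N.u) X (P (lift N.u Xc X))) w := by
  have hL : DifferentiableAt ℝ (lift N.u Xc) X :=
    ((lk_contDiffOn_lift v.geo.c3 hXc (v.c3_npr.of_le (by norm_num))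
      (v.c3_zz.of_le (by norm_num))).contDiffAt (v.isOpen.mem_nhds hX)).differentiableAt
      (by norm_num)
  have hi : HasFDerivAt (fun X => (inner ℝ (zz N.u X) w : ℝ))
      ((innerSL ℝ w) ∘L fderiv ℝ (zz N.u) X) X := by
    have h1 := ((innerSL ℝ w).hasFDerivAt (x := zz N.u X)).comp X (v.diffAt_zz hX).hasFDerivAt
    refine h1.congr_of_eventuallyEq (Filter.Eventually.of_forall fun Y => ?_)
    simp only [Function.comp_apply, innerSL_apply_apply]
    exact real_inner_comm _ _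
  rw [tdiv_fderiv_smul P hi.differentiableAt hL, hi.fderiv, ContinuousLinearMap.comp_apply,
    innerSL_apply_apply]
  congr 1
  exact real_inner_comm _ _

/-- `Dz (P_T J_z T)` is small for a tangent vector `T` of the reference graph -/
theorem norm_dzz_P_Jz_le (v : VK N κ Cg) {X : E (m + n)} (hX : X ∈ Cyl N.u N.Ω N.h)
    {P : E (m + n) →L[ℝ] E (m + n)} (hP : IsProj m P) {T : E (m + n)}
    (hT : Ph N.u (npr N.u X) T = T) :
    ‖fderiv ℝ (zz N.u) X (P (Jz N.u X T))‖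
      ≤ (Real.sqrt (tilt N.u P X) + 9 / 2 * κ * ‖zz N.u X‖) * (3 / 2 * ‖T‖) := by
  set y := npr N.u X with hy
  set z := zz N.u X with hz
  have hS := v.norm_Shp_half hX
  have hSn := v.geo.norm_Shp_le y z
  set L := Jz N.u X T with hLdef
  have hL1 : Ph N.u y L = L := by
    have := congrArg (fun A : E (m + n) →L[ℝ] E (m + n) => A T)
      (Ph_comp_Jw (y := y) (w := z) v.geo.c2)
    simp only [ContinuousLinearMap.comp_apply, hT] at this
    exact this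
  have hL2 : ‖L‖ ≤ 3 / 2 * ‖T‖ := by
    have e : L = T - Shp N.u y z T := by
      rw [hLdef]; unfold Jz; rw [_root_.sub_apply]; rfl
    rw [e]
    refine (norm_sub_le _ _).trans ?_
    have := (Shp N.u y z).le_opNorm T
    nlinarith [norm_nonneg T]
  have e1 : fderiv ℝ (zz N.u) X (P L)
      = Pvh N.u P X L - Shp N.u y z (Kw N.u y z (Ph N.u y (P L))) := by
    have hK : Kw N.u y z (Ph N.u y (P L))
        = Ph N.u y (P L) + Shp N.u y z (Kw N.u y z (Ph N.u y (P L))) :=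
      congrArg (fun A : E (m + n) →L[ℝ] E (m + n) => A (Ph N.u y (P L))) (Kw_eq_add hS)
    have e2 : Pvh N.u P X L = P L - Ph N.u y (P L) := by
      unfold Pvh Pv
      simp only [ContinuousLinearMap.comp_apply, _root_.sub_apply, ContinuousLinearMap.id_apply]
      rw [← hy, hL1]
    have e3 : fderiv ℝ (zz N.u) X (P L) = P L - Kw N.u y z (Ph N.u y (P L)) := by
      rw [v.d_zz X hX, Kz_eq]
      rfl
    rw [e3, e2]
    conv_lhs => rw [hK]
    abel
  rw [e1]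
  refine (norm_sub_le _ _).trans ?_
  have h1 : ‖Pvh N.u P X L‖ ≤ Real.sqrt (tilt N.u P X) * ‖L‖ :=
    ((Pvh N.u P X).le_opNorm L).trans
      (mul_le_mul_of_nonneg_right (norm_Pvh_le N.u X hP) (norm_nonneg _))
  have h2 : ‖Shp N.u y z (Kw N.u y z (Ph N.u y (P L)))‖ ≤ (9 / 4 * κ * ‖z‖) * (2 * ‖L‖) := by
    refine ((Shp N.u y z).le_opNorm _).trans (mul_le_mul hSn ?_ (norm_nonneg _)
      ((norm_nonneg _).trans hSn))
    refine ((Kw N.u y z).le_opNorm _).trans (mul_le_mul (norm_Kw_le hS) ?_ (norm_nonneg _)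
      (by norm_num))
    exact (norm_Ph_apply_le _ _ _).trans (hP.norm_apply_le _)
  have hκ := v.geo.nonneg
  have hs := Real.sqrt_nonneg (tilt N.u P X)
  have h3 : (Real.sqrt (tilt N.u P X) + 9 / 2 * κ * ‖z‖) * ‖L‖
      ≤ (Real.sqrt (tilt N.u P X) + 9 / 2 * κ * ‖z‖) * (3 / 2 * ‖T‖) :=
    mul_le_mul_of_nonneg_left hL2 (by positivity)
  linarith

/-- the pointwise error of the first variation with the multiplier `⟨z, w⟩` -/
theorem var_err (v : VK N κ Cg) {φ : E m → ℝ} (hφ : ContDiff ℝ 1 φ) (j : Fin m) (w : E (m + n))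
    {X : E (m + n)} (hX : X ∈ Cyl N.u N.Ω N.h) {P : E (m + n) →L[ℝ] E (m + n)}
    (hP : IsProj m P) :
    |inner ℝ (zz N.u X) w * fderiv ℝ φ (npr N.u X) (EuclideanSpace.single j 1)
        - tdiv P (fderiv ℝ (fun X => (inner ℝ (zz N.u X) w : ℝ) • lift N.u (qfld φ j) X) X)|
      ≤ (‖zz N.u X‖ * (|fderiv ℝ (fun y' => Real.log (vdens (fderiv ℝ N.u y'))) (npr N.u X)
            (qfld φ j (npr N.u X))|
          + tilt N.u P X * ‖nabS N.u (qfld φ j) (npr N.u X)‖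
          + Cg * (κ * ‖zz N.u X‖ * tilt N.u P X * ‖nabS N.u (qfld φ j) (npr N.u X)‖
            + (Real.sqrt (DHSsq N.u (npr N.u X)) * ‖zz N.u X‖ + κ ^ 2 * ‖zz N.u X‖ ^ 2
                + κ * tilt N.u P X * ‖zz N.u X‖
                + κ ^ 2 * Real.sqrt (tilt N.u P X) * ‖zz N.u X‖) * ‖qfld φ j (npr N.u X)‖))
        + (Real.sqrt (tilt N.u P X) + 9 / 2 * κ * ‖zz N.u X‖)
            * (3 / 2 * ‖tanF N.u (qfld φ j) (npr N.u X)‖)) * ‖w‖ := by
  set y := npr N.u X with hy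
  set z := zz N.u X with hzz
  have hd : DifferentiableAt ℝ φ y := hφ.differentiable (by simp) y
  have h2 := v.ltrace (qfld φ j) (contDiff_qfld hφ) X hX P hP
  have h3 := abs_trc_Bop_comp_le N.u hP X (nabS N.u (qfld φ j) y)
  have hT : Ph N.u y (tanF N.u (qfld φ j) y) = tanF N.u (qfld φ j) y := PhA_dF _ _
  have h4 := norm_dzz_P_Jz_le v hX hP hT
  have e3 : divS N.u (qfld φ j) y = fderiv ℝ φ y (EuclideanSpace.single j 1)
      + fderiv ℝ (fun y' => Real.log (vdens (fderiv ℝ N.u y'))) y (qfld φ j y) := by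
    unfold divS
    rw [trc_fderiv_qfld hd]
  rw [tdiv_inner_lift v (contDiff_qfld hφ) hX w P]
  have e4 : inner ℝ z w * fderiv ℝ φ y (EuclideanSpace.single j 1)
      - (inner ℝ z w * tdiv P (fderiv ℝ (lift N.u (qfld φ j)) X)
        + inner ℝ (fderiv ℝ (zz N.u) X (P (lift N.u (qfld φ j) X))) w)
      = inner ℝ z w * (-(fderiv ℝ (fun y' => Real.log (vdens (fderiv ℝ N.u y'))) y (qfld φ j y))
          + trc (Bop N.u P X ∘L nabS N.u (qfld φ j) y)
          - (tdiv P (fderiv ℝ (lift N.u (qfld φ j)) X)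
            - (divS N.u (qfld φ j) y - trc (Bop N.u P X ∘L nabS N.u (qfld φ j) y))))
        - inner ℝ (fderiv ℝ (zz N.u) X (P (lift N.u (qfld φ j) X))) w := by
    rw [e3]
    ring
  rw [e4, add_mul]
  refine (abs_sub _ _).trans (add_le_add ?_ ?_)
  · rw [abs_mul, mul_right_comm]
    refine mul_le_mul (abs_real_inner_le_norm _ _) ?_ (abs_nonneg _) (by positivity)
    refine (abs_sub _ _).trans (add_le_add ?_ h2)
    refine (abs_add_le _ _).trans (add_le_add ?_ h3)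
    rw [abs_neg]
  · refine (abs_real_inner_le_norm _ _).trans (mul_le_mul_of_nonneg_right ?_ (norm_nonneg _))
    exact h4

end Pt

/-- the arithmetic of `fq_var` -/
theorem var_arith {e s ζ ε Cg CL ρ x d nb tn D W M : ℝ} (he : 0 ≤ e) (heM : e ≤ M) (hs : 0 ≤ s)
    (hζ0 : 0 ≤ ζ) (hζ : ζ ≤ 2 / 9) (hε0 : 0 ≤ ε) (hε : ε ≤ 1 / 2) (hCg : 0 ≤ Cg) (hCL : 0 ≤ CL)
    (hρ0 : 0 ≤ ρ) (hρ : ρ ≤ CL * ε * x) (hx : 0 ≤ x) (hd : 0 ≤ d) (hnb0 : 0 ≤ nb)
    (hnb : nb ≤ 9 / 4 * d + 3 / 2 * ε * x) (htn0 : 0 ≤ tn) (htn : tn ≤ 3 / 2 * x) (hD0 : 0 ≤ D)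
    (hD : D ≤ ε)
    (hW0 : 0 ≤ W) (hW : W ≤ 1) :
    (ζ * (ρ + e * nb + Cg * (ε * ζ * e * nb
        + (D * ζ + ε ^ 2 * ζ ^ 2 + ε * e * ζ + ε ^ 2 * s * ζ) * x))
      + (s + 9 / 2 * ε * ζ) * (3 / 2 * tn)) * W
      ≤ x * ((CL + 2 * M + Cg * M + 2 * Cg + 11) * (s + ε * ζ))
        + d * ((CL + 2 * M + Cg * M + 2 * Cg + 11) * (ζ * e)) := by
  have hM : 0 ≤ M := he.trans heM
  have hq : 0 ≤ x * (ε * ζ) := by positivity
  have hp : 0 ≤ x * s := by positivity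
  have hr : 0 ≤ d * (ζ * e) := by positivity
  have a1 : ζ * ρ ≤ CL * (x * (ε * ζ)) := by
    calc ζ * ρ ≤ ζ * (CL * ε * x) := mul_le_mul_of_nonneg_left hρ hζ0
      _ = _ := by ring
  have a2 : ζ * (e * nb) ≤ 9 / 4 * (d * (ζ * e)) + 3 / 2 * M * (x * (ε * ζ)) := by
    calc ζ * (e * nb) ≤ ζ * (e * (9 / 4 * d + 3 / 2 * ε * x)) := by gcongr
      _ = 9 / 4 * (d * (ζ * e)) + 3 / 2 * e * (x * (ε * ζ)) := by ring
      _ ≤ _ := by gcongr
  have hεζ : ε * ζ ≤ 1 / 9 := by nlinarith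
  have a3 : ζ * (ε * ζ * e * nb) ≤ 1 / 9 * (ζ * (e * nb)) := by
    calc ζ * (ε * ζ * e * nb) = (ε * ζ) * (ζ * (e * nb)) := by ring
      _ ≤ _ := by gcongr
  have a4 : ζ * (D * ζ * x) ≤ 2 / 9 * (x * (ε * ζ)) := by
    calc ζ * (D * ζ * x) ≤ 2 / 9 * (ε * ζ * x) := by gcongr
      _ = _ := by ring
  have a5 : ζ * (ε ^ 2 * ζ ^ 2 * x) ≤ x * (ε * ζ) := by
    calc ζ * (ε ^ 2 * ζ ^ 2 * x) = (ε * ζ) * ζ * (x * (ε * ζ)) := by ring
      _ ≤ 1 * (x * (ε * ζ)) := by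
          refine mul_le_mul_of_nonneg_right ?_ hq
          nlinarith [mul_nonneg hε0 hζ0]
      _ = _ := one_mul _
  have a6 : ζ * (ε * e * ζ * x) ≤ 2 / 9 * M * (x * (ε * ζ)) := by
    calc ζ * (ε * e * ζ * x) = ζ * e * (x * (ε * ζ)) := by ring
      _ ≤ 2 / 9 * M * (x * (ε * ζ)) := by gcongr
  have a7 : ζ * (ε ^ 2 * s * ζ * x) ≤ x * s := by
    calc ζ * (ε ^ 2 * s * ζ * x) = (ε * ζ) ^ 2 * (x * s) := by ring
      _ ≤ 1 * (x * s) := by
          refine mul_le_mul_of_nonneg_right ?_ hp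
          nlinarith [mul_nonneg hε0 hζ0]
      _ = _ := one_mul _
  have a8 : (s + 9 / 2 * ε * ζ) * (3 / 2 * tn) ≤ 9 / 4 * (x * s) + 81 / 8 * (x * (ε * ζ)) := by
    calc (s + 9 / 2 * ε * ζ) * (3 / 2 * tn) ≤ (s + 9 / 2 * ε * ζ) * (3 / 2 * (3 / 2 * x)) := by
          gcongr
      _ = _ := by ring
  have hA : ζ * (ρ + e * nb + Cg * (ε * ζ * e * nb
        + (D * ζ + ε ^ 2 * ζ ^ 2 + ε * e * ζ + ε ^ 2 * s * ζ) * x))
      + (s + 9 / 2 * ε * ζ) * (3 / 2 * tn)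
      ≤ x * ((CL + 2 * M + Cg * M + 2 * Cg + 11) * (s + ε * ζ))
        + d * ((CL + 2 * M + Cg * M + 2 * Cg + 11) * (ζ * e)) := by
    have b3 := mul_le_mul_of_nonneg_left (a3.trans (mul_le_mul_of_nonneg_left a2
      (by norm_num : (0 : ℝ) ≤ 1 / 9))) hCg
    have b4 := mul_le_mul_of_nonneg_left a4 hCg
    have b5 := mul_le_mul_of_nonneg_left a5 hCg
    have b6 := mul_le_mul_of_nonneg_left a6 hCg
    have b7 := mul_le_mul_of_nonneg_left a7 hCg
    have c1 : 0 ≤ CL * (x * s) := by positivity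
    have c2 : 0 ≤ M * (x * s) := by positivity
    have c3 : 0 ≤ Cg * M * (x * s) := by positivity
    have c4 : 0 ≤ Cg * (x * s) := by positivity
    have c5 : 0 ≤ CL * (d * (ζ * e)) := by positivity
    have c6 : 0 ≤ M * (d * (ζ * e)) := by positivity
    have c7 : 0 ≤ Cg * M * (d * (ζ * e)) := by positivity
    have c8 : 0 ≤ Cg * (d * (ζ * e)) := by positivity
    have c9 : 0 ≤ M * (x * (ε * ζ)) := by positivity
    have c10 : 0 ≤ Cg * M * (x * (ε * ζ)) := by positivity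
    have c11 : 0 ≤ Cg * (x * (ε * ζ)) := by positivity
    nlinarith
  refine (mul_le_of_le_one_right ?_ hW).trans hA
  positivity

end Claimed.Agent.R322.Fit
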