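import Claimed.Agent.R322.Pack050
import Claimed.Agent.R322.Pack049
import Claimed.Agent.R322.Pack047

/-!
# AE Lemma 7.2, part (S): the graph function in the units of `B_ℓ(x)`

`trU x c f y = f (x + y) - c` (translation), `rsc x ℓ f y = ℓ⁻¹ (f (x + ℓ y) - f x) = dilU ℓ⁻¹ (trU x (f x) f) y` (no cutoff), `scl x ℓ f = cut7 • rsc x ℓ f`.
Rules for `fderiv, D2, Ph, Pv, II, HS, DHS, DHSsq`, norms of the iterated derivatives, locality of `HS`, `DHSsq`, and the bounds of `scl` from bounds of `f` on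
`ball x (80 ℓ)` only.
-/

set_option autoImplicit false

open scoped ENNReal ContDiff
open MeasureTheory Filter Topology

namespace Claimed.Agent.R322.Fit

open Claimed.Agent.R322.Tube

variable {m n : ℕ}

/-- translation of the graph function -/
noncomputable def trU (x : E m) (c : E n) (f : E m → E n) (y : E m) : E n := f (x + y) - c

section tr

variable (x : E m) (c : E n) (f : E m → E n)

theorem fderiv_trU : fderiv ℝ (trU x c f) = fun y => fderiv ℝ f (x + y) := by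
  funext y
  unfold trU
  rw [fderiv_sub_const, fderiv_comp_add_left]

theorem D2_trU (y : E m) : D2 (trU x c f) y = D2 f (x + y) := by
  unfold D2
  rw [fderiv_trU, fderiv_comp_add_left]

theorem Ph_trU (y : E m) : Ph (trU x c f) y = Ph f (x + y) := by
  unfold Ph
  rw [fderiv_trU]

theorem Pv_trU (y : E m) : Pv (trU x c f) y = Pv f (x + y) := by
  unfold Pv
  rw [Ph_trU]

theorem II_trU (y a b : E m) : II (trU x c f) y a b = II f (x + y) a b := by
  unfold II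
  rw [Pv_trU, D2_trU]

theorem HS_trU : HS (trU x c f) = fun y => HS f (x + y) := by
  funext y
  unfold HS
  refine Finset.sum_congr rfl fun a _ => ?_
  rw [II_trU, fderiv_trU]

theorem DHS_trU (y a : E m) : DHS (trU x c f) y a = DHS f (x + y) a := by
  unfold DHS
  rw [Pv_trU, HS_trU, fderiv_comp_add_left]

theorem DHSsq_trU (y : E m) : DHSsq (trU x c f) y = DHSsq f (x + y) := by
  unfold DHSsq
  refine Finset.sum_congr rfl fun a _ => ?_
  rw [DHS_trU, DHS_trU, fderiv_trU]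

theorem contDiff_trU {f : E m → E n} {k : WithTop ℕ∞} (hf : ContDiff ℝ k f) : ContDiff ℝ k (trU x c f) :=
  (hf.comp (contDiff_const.add contDiff_id)).sub contDiff_const

theorem iteratedFDeriv_trU {i : ℕ} (hi : 1 ≤ i) (y : E m) :
    iteratedFDeriv ℝ i (trU x c f) y = iteratedFDeriv ℝ i f (x + y) := by
  obtain ⟨k, rfl⟩ : ∃ k, i = k + 1 := ⟨i - 1, by omega⟩
  have e1 : iteratedFDeriv ℝ (k + 1) (trU x c f) = iteratedFDeriv ℝ (k + 1) (fun y => f (x + y)) := by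
    have : fderiv ℝ (trU x c f) = fderiv ℝ (fun y => f (x + y)) := by
      rw [fderiv_trU]
      funext y
      rw [fderiv_comp_add_left]
    funext y
    rw [iteratedFDeriv_succ_eq_comp_right, iteratedFDeriv_succ_eq_comp_right, this]
  rw [e1, iteratedFDeriv_comp_add_left]

end tr

/-- the fit in the units of `B_ℓ(x)`, recentred at `(x, f x)`, NO cutoff -/
noncomputable def rsc (x : E m) (ℓ : ℝ) (f : E m → E n) (y : E m) : E n := ℓ⁻¹ • (f (x + ℓ • y) - f x)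

theorem rsc_eq (x : E m) (ℓ : ℝ) (f : E m → E n) : rsc x ℓ f = dilU ℓ⁻¹ (trU x (f x) f) := by
  funext y
  simp only [rsc, dilU, trU, inv_inv]

theorem contDiff_rsc {f : E m → E n} {k : WithTop ℕ∞} (hf : ContDiff ℝ k f) (x : E m) (ℓ : ℝ) :
    ContDiff ℝ k (rsc x ℓ f) := by
  rw [rsc_eq]
  exact contDiff_dilU (contDiff_trU x _ hf) _

theorem fderiv_rsc (x : E m) {ℓ : ℝ} (hℓ : 0 < ℓ) (f : E m → E n) (y : E m) :
    fderiv ℝ (rsc x ℓ f) y = fderiv ℝ f (x + ℓ • y) := by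
  rw [rsc_eq, fderiv_dilU _ (inv_ne_zero hℓ.ne'), fderiv_trU, inv_inv]

theorem HS_rsc (x : E m) {ℓ : ℝ} (hℓ : 0 < ℓ) (f : E m → E n) (y : E m) :
    HS (rsc x ℓ f) y = ℓ • HS f (x + ℓ • y) := by
  rw [rsc_eq, HS_dilU _ (inv_ne_zero hℓ.ne'), HS_trU, inv_inv]

theorem DHSsq_rsc (x : E m) {ℓ : ℝ} (hℓ : 0 < ℓ) (f : E m → E n) (y : E m) :
    DHSsq (rsc x ℓ f) y = ℓ ^ 4 * DHSsq f (x + ℓ • y) := by
  rw [rsc_eq, DHSsq_dilU _ (inv_ne_zero hℓ.ne'), DHSsq_trU, inv_inv, inv_pow, inv_inv]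

theorem norm_iteratedFDeriv_rsc {f : E m → E n} {J : ℕ} (hf : ContDiff ℝ J f) (x : E m) {ℓ : ℝ}
    (hℓ : 0 < ℓ) {i : ℕ} (hi1 : 1 ≤ i) (hi : i ≤ J) (y : E m) :
    ‖iteratedFDeriv ℝ i (rsc x ℓ f) y‖ = ℓ ^ (i - 1) * ‖iteratedFDeriv ℝ i f (x + ℓ • y)‖ := by
  rw [rsc_eq, norm_iteratedFDeriv_dilU (contDiff_trU x _ hf) (inv_pos.2 hℓ) hi, iteratedFDeriv_trU _ _ _ hi1,
    inv_inv]
  congr 1
  obtain ⟨k, rfl⟩ : ∃ k, i = k + 1 := ⟨i - 1, by omega⟩
  rw [Nat.add_sub_cancel, pow_succ]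
  field_simp

/-! ### locality of the curvature quantities -/

theorem HS_congr {u g : E m → E n} {y : E m} (h : u =ᶠ[𝓝 y] g) : HS u y = HS g y := by
  have h1 : fderiv ℝ u y = fderiv ℝ g y := h.fderiv_eq
  have h2 : D2 u y = D2 g y := h.fderiv.fderiv_eq
  unfold HS II Pv Ph
  rw [h1, h2]

theorem HS_eventuallyEq {u g : E m → E n} {y : E m} (h : u =ᶠ[𝓝 y] g) : HS u =ᶠ[𝓝 y] HS g := by
  filter_upwards [h.eventuallyEq_nhds] with y' hy'
  exact HS_congr hy'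

theorem DHSsq_congr {u g : E m → E n} {y : E m} (h : u =ᶠ[𝓝 y] g) : DHSsq u y = DHSsq g y := by
  have h1 : fderiv ℝ u y = fderiv ℝ g y := h.fderiv_eq
  have h2 : fderiv ℝ (HS u) y = fderiv ℝ (HS g) y := (HS_eventuallyEq h).fderiv_eq
  unfold DHSsq DHS Pv Ph
  rw [h1, h2]

/-! ### the cut off function -/

theorem scl_eq (x : E m) (ℓ : ℝ) (f : E m → E n) : scl x ℓ f = fun y => cut7 m y • rsc x ℓ f y := rfl

theorem scl_eq_rsc (x : E m) (ℓ : ℝ) (f : E m → E n) {y : E m} (hy : ‖y‖ ≤ 76) :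
    scl x ℓ f y = rsc x ℓ f y := by
  rw [scl_eq]
  have : cut7 m y = 1 := (cut7 m).one_of_mem_closedBall (by simpa [cut7] using hy)
  simp only [this, one_smul]

theorem scl_eventuallyEq_rsc (x : E m) (ℓ : ℝ) (f : E m → E n) {y : E m} (hy : ‖y‖ < 76) :
    scl x ℓ f =ᶠ[𝓝 y] rsc x ℓ f := by
  have : Metric.ball (0 : E m) 76 ∈ 𝓝 y := Metric.isOpen_ball.mem_nhds (by simpa using hy)
  filter_upwards [this] with y' hy'
  exact scl_eq_rsc x ℓ f (by simpa using (Metric.mem_ball.1 hy').le)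

theorem scl_curv (x : E m) {ℓ : ℝ} (hℓ : 0 < ℓ) (f : E m → E n) {y : E m} (hy : ‖y‖ < 76) :
    HS (scl x ℓ f) y = ℓ • HS f (x + ℓ • y) ∧ DHSsq (scl x ℓ f) y = ℓ ^ 4 * DHSsq f (x + ℓ • y) := by
  have h := scl_eventuallyEq_rsc x ℓ f hy
  exact ⟨by rw [HS_congr h, HS_rsc x hℓ], by rw [DHSsq_congr h, DHSsq_rsc x hℓ]⟩

theorem contDiff_scl {f : E m → E n} {J : ℕ} (hf : ContDiff ℝ J f) (x : E m) (ℓ : ℝ) :
    ContDiff ℝ J (scl x ℓ f) := by
  rw [scl_eq]
  exact ((cut7 m).contDiff).smul (contDiff_rsc hf x ℓ)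

/-- **leaf L-Fit-Fail-S-G.**  Bounds of ALL orders `0..J` for the cut off function, from bounds of `f` on `ball x (80 ℓ)`.
PLAN.  `Cb = 2^J * Cbump * 80` (`Tool.ci_bump_bound m J (cut7 m)`).  For `‖y‖ < 80`: `ContinuousLinearMap.norm_iteratedFDeriv_le_of_bilinear_of_le_one` / `norm_iteratedFDeriv_smul_le`
(Leibniz), `norm_iteratedFDeriv_rsc` for the orders `≥ 1` (`ℓ^(i-1) ≤ 1`), and `‖rsc y‖ ≤ ℓ⁻¹ κ ‖ℓ y‖ ≤ 80 κ` by the mean value inequality on the convex set `ball x (80 ℓ)`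
(`Convex.norm_image_sub_le_of_norm_fderiv_le`, `norm_fderiv = norm_iteratedFDeriv_one`).  For `80 ≤ ‖y‖`: `scl = 0` near `y`, since `cut7` vanishes outside `ball 0 78`. -/
theorem scl_bound (m n J : ℕ) : ∃ Cb : ℝ, 1 ≤ Cb ∧ ∀ (f : E m → E n) (x : E m) (ℓ κ : ℝ), 0 < ℓ → ℓ ≤ 1 → 1 ≤ J →
    ContDiff ℝ J f → (∀ i : ℕ, i ≤ J → ∀ y ∈ Metric.ball x (80 * ℓ), ‖iteratedFDeriv ℝ i f y‖ ≤ κ) →
    ∀ i : ℕ, i ≤ J → ∀ y, ‖iteratedFDeriv ℝ i (scl x ℓ f) y‖ ≤ Cb * κ := by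
  obtain ⟨C, hC, hCb⟩ := Tool.ci_bump_bound m J (cut7 m)
  refine ⟨2 ^ J * C * 80 + 1, by
    have : 0 ≤ 2 ^ J * C * 80 := by positivity
    linarith, ?_⟩
  intro f x ℓ κ hℓ hℓ1 hJ hf hb i hi y
  have hxb : x ∈ Metric.ball x (80 * ℓ) := Metric.mem_ball_self (by positivity)
  have hκ : 0 ≤ κ := (norm_nonneg _).trans (hb 0 (Nat.zero_le _) x hxb)
  have hfin : 2 ^ J * C * 80 * κ ≤ (2 ^ J * C * 80 + 1) * κ := by nlinarith
  rcases lt_or_ge ‖y‖ 80 with hy | hy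
  · -- inside
    have hyb : x + ℓ • y ∈ Metric.ball x (80 * ℓ) := by
      rw [Metric.mem_ball, dist_eq_norm, add_sub_cancel_left, norm_smul, Real.norm_of_nonneg hℓ.le]
      nlinarith
    have hg : ∀ k : ℕ, k ≤ J → ‖iteratedFDeriv ℝ k (rsc x ℓ f) y‖ ≤ 80 * κ := by
      intro k hk
      rcases Nat.eq_zero_or_pos k with rfl | hk1
      · rw [norm_iteratedFDeriv_zero]
        have hd : ∀ z ∈ Metric.ball x (80 * ℓ), DifferentiableAt ℝ f z := fun z _ =>
          (hf.differentiable (by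
            have : J ≠ 0 := by omega
            exact_mod_cast this)) z
        have hs : ∀ z ∈ Metric.ball x (80 * ℓ), ‖fderiv ℝ f z‖ ≤ κ := fun z hz => by
          rw [← norm_iteratedFDeriv_one]
          exact hb 1 hJ z hz
        have h1 := Convex.norm_image_sub_le_of_norm_fderiv_le hd hs (convex_ball x (80 * ℓ)) hxb hyb
        rw [add_sub_cancel_left, norm_smul, Real.norm_of_nonneg hℓ.le] at h1
        unfold rsc
        rw [norm_smul, Real.norm_of_nonneg (inv_nonneg.2 hℓ.le), inv_mul_le_iff₀ hℓ]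
        have h2 : κ * (ℓ * ‖y‖) ≤ κ * (ℓ * 80) :=
          mul_le_mul_of_nonneg_left (mul_le_mul_of_nonneg_left hy.le hℓ.le) hκ
        linarith
      · rw [norm_iteratedFDeriv_rsc hf x hℓ hk1 hk y]
        have h1 : ℓ ^ (k - 1) ≤ 1 := pow_le_one₀ hℓ.le hℓ1
        have h2 := hb k hk _ hyb
        have h3 : ℓ ^ (k - 1) * ‖iteratedFDeriv ℝ k f (x + ℓ • y)‖ ≤ 1 * κ :=
          mul_le_mul h1 h2 (norm_nonneg _) zero_le_one
        linarith
    rw [scl_eq]
    have hL := norm_iteratedFDeriv_smul_le (𝕜 := ℝ) (N := (J : WithTop ℕ∞)) (f := fun y => cut7 m y)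
      (g := rsc x ℓ f) ((cut7 m).contDiff) (contDiff_rsc hf x ℓ) y (n := i) (by exact_mod_cast hi)
    refine hL.trans (le_trans ?_ hfin)
    have h1 : ∀ k ∈ Finset.range (i + 1), (i.choose k : ℝ) * ‖iteratedFDeriv ℝ k (fun y => cut7 m y) y‖ *
        ‖iteratedFDeriv ℝ (i - k) (rsc x ℓ f) y‖ ≤ (i.choose k : ℝ) * (C * (80 * κ)) := by
      intro k hk
      rw [Finset.mem_range] at hk
      rw [mul_assoc]
      refine mul_le_mul_of_nonneg_left ?_ (Nat.cast_nonneg _)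
      exact mul_le_mul (hCb k (by omega) y) (hg (i - k) (by omega)) (norm_nonneg _) hC.le
    refine (Finset.sum_le_sum h1).trans ?_
    rw [← Finset.sum_mul]
    have h2 : (∑ k ∈ Finset.range (i + 1), (i.choose k : ℝ)) = 2 ^ i := by
      exact_mod_cast Nat.sum_range_choose i
    rw [h2]
    have h3 : (2 : ℝ) ^ i ≤ 2 ^ J := pow_le_pow_right₀ (by norm_num) hi
    have h4 : 0 ≤ C * (80 * κ) := by positivity
    calc (2 : ℝ) ^ i * (C * (80 * κ)) ≤ 2 ^ J * (C * (80 * κ)) := mul_le_mul_of_nonneg_right h3 h4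
      _ = 2 ^ J * C * 80 * κ := by ring
  · -- outside
    have hz : scl x ℓ f =ᶠ[𝓝 y] fun _ => (0 : E n) := by
      have hop : (Metric.closedBall (0 : E m) 78)ᶜ ∈ 𝓝 y := by
        refine Metric.isClosed_closedBall.isOpen_compl.mem_nhds ?_
        rw [Set.mem_compl_iff, Metric.mem_closedBall, dist_zero_right]
        linarith
      filter_upwards [hop] with y' hy'
      rw [Set.mem_compl_iff, Metric.mem_closedBall, dist_zero_right, not_le] at hy'
      have : cut7 m y' = 0 := (cut7 m).zero_of_le_dist (by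
        rw [dist_zero_right]
        exact hy'.le)
      rw [scl_eq]
      simp only [this, zero_smul]
    rw [(Filter.EventuallyEq.iteratedFDeriv (𝕜 := ℝ) hz i).eq_of_nhds]
    have : iteratedFDeriv ℝ i (fun _ : E m => (0 : E n)) y = 0 := by
      have := iteratedFDeriv_fun_zero (𝕜 := ℝ) (E := E m) (F := E n) (n := i)
      exact congrFun this y
    rw [this, norm_zero]
    positivity

end Claimed.Agent.R322.Fit
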