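import Claimed.Agent.R322.Fit.Fail.ScPt

/-!
# AE Lemma 7.2, part (S): change of variables in the first moment (leaf L-Fit-Fail-S-M)
-/

set_option autoImplicit false

open scoped ENNReal ContDiff
open MeasureTheory Filter Topology

namespace Claimed.Agent.R322.Fit

open Claimed.Agent.R322.Tube Claimed.Agent.R322.Freq Claimed.Agent.R322.Lin

variable {m n : ℕ}

/-! ### leaf L-Fit-Fail-S-M : change of variables in the first moment -/

/-- the test function in start units.  (`ContDiff.comp`, `ContinuousLinearMap.iteratedFDeriv_comp_right` as in `Tube.norm_iteratedFDeriv_dilU`, `iteratedFDeriv_comp_sub`;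
`tsupport`: image of a closed set under the homeomorphism `z ↦ ℓ⁻¹ (z - x)`, or `tsupport_comp_subset_preimage`.) -/
theorem eta_scale {η : E m → E n} (hη : ContDiff ℝ ∞ η) (x : E m) {ℓ : ℝ} (hℓ : 0 < ℓ) :
    ContDiff ℝ ∞ (fun z => η (ℓ⁻¹ • (z - x))) ∧
    (∀ r : ℝ, tsupport η ⊆ Metric.ball 0 r → tsupport (fun z => η (ℓ⁻¹ • (z - x))) ⊆ Metric.ball x (r * ℓ)) ∧
    ∀ (i : ℕ) (y : E m), ℓ ^ i * ‖iteratedFDeriv ℝ i (fun z => η (ℓ⁻¹ • (z - x))) y‖
      = ‖iteratedFDeriv ℝ i η (ℓ⁻¹ • (y - x))‖ := by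
  refine ⟨hη.comp ((contDiff_id.sub contDiff_const).const_smul ℓ⁻¹), fun r hr => ?_, fun i y => ?_⟩
  · have hc : Continuous fun z : E m => ℓ⁻¹ • (z - x) := by fun_prop
    intro z hz
    have h1 : ℓ⁻¹ • (z - x) ∈ tsupport η := tsupport_comp_subset_preimage η hc hz
    have h2 := hr h1
    rw [Metric.mem_ball, dist_zero_right, norm_smul, Real.norm_of_nonneg (inv_nonneg.2 hℓ.le),
      inv_mul_lt_iff₀ hℓ] at h2
    rw [Metric.mem_ball, dist_eq_norm]
    linarith
  · have e0 : (fun z => η (ℓ⁻¹ • (z - x)))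
        = fun z => (η ∘ (ℓ⁻¹ • ContinuousLinearMap.id ℝ (E m))) (z - x) := by
      funext z
      simp
    rw [e0, iteratedFDeriv_comp_sub,
      ContinuousLinearMap.iteratedFDeriv_comp_right _ hη _ (by exact_mod_cast le_top)]
    have e2 : (iteratedFDeriv ℝ i η ((ℓ⁻¹ • ContinuousLinearMap.id ℝ (E m)) (y - x))).compContinuousLinearMap
        (fun _ => ℓ⁻¹ • ContinuousLinearMap.id ℝ (E m))
        = (ℓ⁻¹) ^ i • iteratedFDeriv ℝ i η (ℓ⁻¹ • (y - x)) := by
      ext v
      simp only [ContinuousMultilinearMap.compContinuousLinearMap_apply,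
        smul_apply, ContinuousLinearMap.id_apply]
      rw [ContinuousMultilinearMap.map_smul_univ]
      simp
    rw [e2, norm_smul, norm_pow, Real.norm_of_nonneg (inv_nonneg.2 hℓ.le), ← mul_assoc, ← mul_pow,
      mul_inv_cancel₀ hℓ.ne', one_pow, one_mul]

/-- change of variables.  PLAN: `SIV.simil_μ`, `Measure.restrict_smul`, `integral_smul_measure`, `MeasurableEquiv.restrict_map` + `integral_map_equiv` for
`(Base.simHomeo _ _ hℓ).toMeasurableEquiv` (no measurability of the integrand is needed), `vert_sT`, `prH_sT`; then both set integrals are `∫ indicator`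
(`integral_indicator`; `Wk` is open) and the integrands agree at every support point (`SIV.μ_compl_support`): if `69 ℓ ≤ |prH X - x|` then `η = 0`
(`image_eq_zero_of_notMem_tsupport`). -/
theorem mom_transfer {W : SIV m n} {f : E m → E n} {x : E m} {ℓ : ℝ} (hℓ : 0 < ℓ) {S : Set (E (m + n))}
    (hS : MeasurableSet S)
    (hiff : ∀ X ∈ W.support, ‖prH m n X - x‖ < 69 * ℓ → (sT x (f x) ℓ X ∈ S ↔ X ∈ Wk m n))
    (η : E m → E n) (hη : tsupport η ⊆ Metric.ball 0 69) :
    ∫ Y in S, inner ℝ (prV m n Y - scl x ℓ f (prH m n Y)) (η (prH m n Y))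
        ∂(W.simil (mkHV x (f x)) ℓ hℓ (LinearIsometryEquiv.refl ℝ _)).μ
      = (ℓ ^ (m + 1))⁻¹ * ∫ X in Wk m n, inner ℝ (prV m n X - f (prH m n X)) (η (ℓ⁻¹ • (prH m n X - x))) ∂W.μ := by
  have hWk : MeasurableSet (Wk m n) := by
    have h1 : IsOpen {X : E (m + n) | ‖prH m n X‖ < 300} :=
      isOpen_lt ((prH m n).continuous.norm) continuous_const
    have h2 : IsOpen {X : E (m + n) | ‖prV m n X‖ < 1} :=
      isOpen_lt ((prV m n).continuous.norm) continuous_const
    exact (h1.inter h2).measurableSet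
  obtain ⟨e, he⟩ : ∃ e : E (m + n) ≃ᵐ E (m + n), ∀ X, e X = sT x (f x) ℓ X :=
    ⟨(Base.simHomeo (mkHV x (f x)) (LinearIsometryEquiv.refl ℝ _) hℓ).toMeasurableEquiv, fun _ => rfl⟩
  have hee : (sT x (f x) ℓ : E (m + n) → E (m + n)) = e := by
    funext X
    exact (he X).symm
  have hpos : 0 < ℓ ^ m := by positivity
  rw [SIV.simil_μ, Measure.restrict_smul, integral_smul_measure, ENNReal.toReal_ofReal (inv_nonneg.2 hpos.le)]
  change (ℓ ^ m)⁻¹ • ∫ Y in S, inner ℝ (prV m n Y - scl x ℓ f (prH m n Y)) (η (prH m n Y))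
      ∂(W.μ.map (sT x (f x) ℓ)) = _
  rw [hee, MeasurableEquiv.restrict_map, integral_map_equiv,
    ← integral_indicator (hS.preimage e.measurable), ← integral_indicator hWk, smul_eq_mul]
  have hae : ∀ᵐ X ∂W.μ, X ∈ W.support := by
    rw [ae_iff]
    exact W.μ_compl_support
  have key : ∀ᵐ X ∂W.μ, (e ⁻¹' S).indicator
      (fun X => inner ℝ (prV m n (e X) - scl x ℓ f (prH m n (e X))) (η (prH m n (e X)))) X
      = ℓ⁻¹ * (Wk m n).indicator
        (fun X => inner ℝ (prV m n X - f (prH m n X)) (η (ℓ⁻¹ • (prH m n X - x)))) X := by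
    filter_upwards [hae] with X hX
    rcases lt_or_ge ‖prH m n X - x‖ (69 * ℓ) with h | h
    · have h1 := hiff X hX h
      have h2 := vert_sT x hℓ f (X := X) (by linarith)
      by_cases hm : X ∈ Wk m n
      · have hm' : X ∈ e ⁻¹' S := by
          rw [Set.mem_preimage, he]
          exact h1.2 hm
        rw [Set.indicator_of_mem hm, Set.indicator_of_mem hm', he, h2, prH_sT, inner_smul_left]
        simp
      · have hm' : X ∉ e ⁻¹' S := by
          rw [Set.mem_preimage, he]
          exact fun h' => hm (h1.1 h')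
        rw [Set.indicator_of_notMem hm, Set.indicator_of_notMem hm', mul_zero]
    · have h0 : η (ℓ⁻¹ • (prH m n X - x)) = 0 := by
        refine image_eq_zero_of_notMem_tsupport fun h' => ?_
        have h2 := hη h'
        rw [Metric.mem_ball, dist_zero_right, norm_smul, Real.norm_of_nonneg (inv_nonneg.2 hℓ.le),
          inv_mul_lt_iff₀ hℓ] at h2
        linarith
      have e1 : (e ⁻¹' S).indicator
          (fun X => inner ℝ (prV m n (e X) - scl x ℓ f (prH m n (e X))) (η (prH m n (e X)))) X = 0 := by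
        refine Set.indicator_apply_eq_zero.2 fun _ => ?_
        rw [he, prH_sT, h0, inner_zero_right]
      have e2 : (Wk m n).indicator
          (fun X => inner ℝ (prV m n X - f (prH m n X)) (η (ℓ⁻¹ • (prH m n X - x)))) X = 0 := by
        refine Set.indicator_apply_eq_zero.2 fun _ => ?_
        rw [h0, inner_zero_right]
      rw [e1, e2, mul_zero]
  rw [integral_congr_ae key, integral_const_mul, ← mul_assoc]
  congr 1
  rw [pow_succ, mul_inv]

end Claimed.Agent.R322.Fit
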