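import Claimed.Agent.R322.Fit.Fail.Defs
import Claimed.Agent.R322.Fit.Fail.Rs

/-!
# AE Lemma 7.2, part (S): pointwise facts (similarity in horizontal/vertical coordinates, vertical against normal foot point)
-/

set_option autoImplicit false

open scoped ENNReal ContDiff
open MeasureTheory Filter Topology

namespace Claimed.Agent.R322.Fit

open Claimed.Agent.R322.Tube Claimed.Agent.R322.Freq Claimed.Agent.R322.Lin

variable {m n : ℕ}

theorem sc_pos' (j : ℕ) : 0 < sc j := by unfold sc; positivity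

theorem sc_le_one' (j : ℕ) : sc j ≤ 1 := by
  unfold sc
  exact pow_le_one₀ (by norm_num) (by norm_num)

/-! ### the similarity in horizontal / vertical coordinates -/

/-- the similarity `X ↦ (X - (x, z)) / ℓ` -/
noncomputable abbrev sT (x : E m) (z : E n) (ℓ : ℝ) : E (m + n) → E (m + n) :=
  simMap (mkHV x z) ℓ (LinearIsometryEquiv.refl ℝ _)

theorem sT_apply (x : E m) (z : E n) (ℓ : ℝ) (X : E (m + n)) : sT x z ℓ X = ℓ⁻¹ • (X - mkHV x z) := rfl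

theorem prH_sT (x : E m) (z : E n) (ℓ : ℝ) (X : E (m + n)) :
    prH m n (sT x z ℓ X) = ℓ⁻¹ • (prH m n X - x) := by
  rw [sT_apply, map_smul, map_sub, prH_mkHV]

theorem prV_sT (x : E m) (z : E n) (ℓ : ℝ) (X : E (m + n)) :
    prV m n (sT x z ℓ X) = ℓ⁻¹ • (prV m n X - z) := by
  rw [sT_apply, map_smul, map_sub, prV_mkHV]

theorem norm_prH_sT (x : E m) (z : E n) {ℓ : ℝ} (hℓ : 0 < ℓ) (X : E (m + n)) :
    ‖prH m n (sT x z ℓ X)‖ = ℓ⁻¹ * ‖prH m n X - x‖ := by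
  rw [prH_sT, norm_smul, Real.norm_of_nonneg (inv_nonneg.2 hℓ.le)]

/-- vertical heights -/
theorem vert_sT (x : E m) {ℓ : ℝ} (hℓ : 0 < ℓ) (f : E m → E n) {X : E (m + n)}
    (hX : ‖prH m n X - x‖ ≤ 76 * ℓ) :
    prV m n (sT x (f x) ℓ X) - scl x ℓ f (prH m n (sT x (f x) ℓ X)) = ℓ⁻¹ • (prV m n X - f (prH m n X)) := by
  have h1 : ‖prH m n (sT x (f x) ℓ X)‖ ≤ 76 := by
    rw [norm_prH_sT x _ hℓ, inv_mul_le_iff₀ hℓ]
    linarith
  rw [scl_eq_rsc x ℓ f h1, prV_sT, prH_sT, rsc, smul_smul, mul_inv_cancel₀ hℓ.ne', one_smul, add_sub_cancel,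
    ← smul_sub]
  congr 1
  abel

/-! ### vertical against normal foot point -/

theorem foot_vert {u : E m → E n} (hc : Continuous u) (hL : ∀ y y', ‖u y - u y'‖ ≤ 1 / 2 * ‖y - y'‖)
    (Y : E (m + n)) :
    ‖zz u Y‖ ≤ ‖prV m n Y - u (prH m n Y)‖ ∧ ‖prV m n Y - u (prH m n Y)‖ ≤ 2 * ‖zz u Y‖ ∧
      ‖prH m n Y - npr u Y‖ ≤ ‖zz u Y‖ ∧ ‖prV m n Y - u (npr u Y)‖ ≤ ‖zz u Y‖ := by
  have e1 : prH m n (zz u Y) = prH m n Y - npr u Y := by
    unfold zz Fg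
    rw [map_sub, prH_mkHV]
  have e2 : prV m n (zz u Y) = prV m n Y - u (npr u Y) := by
    unfold zz Fg
    rw [map_sub, prV_mkHV]
  have h3 : ‖prH m n Y - npr u Y‖ ≤ ‖zz u Y‖ := e1 ▸ norm_prH_le _
  have h4 : ‖prV m n Y - u (npr u Y)‖ ≤ ‖zz u Y‖ := e2 ▸ norm_prV_le _
  refine ⟨?_, ?_, h3, h4⟩
  · have h := npr_spec hc Y (prH m n Y)
    have e : Y - Fg u (prH m n Y) = inV m n (prV m n Y - u (prH m n Y)) := by
      unfold Fg
      conv_lhs => rw [← mkHV_prH_prV Y]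
      rw [prH_mkHV, ← mkHV_sub, sub_self, inV_apply]
    rw [e, norm_inV] at h
    exact h
  · have h5 := hL (npr u Y) (prH m n Y)
    rw [norm_sub_rev (npr u Y)] at h5
    have e : prV m n Y - u (prH m n Y) = (prV m n Y - u (npr u Y)) + (u (npr u Y) - u (prH m n Y)) := by abel
    rw [e]
    refine (norm_add_le _ _).trans ?_
    linarith [norm_nonneg (zz u Y)]

theorem lip_of_slope {u : E m → E n} (hd : Differentiable ℝ u) (hs : ∀ y, ‖fderiv ℝ u y‖ ≤ 1 / 2) (y y' : E m) :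
    ‖u y - u y'‖ ≤ 1 / 2 * ‖y - y'‖ :=
  Convex.norm_image_sub_le_of_norm_fderiv_le (fun z _ => hd z) (fun z _ => hs z) convex_univ (Set.mem_univ _)
    (Set.mem_univ _)

/-- from the normal cylinder to the working region -/
theorem cyl_to_wk {f : E m → E n} {x : E m} {ℓ h : ℝ} (hℓ : 0 < ℓ) (hℓ1 : ℓ ≤ 1) (hx : ‖x‖ < 5)
    (hfx : ‖f x‖ ≤ 1 / 4) (hc : Continuous (scl x ℓ f))
    (hL : ∀ y y', ‖scl x ℓ f y - scl x ℓ f y'‖ ≤ 1 / 2 * ‖y - y'‖)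
    (hu : ∀ y, ‖scl x ℓ f y‖ ≤ 1 / 4) (hh : h ≤ 1 / 4) {X : E (m + n)}
    (hX : sT x (f x) ℓ X ∈ Cyl (scl x ℓ f) (Metric.ball 0 72) h) :
    ‖prH m n X - x‖ < 73 * ℓ ∧ X ∈ Wk m n := by
  obtain ⟨h1, h2⟩ := hX
  obtain ⟨-, -, h3, h4⟩ := foot_vert hc hL (sT x (f x) ℓ X)
  rw [Metric.mem_ball, dist_zero_right] at h1
  have h5 : ‖prH m n (sT x (f x) ℓ X)‖ < 73 := by
    have := norm_sub_norm_le (prH m n (sT x (f x) ℓ X)) (npr (scl x ℓ f) (sT x (f x) ℓ X))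
    linarith
  have h6 : ‖prV m n (sT x (f x) ℓ X)‖ ≤ 1 / 2 := by
    have := norm_sub_norm_le (prV m n (sT x (f x) ℓ X)) (scl x ℓ f (npr (scl x ℓ f) (sT x (f x) ℓ X)))
    have := hu (npr (scl x ℓ f) (sT x (f x) ℓ X))
    linarith
  rw [norm_prH_sT x _ hℓ, inv_mul_lt_iff₀ hℓ] at h5
  rw [prV_sT, norm_smul, Real.norm_of_nonneg (inv_nonneg.2 hℓ.le), inv_mul_le_iff₀ hℓ] at h6
  refine ⟨by linarith, ?_, ?_⟩
  · have := norm_sub_norm_le (prH m n X) x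
    nlinarith
  · have := norm_sub_norm_le (prV m n X) (f x)
    nlinarith

/-- from small vertical height to the normal cylinder -/
theorem vert_to_cyl {u : E m → E n} (hc : Continuous u) (hL : ∀ y y', ‖u y - u y'‖ ≤ 1 / 2 * ‖y - y'‖)
    {Y : E (m + n)} {h r : ℝ} (hY : ‖prH m n Y‖ < r) (hv : ‖prV m n Y - u (prH m n Y)‖ < h)
    (hv1 : ‖prV m n Y - u (prH m n Y)‖ ≤ 1) : Y ∈ Cyl u (Metric.ball 0 (r + 1)) h := by
  obtain ⟨h1, -, h3, -⟩ := foot_vert hc hL Y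
  refine ⟨?_, lt_of_le_of_lt h1 hv⟩
  rw [Metric.mem_ball, dist_zero_right]
  have := norm_sub_norm_le (npr u Y) (prH m n Y)
  rw [norm_sub_rev] at this
  linarith

end Claimed.Agent.R322.Fit
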