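import Claimed.Agent.R322.Fit.Fail.QCore
import Claimed.Agent.R322.Fit.Fail.QNum

/-!
# AE Lemma 7.2, part (Q): no separation near `y₀` and a small first moment force a small second moment near `y₀`

Quantitative, no compactness.  Notation: `μ = N.μ`, `π = npr N.u`, `z = zz N.u`, `λ = μH[m]` on `E m`, `C₀ = |C|`, kits `K : SK N 72 a C ε Cm`,
`v : VK N ε Cg` (`Lin.exists_kits`), `r₀ = 1/400`, `B_i = ball y₀ (i r₀)`, `s_α = (prV z)_α / a` (`α : Fin n`), `|s_α| ≤ C₀`.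

PLAN (helper224; mollification route of helper281).
 (1) first variation with `Y = φ(π X) ⟨z, w⟩ L_j`, `L_j = lift u (const e_j)`:  for `φ ∈ C_c^∞(B_71)`, `|w| ≤ 1`
       `|∫ ⟨z,w⟩ ∂_jφ(π) dμ| ≤ C₁ ∫ (|φ(π)| (√e + ε|z|) + |Dφ(π)| |z| e) dμ`,  `e = tilt`
     [`Dπ(P L_j) = e_j - dFp K B J dF e_j`, `|B| ≤ e`; `Dz(P L_j) = P_vh L_j - A_z K P_h P L_j`; `|tdiv P DL_j| ≤ C ε` by `VK.ltrace`].
 (2) vertical → normal moment with error `o(a)`: `|∫ φ(π) s_α dμ| ≤ τ A`, `τ = C a + 3 C₀ Cm ε`, `A ≥ |D^i φ|`, `i ≤ max q 1`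
     [`η = φ e_α` in `HasMom`; `prV X - u(prH X) = prV z + O(ε|z|)`, `|prH X - π X| = |prH z| ≤ ε |z|`].
 (3) abstract (finite measures on `E m`): `V(y) = ∫ ρ_s(y - π) s_α dμ`, `s = κ a`: `|∂_j V(y)| ≤` (1) with `φ = ρ_s(y - ·)`; Tonelli:
     `∫ |DV| dλ ≤ C (1 + a/κ)`; `∫_{B_1} |V - ρ_r ⋆ V| ≤ r ∫_{B_2} |DV|`; `ρ_r ⋆ V = ρ_s ⋆ (ρ_r * U)` and `|ρ_r * U| ≤ τ C_ρ r^{-m-q}` by (2).
     Hence `∫_{B_1} |V| dλ ≤ C (r + τ r^{-m-q})`.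
 (4) cone geometry: `X, X'` within `c a` of `Γ` (slope `≤ 1`), `|π X - π X'| ≤ s`  ⟹  `|s_α(X) - s_α(X')| ≤ ω := 2κ + 2 ε C₀ + 4c`.
 (5) `m_s(y) = ∫ ρ_s(y - π) dμ ≥ c_m > 0` at `y = π X₀`, `X₀ ∈ support` (`W.lower_mass` on `ball X₀ (s/4)`, `ρ_s ≥ c_ρ s^{-m}` on `B_{s/2}`).
 (6) `Far = {dist(·,Γ) ≥ c a}`: `μ(Far ∩ π⁻¹ B_3) ≤ μ(SepSet) + μ{|P - PH| > 1/100} ≤ c + C a²` (`|P - P_h| ≤ 2 √e`, `|P_h - PH| ≤ C ε`, Markov).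
 (7) for `X₀ ∈ Near ∩ support`, `y = π X₀ ∈ B_1`: `|s_α(X₀)| m_s(y) ≤ |V(y)| + ω m_s(y) + 2 C₀ f_s(y)`, `f_s = ρ_s * π_#(μ⌞(Far ∩ π⁻¹ B_3))`.
 (8) `Bad = {y ∈ B_1 : |V^α(y)| > δ₁ for some α or f_s(y) > δ₁}`, `λ(Bad) ≤ (Σ_α ∫_{B_1}|V^α| + μ(Far ∩ π⁻¹B_3)) / δ₁`,
     `ν(Bad) ≤ Q C_v λ(Bad) + |M|(B_1)` (`Tube.intM_le`), and
     `sm ≤ (C₀ a)² (μ(Far ∩ π⁻¹ B_1) + ν(Bad)) + (2 n a ((1 + 2C₀) δ₁ / c_m + ω))² Cm`.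
 Order of the constants: `δ₁, κ, c` (last term), `r`, `c` again, `ε₁`.
-/

set_option autoImplicit false

open scoped ENNReal ContDiff
open MeasureTheory Filter Topology

namespace Claimed.Agent.R322.Fit

open Claimed.Agent.R322.Tube Claimed.Agent.R322.Freq Claimed.Agent.R322.Lin

/-- **(Q)** -/
theorem fail_small (m n Q : ℕ) (hm : 1 ≤ m) (hn : 1 ≤ n) (hQ : 1 ≤ Q) :
    ∃ h₀ : ℝ, 0 < h₀ ∧ ∀ (J q : ℕ) (h C δ : ℝ), 4 ≤ J → 0 < h → h ≤ h₀ → 0 < δ →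
      ∃ c ε₁ : ℝ, 0 < c ∧ c ≤ 1 ∧ 0 < ε₁ ∧ ∀ (N : NCyl m n) (a ε : ℝ), ε ≤ ε₁ → ScHyp N Q J h a C ε →
        HasMom N q a C → ∀ y₀ : E m, ‖y₀‖ < 30 → ∀ Γ : Set (E (m + n)), ConeSet 1 Γ →
          N.μ (SepSet N y₀ Γ (c * a)) < ENNReal.ofReal c → sm N y₀ (1 / 400) < δ * a ^ 2 := by
  obtain ⟨h₁, Cg, hh₁, hCg, HK⟩ := Lin.exists_kits m n Q 72 (by norm_num)
  obtain ⟨C₁, hC₁, Hvar⟩ := fq_var m n Cg hCg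
  obtain ⟨D, hD, Hdens⟩ := fq_dens m n Q
  obtain ⟨ε₂, C₂, hε₂, hC₂, Hfar⟩ := fq_far m n
  refine ⟨min h₁ (1 / 9), lt_min hh₁ (by norm_num), fun J q h C δ hJ hh hh₀ hδ => ?_⟩
  obtain ⟨Cm, hCm, HK⟩ := HK C
  obtain ⟨cρ, Cρ, hcρ, hCρ, Hker⟩ := exists_kr_bounds m (max q 1)
  have hkap := kap_pos m
  obtain ⟨δ₁, κ, r, c, ε₁, hδ₁, hκ, hr, hr1, hc, hc1, hε₁, hε₁3, hε₁2, Hnum⟩ :=
    fq_num (nn := n) (mm := m) (C₀ := |C|) (Cm := Cm) (cm := cρ * kap m * (1 / 4) ^ m) (D := D)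
      (C₁ := C₁) (C₂ := C₂) (Cρ := Cρ) (vb := vB m) (δ := δ) (h := h) (ε₂ := ε₂) (m + max q 1)
      (Nat.cast_nonneg _) (Nat.cast_nonneg _) (abs_nonneg _) hCm (by positivity) hD hC₁ hC₂ hCρ
      (vB_nonneg m) hδ hh hε₂
  refine ⟨c, ε₁, hc, hc1, hε₁, fun N a ε hε hS hMom y₀ hy₀ Γ hΓ hSep => ?_⟩
  have ha := hS.a_pos
  have haε := hS.a_le
  obtain ⟨n1, n2, n3, n4⟩ := Hnum a ε ha haε hε
  have hε0 : 0 ≤ ε := (ha.trans_le haε).le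
  have hε3 : ε ≤ 1 / 3 := hε.trans hε₁3
  obtain ⟨K, v⟩ := HK N a ε hS.N_Q (hS.N_h ▸ hh₀.trans (min_le_left _ _)) ha
    (haε.trans (hε3.trans (by norm_num))) hε0 (hε3.trans (by norm_num)) hS.small
  obtain ⟨π', hπm, hπe⟩ := K.ok.aemeasurable_npr
  have hs : 0 < κ * a := by positivity
  obtain ⟨kS1, kS2, -⟩ := Hker (κ * a) hs (n2.trans (by norm_num))
  obtain ⟨-, -, kR3⟩ := Hker r hr (hr1.trans (by norm_num))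
  have HI := fun α => fq_L1 K hMom hC₁ hCρ (Hvar N a C ε Cm K v) hπm hπe hy₀ hs n2 hr hr1 kS2 kR3 α
  have hvb := vB_nonneg m
  have key := fq_core hm K hε3 (hS.N_h ▸ hh₀.trans (min_le_right _ _)) hD
    (Hdens N a C ε Cm hS.N_Q K) hC₂ (Hfar N a C ε Cm K (hε.trans hε₁2) n1) hcρ kS1 hs n2
    (hS.N_h ▸ n3) hc hπm hπe hy₀ hΓ hSep (by positivity) HI (θ₁ := δ₁ * a) (θ₂ := δ₁)
    (by positivity) hδ₁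
  exact key.trans_lt n4

end Claimed.Agent.R322.Fit
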